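import Crest.Agent.R006.Defs

set_option autoImplicit false

namespace Crest.Agent.R006

open Polynomial Finset Filter Topology

/-- Pointwise double Leibniz expansion. -/
theorem andr_expand {n : ℕ} (F G : Fin n → ℝ → ℝ) (x : Fin n → ℝ) :
    (Matrix.of fun r i => F r (x i)).det * (Matrix.of fun i k => G k (x i)).det =
      ∑ σ : Equiv.Perm (Fin n), ∑ τ : Equiv.Perm (Fin n),
        (((Equiv.Perm.sign σ : ℤ) : ℝ) * ((Equiv.Perm.sign τ : ℤ) : ℝ)) *
          ∏ i, (F (σ i) (x i) * G (τ i) (x i)) := by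
  rw [← Matrix.det_transpose (Matrix.of fun i k => G k (x i)), Matrix.det_apply',
    Matrix.det_apply', Finset.sum_mul_sum]
  refine Finset.sum_congr rfl fun σ _ => Finset.sum_congr rfl fun τ _ => ?_
  simp only [Matrix.of_apply, Matrix.transpose_apply, Finset.prod_mul_distrib]
  ring

theorem andr_sum {n : ℕ} (M : Matrix (Fin n) (Fin n) ℝ) :
    ∑ σ : Equiv.Perm (Fin n), ∑ τ : Equiv.Perm (Fin n),
        (((Equiv.Perm.sign σ : ℤ) : ℝ) * ((Equiv.Perm.sign τ : ℤ) : ℝ)) *
          ∏ i, M (σ i) (τ i) = (n.factorial : ℝ) * M.det := by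
  rw [Finset.sum_comm]
  have h : ∀ τ : Equiv.Perm (Fin n), ∑ σ : Equiv.Perm (Fin n),
      (((Equiv.Perm.sign σ : ℤ) : ℝ) * ((Equiv.Perm.sign τ : ℤ) : ℝ)) *
          ∏ i, M (σ i) (τ i) = M.det := by
    intro τ
    have h1 := Matrix.det_permute' τ M
    rw [Matrix.det_apply'] at h1
    simp only [Matrix.submatrix_apply, id] at h1
    have h2 : ((Equiv.Perm.sign τ : ℤ) : ℝ) * ((Equiv.Perm.sign τ : ℤ) : ℝ) = 1 := by
      rcases Int.units_eq_one_or (Equiv.Perm.sign τ) with h | h <;> simp [h]
    calc ∑ σ : Equiv.Perm (Fin n),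
          (((Equiv.Perm.sign σ : ℤ) : ℝ) * ((Equiv.Perm.sign τ : ℤ) : ℝ)) * ∏ i, M (σ i) (τ i)
        = ((Equiv.Perm.sign τ : ℤ) : ℝ) * ∑ σ : Equiv.Perm (Fin n),
          ((Equiv.Perm.sign σ : ℤ) : ℝ) * ∏ i, M (σ i) (τ i) := by
          rw [Finset.mul_sum]
          exact Finset.sum_congr rfl fun σ _ => by ring
      _ = M.det := by rw [h1, ← mul_assoc, h2, one_mul]
  simp only [h, Finset.sum_const, Finset.card_univ, Fintype.card_perm, Fintype.card_fin,
    nsmul_eq_mul]

/-- Andréief's identity, as an inequality. -/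
theorem abs_det_integral_le {n : ℕ} (a b : ℝ) (hab : a ≤ b) (F G : Fin n → ℝ → ℝ)
    (hint : ∀ r k, MeasureTheory.IntegrableOn (fun x => F r x * G k x) (Set.Ioo a b)) (B : ℝ)
    (hB : ∀ x : Fin n → ℝ, (∀ i, x i ∈ Set.Ioo a b) →
      |(Matrix.of fun r i => F r (x i)).det| * |(Matrix.of fun i k => G k (x i)).det| ≤ B) :
    |(Matrix.of fun r k => ∫ x in a..b, F r x * G k x).det| ≤ (b - a) ^ n * B := by
  set μ : MeasureTheory.Measure ℝ := MeasureTheory.volume.restrict (Set.Ioo a b) with hμ
  have hM : (Matrix.of fun r k => ∫ x in a..b, F r x * G k x) =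
      Matrix.of fun r k => ∫ x, F r x * G k x ∂μ := by
    ext r k
    simp only [Matrix.of_apply]
    rw [intervalIntegral.integral_of_le hab, MeasureTheory.integral_Ioc_eq_integral_Ioo]
  rw [hM]
  set M : Matrix (Fin n) (Fin n) ℝ := Matrix.of fun r k => ∫ x, F r x * G k x ∂μ with hMdef
  set P : MeasureTheory.Measure (Fin n → ℝ) := MeasureTheory.Measure.pi fun _ => μ with hP
  have hterm : ∀ σ τ : Equiv.Perm (Fin n), MeasureTheory.Integrable
      (fun x : Fin n → ℝ => (((Equiv.Perm.sign σ : ℤ) : ℝ) * ((Equiv.Perm.sign τ : ℤ) : ℝ)) *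
          ∏ i, (F (σ i) (x i) * G (τ i) (x i))) P := by
    intro σ τ
    refine MeasureTheory.Integrable.const_mul ?_ _
    exact MeasureTheory.Integrable.fintype_prod (f := fun i x => F (σ i) x * G (τ i) x)
      (μ := fun _ => μ) fun i => hint _ _
  have hid : ∫ x, (Matrix.of fun r i => F r (x i)).det * (Matrix.of fun i k => G k (x i)).det ∂P
      = (n.factorial : ℝ) * M.det := by
    simp_rw [andr_expand]
    rw [MeasureTheory.integral_finsetSum _ fun σ _ =>
      MeasureTheory.integrable_finsetSum _ fun τ _ => hterm σ τ, ← andr_sum]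
    refine Finset.sum_congr rfl fun σ _ => ?_
    rw [MeasureTheory.integral_finsetSum _ fun τ _ => hterm σ τ]
    refine Finset.sum_congr rfl fun τ _ => ?_
    rw [MeasureTheory.integral_const_mul]
    congr 1
    exact MeasureTheory.integral_fintype_prod_eq_prod (fun i x => F (σ i) x * G (τ i) x)
  have hae : ∀ᵐ x ∂P, ∀ i, x i ∈ Set.Ioo a b := by
    rw [MeasureTheory.ae_all_iff]
    intro i
    exact MeasureTheory.Measure.tendsto_eval_ae_ae.eventually
      (MeasureTheory.ae_restrict_mem measurableSet_Ioo)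
  have hPuniv : P.real Set.univ = (b - a) ^ n := by
    rw [MeasureTheory.Measure.real, hP, MeasureTheory.Measure.pi_univ]
    simp [hμ, ENNReal.toReal_ofReal (sub_nonneg.2 hab)]
  have : MeasureTheory.IsFiniteMeasure P := by
    rw [hP]
    infer_instance
  have hbd : ‖∫ x, (Matrix.of fun r i => F r (x i)).det *
      (Matrix.of fun i k => G k (x i)).det ∂P‖ ≤ B * P.real Set.univ := by
    refine MeasureTheory.norm_integral_le_of_norm_le_const ?_
    filter_upwards [hae] with x hx
    rw [Real.norm_eq_abs, abs_mul]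
    exact hB x hx
  rw [hid, hPuniv, Real.norm_eq_abs, abs_mul, Nat.abs_cast] at hbd
  have h1 : (1 : ℝ) ≤ n.factorial := by exact_mod_cast n.factorial_pos
  nlinarith [abs_nonneg M.det]

theorem andr_cauchy_step {K : Type*} [Field K] (a b c d : K) (h1 : 1 - a * d ≠ 0)
    (h2 : 1 - a * c ≠ 0) (h3 : 1 - b * d ≠ 0) :
    1 / (1 - a * d) = (a - b) / (1 - a * c) * ((d - c) / (1 - b * d) * (1 / (1 - a * d))) +
      (1 - b * c) / (1 - a * c) * (1 / (1 - b * d)) := by
  have e : (a - b) * (d - c) + (1 - b * c) * (1 - a * d) = (1 - a * c) * (1 - b * d) := by ring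
  generalize 1 - a * d = x at *
  generalize 1 - a * c = y at *
  generalize 1 - b * d = z at *
  generalize 1 - b * c = w at *
  generalize a - b = u at *
  generalize d - c = v at *
  field_simp
  linear_combination -e

/-- Cauchy's determinant. -/
theorem cauchy_det {K : Type*} [Field K] {n : ℕ} (t s : Fin n → K) (h : ∀ i j, 1 - t i * s j ≠ 0) :
    (Matrix.of fun i j => 1 / (1 - t i * s j)).det =
      (∏ i, ∏ j ∈ Ioi i, (t j - t i) * (s j - s i)) / ∏ i, ∏ j, (1 - t i * s j) := by
  induction n with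
  | zero => simp
  | succ n ih =>
    set B : Matrix (Fin (n + 1)) (Fin (n + 1)) K := Matrix.of fun i j =>
      if i = 0 then 1 / (1 - t 0 * s j) else
        (t i - t 0) / (1 - t i * s 0) * ((s j - s 0) / (1 - t 0 * s j) * (1 / (1 - t i * s j)))
      with hB
    have h1 : (Matrix.of fun i j => 1 / (1 - t i * s j)).det = B.det := by
      refine Matrix.det_eq_of_forall_row_eq_smul_add_const
        (fun i => if i = 0 then 0 else (1 - t 0 * s 0) / (1 - t i * s 0)) 0 (by simp) ?_
      intro i j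
      by_cases hi : i = 0
      · simp [hB, hi]
      · simp only [hB, Matrix.of_apply, hi, if_false, if_true]
        exact andr_cauchy_step _ _ _ _ (h i j) (h i 0) (h 0 j)
    rw [h1, Matrix.det_succ_column_zero, Fin.sum_univ_succ, Finset.sum_eq_zero, add_zero]
    · have h2 : B.submatrix (Fin.succAbove 0) Fin.succ = Matrix.of fun i j =>
          (t i.succ - t 0) / (1 - t i.succ * s 0) * (Matrix.of fun i j =>
            (s j.succ - s 0) / (1 - t 0 * s j.succ) *
              (Matrix.of fun i j : Fin n => 1 / (1 - t i.succ * s j.succ)) i j) i j := by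
        ext i j
        simp [hB]
      rw [h2, Matrix.det_mul_column, Matrix.det_mul_row,
        ih (fun i => t i.succ) (fun j => s j.succ) (fun i j => h _ _)]
      simp only [hB, Matrix.of_apply, if_true, Fin.prod_univ_succ, Fin.prod_Ioi_zero,
        Fin.prod_Ioi_succ, Finset.prod_mul_distrib, Finset.prod_div_distrib]
      have e1 : (∏ i : Fin n, (1 - t i.succ * s 0)) ≠ 0 := Finset.prod_ne_zero_iff.2 fun i _ => h _ _
      have e2 : (∏ i : Fin n, (1 - t 0 * s i.succ)) ≠ 0 := Finset.prod_ne_zero_iff.2 fun i _ => h _ _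
      have e3 : (∏ i : Fin n, ∏ j : Fin n, (1 - t i.succ * s j.succ)) ≠ 0 :=
        Finset.prod_ne_zero_iff.2 fun i _ => Finset.prod_ne_zero_iff.2 fun j _ => h _ _
      have e4 := h 0 0
      field_simp
      simp
    · intro i _
      simp [hB]

end Crest.Agent.R006
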