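import Crest.Agent.R006.Series

/-! Congruences modulo `p` between `p`-integral rationals. -/

set_option autoImplicit false
set_option linter.unusedSectionVars false

namespace Crest.Agent.R006

open Polynomial Finset Filter Topology

/-- `a` is `p`-integral and congruent to `b` modulo `p`. -/
def Cg (p : ℕ) (a b : ℚ) : Prop := padicNorm p a ≤ 1 ∧ padicNorm p (a - b) < 1

variable {p : ℕ} [hp : Fact p.Prime]

theorem pn_add_le {a b t : ℚ} (ha : padicNorm p a ≤ t) (hb : padicNorm p b ≤ t) :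
    padicNorm p (a + b) ≤ t := padicNorm.nonarchimedean.trans (max_le ha hb)

theorem pn_sub_le {a b t : ℚ} (ha : padicNorm p a ≤ t) (hb : padicNorm p b ≤ t) :
    padicNorm p (a - b) ≤ t := padicNorm.sub.trans (max_le ha hb)

theorem pn_add_lt {a b t : ℚ} (ha : padicNorm p a < t) (hb : padicNorm p b < t) :
    padicNorm p (a + b) < t := padicNorm.nonarchimedean.trans_lt (max_lt ha hb)

theorem pn_mul_le {a b s t : ℚ} (ha : padicNorm p a ≤ s) (hb : padicNorm p b ≤ t) :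
    padicNorm p (a * b) ≤ s * t := by
  rw [padicNorm.mul]
  exact mul_le_mul ha hb (padicNorm.nonneg _) ((padicNorm.nonneg _).trans ha)

theorem pn_sum_le {ι : Type*} (s : Finset ι) (f : ι → ℚ) {t : ℚ} (ht : 0 ≤ t)
    (h : ∀ i ∈ s, padicNorm p (f i) ≤ t) : padicNorm p (∑ i ∈ s, f i) ≤ t :=
  padicNorm.sum_le' h ht

theorem pn_nat_le (m : ℕ) : padicNorm p (m : ℚ) ≤ 1 := padicNorm.of_nat m

theorem pn_int_le (m : ℤ) : padicNorm p (m : ℚ) ≤ 1 := padicNorm.of_int m

theorem pn_two_le : padicNorm p (2 : ℚ) ≤ 1 := by exact_mod_cast pn_nat_le (p := p) 2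

theorem pn_p_lt : padicNorm p (p : ℚ) < 1 := padicNorm.padicNorm_p_lt_one_of_prime

theorem pn_inv (a : ℚ) : padicNorm p a⁻¹ = (padicNorm p a)⁻¹ := by
  have := padicNorm.div (p := p) 1 a
  simpa using this

theorem pn_inv_int_of_not_dvd {m : ℤ} (h : ¬ (p : ℤ) ∣ m) : padicNorm p (m : ℚ)⁻¹ ≤ 1 := by
  rw [pn_inv, (padicNorm.int_eq_one_iff m).2 h]; simp

/-- `|1/m|_p ≤ p^(log_p H)` for `|m| ≤ H`. -/
theorem pn_inv_int_le {m : ℤ} {H : ℕ} (h : m.natAbs ≤ H) :
    padicNorm p (m : ℚ)⁻¹ ≤ (p : ℚ) ^ Nat.log p H := by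
  have hp1 : (1 : ℚ) ≤ p := by exact_mod_cast hp.out.one_le
  rcases eq_or_ne m 0 with rfl | hm
  · simp
  rw [pn_inv, padicNorm.eq_zpow_of_nonzero (by exact_mod_cast hm), ← zpow_neg, neg_neg,
    padicValRat.of_int, ← zpow_natCast]
  apply zpow_le_zpow_right₀ hp1
  have h1 : padicValInt p m ≤ Nat.log p H := by
    unfold padicValInt
    exact (padicValNat_le_nat_log _).trans (Nat.log_mono_right h)
  exact_mod_cast h1

theorem pn_inv_nat_le {m H : ℕ} (h : m ≤ H) :
    padicNorm p (m : ℚ)⁻¹ ≤ (p : ℚ) ^ Nat.log p H := by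
  have := pn_inv_int_le (p := p) (m := (m : ℤ)) (H := H) (by simpa using h)
  simpa using this

namespace Cg

theorem refl' {a : ℚ} (h : padicNorm p a ≤ 1) : Cg p a a := ⟨h, by simp⟩

theorem right {a b : ℚ} (h : Cg p a b) : padicNorm p b ≤ 1 := by
  have : b = a - (a - b) := by ring
  rw [this]; exact pn_sub_le h.1 h.2.le

theorem symm {a b : ℚ} (h : Cg p a b) : Cg p b a :=
  ⟨h.right, by rw [← padicNorm.neg, neg_sub]; exact h.2⟩

theorem trans {a b c : ℚ} (h : Cg p a b) (h' : Cg p b c) : Cg p a c :=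
  ⟨h.1, by
    have : a - c = (a - b) + (b - c) := by ring
    rw [this]; exact pn_add_lt h.2 h'.2⟩

theorem of_eq {a b c : ℚ} (h : Cg p a b) (e : b = c) : Cg p a c := e ▸ h

theorem of_eq' {a b c : ℚ} (e : a = b) (h : Cg p b c) : Cg p a c := e ▸ h

theorem add {a b c d : ℚ} (h : Cg p a b) (h' : Cg p c d) : Cg p (a + c) (b + d) :=
  ⟨pn_add_le h.1 h'.1, by
    have : a + c - (b + d) = (a - b) + (c - d) := by ring
    rw [this]; exact pn_add_lt h.2 h'.2⟩

theorem neg {a b : ℚ} (h : Cg p a b) : Cg p (-a) (-b) :=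
  ⟨by rw [padicNorm.neg]; exact h.1, by
    have : -a - -b = -(a - b) := by ring
    rw [this, padicNorm.neg]; exact h.2⟩

theorem sub {a b c d : ℚ} (h : Cg p a b) (h' : Cg p c d) : Cg p (a - c) (b - d) := by
  simpa [sub_eq_add_neg] using h.add h'.neg

theorem mul {a b c d : ℚ} (h : Cg p a b) (h' : Cg p c d) : Cg p (a * c) (b * d) :=
  ⟨by simpa using pn_mul_le h.1 h'.1, by
    have : a * c - b * d = (a - b) * c + b * (c - d) := by ring
    rw [this]
    apply pn_add_lt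
    · rw [padicNorm.mul]
      exact mul_lt_one_of_nonneg_of_lt_one_left (padicNorm.nonneg _) h.2 h'.1
    · rw [padicNorm.mul]
      exact mul_lt_one_of_nonneg_of_lt_one_right h.right (padicNorm.nonneg _) h'.2⟩

theorem pow {a b : ℚ} (h : Cg p a b) (n : ℕ) : Cg p (a ^ n) (b ^ n) := by
  induction n with
  | zero => rw [pow_zero, pow_zero]; exact refl' padicNorm.one.le
  | succ n ih => rw [pow_succ, pow_succ]; exact ih.mul h

theorem sum {ι : Type*} (s : Finset ι) {f g : ι → ℚ} (h : ∀ i ∈ s, Cg p (f i) (g i)) :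
    Cg p (∑ i ∈ s, f i) (∑ i ∈ s, g i) := by
  classical
  induction s using Finset.induction_on with
  | empty => exact refl' (by simp)
  | insert a s ha ih =>
    rw [sum_insert ha, sum_insert ha]
    exact (h a (mem_insert_self _ _)).add (ih fun i hi => h i (mem_insert_of_mem hi))

theorem of_lt {a : ℚ} (h : padicNorm p a < 1) : Cg p a 0 := ⟨h.le, by simpa using h⟩

theorem int (m : ℤ) : Cg p (m : ℚ) m := refl' (pn_int_le m)

theorem nat (m : ℕ) : Cg p (m : ℚ) m := refl' (pn_nat_le m)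

theorem two : Cg p 2 2 := refl' pn_two_le

theorem of_int_modEq {a b : ℤ} (h : a ≡ b [ZMOD p]) : Cg p (a : ℚ) b :=
  ⟨pn_int_le a, by
    rw [← Int.cast_sub]
    exact (padicNorm.int_lt_one_iff _).2 h.symm.dvd⟩

theorem of_nat_modEq {a b : ℕ} (h : a ≡ b [MOD p]) : Cg p (a : ℚ) b := by
  have := of_int_modEq (p := p) (Int.natCast_modEq_iff.2 h)
  simpa using this

/-- Inverses of congruent units are congruent. -/
theorem inv {a b : ℚ} (h : Cg p a b) (ha : padicNorm p a⁻¹ ≤ 1) (hb : padicNorm p b⁻¹ ≤ 1)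
    (ha0 : a ≠ 0) (hb0 : b ≠ 0) : Cg p a⁻¹ b⁻¹ :=
  ⟨ha, by
    have : a⁻¹ - b⁻¹ = (b - a) * (a⁻¹ * b⁻¹) := by field_simp
    rw [this, padicNorm.mul]
    exact mul_lt_one_of_nonneg_of_lt_one_left (padicNorm.nonneg _) h.symm.2
      (by simpa using pn_mul_le ha hb)⟩

end Cg

/-- `p / m` modulo `p` for `|m| < p²`. -/
theorem cg_p_div_int {m : ℤ} (h : m.natAbs < p ^ 2) :
    Cg p ((p : ℚ) / m) (if (p : ℤ) ∣ m then ((m / p : ℤ) : ℚ)⁻¹ else 0) := by
  have hp0 : (p : ℚ) ≠ 0 := by exact_mod_cast hp.out.ne_zero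
  have hp0' : (p : ℤ) ≠ 0 := by exact_mod_cast hp.out.ne_zero
  split_ifs with hd
  · obtain ⟨c, rfl⟩ := hd
    rw [Int.mul_ediv_cancel_left _ hp0']
    have e : (p : ℚ) / (((p : ℤ) * c : ℤ) : ℚ) = (c : ℚ)⁻¹ := by
      push_cast
      rw [div_mul_eq_div_div, div_self hp0, one_div]
    rw [e]
    apply Cg.refl'
    have hc : c.natAbs < p := by
      rw [Int.natAbs_mul, Int.natAbs_natCast, sq] at h
      exact lt_of_mul_lt_mul_left h (Nat.zero_le _)
    have := pn_inv_int_le (p := p) (m := c) (H := c.natAbs) le_rfl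
    rwa [Nat.log_of_lt hc, pow_zero] at this
  · apply Cg.of_lt
    rw [div_eq_mul_inv, padicNorm.mul]
    exact mul_lt_one_of_nonneg_of_lt_one_left (padicNorm.nonneg _) pn_p_lt
      (pn_inv_int_of_not_dvd hd)

theorem cg_p_div_nat {m : ℕ} (h : m < p ^ 2) :
    Cg p ((p : ℚ) / m) (if p ∣ m then ((m / p : ℕ) : ℚ)⁻¹ else 0) := by
  have := cg_p_div_int (p := p) (m := (m : ℤ)) (by simpa using h)
  simp only [Int.cast_natCast, Int.natCast_dvd_natCast] at this
  convert this using 3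
  rw [← Int.natCast_div, Int.cast_natCast]

omit hp in
theorem sum_Icc_dvd (hp0 : 0 < p) (d : ℕ) (F : ℕ → ℚ) :
    ∑ l ∈ Icc 1 d, (if p ∣ l then F l else 0) = ∑ l ∈ Icc 1 (d / p), F (p * l) := by
  rw [← sum_filter]
  symm
  apply sum_nbij' (fun l => p * l) (fun l => l / p)
  · intro a ha
    simp only [mem_Icc, mem_filter] at ha ⊢
    refine ⟨⟨Nat.mul_pos hp0 ha.1, ?_⟩, dvd_mul_right _ _⟩
    have := (Nat.le_div_iff_mul_le hp0).1 ha.2
    linarith [mul_comm p a]
  · intro a ha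
    simp only [mem_Icc, mem_filter] at ha ⊢
    obtain ⟨⟨h1, h2⟩, c, rfl⟩ := ha
    rw [Nat.mul_div_cancel_left _ hp0]
    refine ⟨?_, (Nat.le_div_iff_mul_le hp0).2 (by linarith [mul_comm p c])⟩
    rcases Nat.eq_zero_or_pos c with rfl | hc
    · simp at h1
    · exact hc
  · intro a _
    exact Nat.mul_div_cancel_left _ hp0
  · intro a ha
    simp only [mem_filter] at ha
    exact Nat.mul_div_cancel' ha.2
  · intro a _; rfl

end Crest.Agent.R006
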