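import Crest.Agent.R006.Series
import Crest.Agent.R006.PadicCg

set_option autoImplicit false
set_option linter.unusedSectionVars false

namespace Crest.Agent.R006

open Polynomial Finset Filter Topology

variable {p : ℕ} [Fact p.Prime]

theorem pb_not_dvd_four_pow (hp : p ≠ 2) (k : ℕ) : ¬ (p : ℤ) ∣ (4 : ℤ) ^ k := by
  intro h
  have hpr : p.Prime := Fact.out
  have h1 : p ∣ 2 ^ (2 * k) := by
    rw [pow_mul]; exact_mod_cast h
  exact hp ((Nat.prime_dvd_prime_iff_eq hpr Nat.prime_two).1 (hpr.dvd_of_dvd_pow h1))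

theorem pb_inv_four_pow (hp : p ≠ 2) (k : ℕ) : padicNorm p ((4 : ℚ) ^ k)⁻¹ ≤ 1 := by
  have := pn_inv_int_of_not_dvd (pb_not_dvd_four_pow hp k)
  simpa using this

theorem cc_norm_le (hp : p ≠ 2) (l : ℕ) : padicNorm p (cc l) ≤ 1 := by
  obtain ⟨k, rfl | rfl⟩ := Nat.even_or_odd' l
  · rw [cc_two_mul, div_eq_mul_inv]
    simpa using pn_mul_le (pn_nat_le (p := p) _) (pb_inv_four_pow hp k)
  · rw [cc_two_mul_add_one]; simp

theorem cg_cc (hp : p ≠ 2) (l : ℕ) : Cg p (cc l) (cc l) := Cg.refl' (cc_norm_le hp l)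

theorem pb_lucas (a b c d : ℕ) (ha : a < p) (hc : c < p) :
    (a + p * b).choose (c + p * d) ≡ a.choose c * b.choose d [MOD p] := by
  have hp0 : 0 < p := (Fact.out : p.Prime).pos
  have := Choose.choose_modEq_choose_mod_mul_choose_div_nat (p := p) (n := a + p * b)
    (k := c + p * d)
  rwa [Nat.add_mul_mod_self_left, Nat.add_mul_mod_self_left, Nat.mod_eq_of_lt ha,
    Nat.mod_eq_of_lt hc, Nat.add_mul_div_left _ _ hp0, Nat.add_mul_div_left _ _ hp0,
    Nat.div_eq_of_lt ha, Nat.div_eq_of_lt hc, zero_add, zero_add] at this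

theorem cg_cc_lucas (hp : p ≠ 2) (l₀ l₁ : ℕ) (h : l₀ < p) :
    Cg p (cc (l₀ + p * l₁)) (cc l₀ * cc l₁) := by
  have hpr : p.Prime := Fact.out
  obtain ⟨m, hm⟩ := hpr.odd_of_ne_two hp
  obtain ⟨a, rfl | rfl⟩ := Nat.even_or_odd' l₀ <;> obtain ⟨b, rfl | rfl⟩ := Nat.even_or_odd' l₁
  · have e : 2 * a + p * (2 * b) = 2 * (a + p * b) := by ring
    rw [e, cc_two_mul, cc_two_mul, cc_two_mul, div_mul_div_comm, div_eq_mul_inv, div_eq_mul_inv]
    apply Cg.mul
    · rw [← Nat.cast_mul]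
      apply Cg.of_nat_modEq
      simp only [Nat.centralBinom]
      rw [← e]
      exact pb_lucas _ _ _ _ h (by omega)
    · rw [← pow_add]
      apply Cg.inv _ (pb_inv_four_pow hp _) (pb_inv_four_pow hp _) (by positivity) (by positivity)
      have h4 : (4 : ℕ) ^ (a + p * b) ≡ 4 ^ (a + b) [MOD p] := by
        rw [pow_add, pow_add, pow_mul]
        apply Nat.ModEq.mul_left
        apply Nat.ModEq.pow
        rw [← ZMod.natCast_eq_natCast_iff]
        push_cast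
        exact ZMod.pow_card _
      have := Cg.of_nat_modEq (p := p) h4
      simpa using this
  · have e : 2 * a + p * (2 * b + 1) = 2 * (a + p * b + m) + 1 := by rw [hm]; ring
    rw [e, cc_two_mul_add_one, cc_two_mul_add_one, mul_zero]
    exact Cg.refl' (by simp)
  · have e : 2 * a + 1 + p * (2 * b) = 2 * (a + p * b) + 1 := by ring
    rw [e, cc_two_mul_add_one, cc_two_mul_add_one, zero_mul]
    exact Cg.refl' (by simp)
  · have e : 2 * a + 1 + p * (2 * b + 1) = 2 * ((a + m + 1) + p * b) := by rw [hm]; ring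
    rw [e, cc_two_mul, cc_two_mul_add_one, zero_mul, div_eq_mul_inv]
    have h1 : Cg p ((Nat.centralBinom ((a + m + 1) + p * b) : ℕ) : ℚ) ((0 : ℕ) : ℚ) := by
      apply Cg.of_nat_modEq
      simp only [Nat.centralBinom]
      rw [← e]
      have := pb_lucas (p := p) (2 * a + 1) (2 * b + 1) (a + m + 1) b h (by omega)
      rwa [Nat.choose_eq_zero_of_lt (show 2 * a + 1 < a + m + 1 by omega), zero_mul] at this
    exact (h1.mul (Cg.refl' (pb_inv_four_pow hp _))).of_eq (by simp)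

theorem cc_lucas (hp : p ≠ 2) (l₀ l₁ : ℕ) (h : l₀ < p) :
    padicNorm p (cc (l₀ + p * l₁) - cc l₀ * cc l₁) < 1 := (cg_cc_lucas hp l₀ l₁ h).2

theorem pb_one_le (n : ℕ) : (1 : ℚ) ≤ (p : ℚ) ^ n :=
  one_le_pow₀ (by exact_mod_cast (Fact.out : p.Prime).one_le)

theorem pb_pow_log_mono {k H : ℕ} (h : k ≤ H) : (p : ℚ) ^ Nat.log p k ≤ (p : ℚ) ^ Nat.log p H :=
  pow_le_pow_right₀ (by exact_mod_cast (Fact.out : p.Prime).one_le) (Nat.log_mono_right h)

theorem aa_norm_le (hp : p ≠ 2) (k : ℕ) : padicNorm p (aa k) ≤ (p : ℚ) ^ Nat.log p k := by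
  rw [aa_eq]
  apply pn_sum_le _ _ (by positivity)
  intro b hb
  rw [div_eq_mul_inv]
  simpa using pn_mul_le (cc_norm_le hp (k - b)) (pn_mul_le (pn_mul_le pn_two_le
    (cc_norm_le hp (b - 1))) (pn_inv_nat_le (p := p) (mem_Icc.1 hb).2))

theorem pb_YY_norm_le (hp : p ≠ 2) {b k : ℕ} (h : b ≤ k) :
    padicNorm p (YY b) ≤ (p : ℚ) ^ (2 * Nat.log p k) := by
  unfold YY
  rw [two_mul (Nat.log p k), pow_add]
  apply pn_mul_le
  · rw [div_eq_mul_inv]
    simpa using pn_mul_le pn_two_le (pn_inv_nat_le (p := p) h)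
  · apply pn_sum_le _ _ (by positivity)
    intro l hl
    rw [div_eq_mul_inv]
    simpa using pn_mul_le (cc_norm_le hp (b - l)) (pn_inv_nat_le (p := p) ((mem_Icc.1 hl).2.trans h))

theorem pb_XX_norm_le (hp : p ≠ 2) {b k : ℕ} (h : b ≤ k) :
    padicNorm p (XX b) ≤ (p : ℚ) ^ (2 * Nat.log p k) := by
  unfold XX
  rw [two_mul (Nat.log p k), pow_add]
  apply pn_sub_le
  · rw [div_eq_mul_inv, ← inv_pow, sq]
    simpa using pn_mul_le (pn_mul_le pn_two_le (cc_norm_le hp (b - 1)))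
      (pn_mul_le (pn_inv_nat_le (p := p) h) (pn_inv_nat_le (p := p) h))
  apply pn_mul_le
  · rw [div_eq_mul_inv]
    simpa using pn_mul_le pn_two_le (pn_inv_nat_le (p := p) h)
  · apply pn_sum_le _ _ (by positivity)
    intro l hl
    rw [div_eq_mul_inv]
    simpa using pn_mul_le (cc_norm_le hp (b - 1 - l))
      (pn_inv_nat_le (p := p) ((mem_Ico.1 hl).2.le.trans h))

theorem yy_norm_le (hp : p ≠ 2) (k : ℕ) : padicNorm p (yy k) ≤ (p : ℚ) ^ (2 * Nat.log p k) := by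
  rw [yy_eq]
  apply pn_sum_le _ _ (by positivity)
  intro b hb
  simpa using pn_mul_le (cc_norm_le hp (k - b)) (pb_YY_norm_le hp (mem_Icc.1 hb).2)

theorem sg_norm_le (hp : p ≠ 2) (k : ℕ) : padicNorm p (sg k) ≤ (p : ℚ) ^ (2 * Nat.log p k) := by
  rw [sg_eq]
  apply pn_sum_le _ _ (by positivity)
  intro b hb
  simpa using pn_mul_le (cc_norm_le hp (k - b)) (pb_XX_norm_le hp (mem_Icc.1 hb).2)

theorem Mh_norm_le (hp : p ≠ 2) (H i j : ℕ) (hi : i ≤ H) (hj : j ≤ H) :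
    padicNorm p (Mh i j) ≤ (p : ℚ) ^ (2 * Nat.log p H) := by
  have hm : ∀ k ≤ H, (p : ℚ) ^ (2 * Nat.log p k) ≤ (p : ℚ) ^ (2 * Nat.log p H) := fun k hk =>
    pow_le_pow_right₀ (by exact_mod_cast (Fact.out : p.Prime).one_le)
      (Nat.mul_le_mul_left _ (Nat.log_mono_right hk))
  unfold Mh
  apply pn_sub_le
  · unfold Sh
    split_ifs
    · exact (yy_norm_le hp _).trans (hm _ (by omega))
    · exact (sg_norm_le hp _).trans (hm _ (by omega))
  · apply pn_sum_le _ _ (by positivity)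
    intro k hk
    have hk := mem_range.1 hk
    rw [div_eq_mul_inv, two_mul, pow_add]
    apply pn_mul_le ((aa_norm_le hp k).trans (pb_pow_log_mono (by omega)))
    have := pn_inv_int_le (p := p) (m := (k : ℤ) + j + 1 - i) (H := H) (by omega)
    simpa using this

theorem pb_H1_norm_le {H i : ℕ} (hi : i ≤ H) : padicNorm p (H1 i) ≤ (p : ℚ) ^ Nat.log p H := by
  unfold H1
  apply pn_sum_le _ _ (by positivity)
  intro k hk
  have hk := mem_range.1 hk
  have := pn_inv_nat_le (p := p) (m := k + 1) (H := H) (by omega)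
  simpa using this

/-- This one holds for every prime, including `2`. -/
theorem Z0_norm_le (H i j : ℕ) (hi : i ≤ H) (hj : j ≤ H) :
    padicNorm p (Z0 i j) ≤ (p : ℚ) ^ (2 * Nat.log p H) := by
  unfold Z0
  rw [two_mul, pow_add]
  split_ifs
  · rw [padicNorm.neg]
    unfold H2
    apply pn_sum_le _ _ (by positivity)
    intro k hk
    have hk := mem_range.1 hk
    have := pn_inv_nat_le (p := p) (m := k + 1) (H := H) (by omega)
    rw [one_div, ← inv_pow, sq]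
    push_cast at this
    exact pn_mul_le this this
  · rw [div_eq_mul_inv]
    apply pn_mul_le (pn_sub_le (pb_H1_norm_le hi) (pb_H1_norm_le hj))
    have := pn_inv_int_le (p := p) (m := (i : ℤ) - j) (H := H) (by omega)
    simpa using this

theorem pb_inv_small {m : ℕ} (h : m < p) : Cg p (m : ℚ)⁻¹ (m : ℚ)⁻¹ := by
  apply Cg.refl'
  have := pn_inv_nat_le (p := p) (m := m) le_rfl
  rwa [Nat.log_of_lt h, pow_zero] at this

theorem pb_lt_of_mul_lt {b : ℕ} (h : p * b < p ^ 2) : b < p := by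
  rw [sq] at h
  exact lt_of_mul_lt_mul_left h (Nat.zero_le _)

/-- An `ite` whose condition divides. -/
theorem pb_ite_cg {c : Prop} [Decidable c] {a b : ℚ} (h : c → Cg p a b) :
    Cg p (if c then a else 0) (if c then b else 0) := by
  split_ifs with hc
  · exact h hc
  · exact Cg.refl' (by simp)

theorem pb_sum_div (hp : p ≠ 2) (d : ℕ) (hd : d < p ^ 2) :
    Cg p (∑ l ∈ Icc 1 d, cc (d - l) * ((p : ℚ) / l))
      (cc (d % p) * ∑ l ∈ Icc 1 (d / p), cc (d / p - l) / (l : ℚ)) := by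
  have hp0 : 0 < p := (Fact.out : p.Prime).pos
  have h1 : Cg p (∑ l ∈ Icc 1 d, cc (d - l) * ((p : ℚ) / l))
      (∑ l ∈ Icc 1 d, if p ∣ l then cc (d - l) * ((l / p : ℕ) : ℚ)⁻¹ else 0) := by
    apply Cg.sum
    intro l hl
    exact ((cg_cc hp _).mul (cg_p_div_nat ((mem_Icc.1 hl).2.trans_lt hd))).of_eq (by simp)
  refine h1.trans ?_
  rw [sum_Icc_dvd hp0, mul_sum]
  apply Cg.sum
  intro l hl
  have hl := mem_Icc.1 hl
  have hl2 : l < p := hl.2.trans_lt ((Nat.div_lt_iff_lt_mul hp0).2 (by rwa [← sq]))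
  rw [Nat.mul_div_cancel_left _ hp0]
  have e : d - p * l = d % p + p * (d / p - l) := by
    have := Nat.mod_add_div d p
    rw [Nat.mul_sub]
    have : p * l ≤ p * (d / p) := Nat.mul_le_mul_left _ hl.2
    omega
  rw [e, div_eq_mul_inv, ← mul_assoc]
  exact (cg_cc_lucas hp _ _ (Nat.mod_lt _ hp0)).mul (pb_inv_small hl2)

theorem pb_frob_YY (hp : p ≠ 2) (b : ℕ) (hb : b < p ^ 2) :
    Cg p ((p : ℚ) ^ 2 * YY b) (if p ∣ b then YY (b / p) else 0) := by
  have e : (p : ℚ) ^ 2 * YY b = 2 * ((p : ℚ) / b) * ∑ l ∈ Icc 1 b, cc (b - l) * ((p : ℚ) / l) := by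
    unfold YY
    simp only [mul_sum]
    exact sum_congr rfl fun l _ => by ring
  rw [e]
  refine ((Cg.two.mul (cg_p_div_nat hb)).mul (pb_sum_div hp b hb)).of_eq ?_
  split_ifs with h
  · rw [Nat.mod_eq_zero_of_dvd h]
    unfold YY
    simp [cc, div_eq_mul_inv]
  · simp

theorem pb_pred_mul {b : ℕ} (hb : 1 ≤ b) : p * b - 1 = (p - 1) + p * (b - 1) := by
  have hp0 : 0 < p := (Fact.out : p.Prime).pos
  obtain ⟨c, rfl⟩ := Nat.exists_eq_add_of_le hb
  rw [Nat.add_sub_cancel_left, mul_add, mul_one]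
  omega

theorem pb_frob_a (hp : p ≠ 2) (b : ℕ) (hb1 : 1 ≤ b) (hb : b < p ^ 2) :
    Cg p ((p : ℚ) * (2 * cc (b - 1) / (b : ℚ)))
      (if p ∣ b then cc (p - 1) * (2 * cc (b / p - 1) / ((b / p : ℕ) : ℚ)) else 0) := by
  have hp0 : 0 < p := (Fact.out : p.Prime).pos
  have e : (p : ℚ) * (2 * cc (b - 1) / (b : ℚ)) = 2 * cc (b - 1) * ((p : ℚ) / b) := by ring
  rw [e]
  by_cases h : p ∣ b
  · obtain ⟨c, rfl⟩ := h
    have hc : 1 ≤ c := Nat.pos_of_mul_pos_left hb1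
    have h1 := cg_p_div_nat (p := p) hb
    rw [if_pos (dvd_mul_right _ _), Nat.mul_div_cancel_left _ hp0] at h1 ⊢
    rw [pb_pred_mul hc]
    exact ((Cg.two.mul (cg_cc_lucas hp _ _ (by omega))).mul h1).of_eq (by ring)
  · exact ((Cg.two.mul (cg_cc hp _)).mul (cg_p_div_nat hb)).of_eq (by simp [h])

theorem pb_frob_XX (hp : p ≠ 2) (b : ℕ) (hb1 : 1 ≤ b) (hb : b < p ^ 2) :
    Cg p ((p : ℚ) ^ 2 * XX b) (if p ∣ b then cc (p - 1) * XX (b / p) else 0) := by
  have hp0 : 0 < p := (Fact.out : p.Prime).pos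
  have hI : ∀ b : ℕ, 1 ≤ b → Ico 1 b = Icc 1 (b - 1) := fun b hb => by
    ext x; simp only [mem_Ico, mem_Icc]; omega
  have e : (p : ℚ) ^ 2 * XX b = (p : ℚ) * (2 * cc (b - 1) / (b : ℚ)) * ((p : ℚ) / b) -
      2 * ((p : ℚ) / b) * ∑ l ∈ Icc 1 (b - 1), cc (b - 1 - l) * ((p : ℚ) / l) := by
    unfold XX
    rw [mul_sub, hI b hb1]
    simp only [mul_sum]
    congr 1
    · ring
    · exact sum_congr rfl fun l _ => by ring
  rw [e]
  refine (((pb_frob_a hp b hb1 hb).mul (cg_p_div_nat hb)).sub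
    ((Cg.two.mul (cg_p_div_nat hb)).mul (pb_sum_div hp (b - 1) (by omega)))).of_eq ?_
  split_ifs with h
  · obtain ⟨c, rfl⟩ := h
    have hc : 1 ≤ c := Nat.pos_of_mul_pos_left hb1
    rw [Nat.mul_div_cancel_left _ hp0, pb_pred_mul hc, Nat.add_mul_mod_self_left,
      Nat.add_mul_div_left _ _ hp0, Nat.mod_eq_of_lt (by omega), Nat.div_eq_of_lt (by omega),
      zero_add]
    unfold XX
    rw [hI c hc]
    ring
  · simp

/-- Convolution with `cc` of a sequence with a Frobenius property. -/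
theorem pb_conv (hp : p ≠ 2) (F F' : ℕ → ℚ) (d₀ d₁ : ℕ) (h₀ : d₀ < p)
    (h : ∀ b, 1 ≤ b → b ≤ d₀ + p * d₁ → Cg p (F b) (if p ∣ b then F' (b / p) else 0)) :
    Cg p (∑ b ∈ Icc 1 (d₀ + p * d₁), cc (d₀ + p * d₁ - b) * F b)
      (cc d₀ * ∑ b ∈ Icc 1 d₁, cc (d₁ - b) * F' b) := by
  have hp0 : 0 < p := (Fact.out : p.Prime).pos
  have h1 : Cg p (∑ b ∈ Icc 1 (d₀ + p * d₁), cc (d₀ + p * d₁ - b) * F b)
      (∑ b ∈ Icc 1 (d₀ + p * d₁), if p ∣ b then cc (d₀ + p * d₁ - b) * F' (b / p) else 0) := by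
    apply Cg.sum
    intro b hb
    exact ((cg_cc hp _).mul (h b (mem_Icc.1 hb).1 (mem_Icc.1 hb).2)).of_eq (by simp)
  refine h1.trans ?_
  rw [sum_Icc_dvd hp0, mul_sum, Nat.add_mul_div_left _ _ hp0, Nat.div_eq_of_lt h₀, zero_add]
  apply Cg.sum
  intro l hl
  have hl := mem_Icc.1 hl
  have h2 : p * l ≤ p * d₁ := Nat.mul_le_mul_left _ hl.2
  have h3 := (h (p * l) (Nat.mul_pos hp0 hl.1) (by omega)).right
  rw [if_pos (dvd_mul_right _ _)] at h3
  rw [Nat.mul_div_cancel_left _ hp0] at h3 ⊢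
  have e : d₀ + p * d₁ - p * l = d₀ + p * (d₁ - l) := by
    rw [Nat.mul_sub]; omega
  rw [e, ← mul_assoc]
  exact (cg_cc_lucas hp _ _ h₀).mul (Cg.refl' h3)

theorem pb_frob_yy (hp : p ≠ 2) (d₀ d₁ : ℕ) (h₀ : d₀ < p) (h : d₀ + p * d₁ < p ^ 2) :
    Cg p ((p : ℚ) ^ 2 * yy (d₀ + p * d₁)) (cc d₀ * yy d₁) := by
  have := pb_conv hp (fun b => (p : ℚ) ^ 2 * YY b) YY d₀ d₁ h₀ fun b _ hb =>
    pb_frob_YY hp b (by omega)
  rw [yy_eq, yy_eq, mul_sum]
  refine Cg.of_eq' (sum_congr rfl fun b _ => by ring) this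

theorem pb_frob_sg (hp : p ≠ 2) (d₀ d₁ : ℕ) (h₀ : d₀ < p) (h : d₀ + p * d₁ < p ^ 2) :
    Cg p ((p : ℚ) ^ 2 * sg (d₀ + p * d₁)) (cc (p - 1) * cc d₀ * sg d₁) := by
  have := pb_conv hp (fun b => (p : ℚ) ^ 2 * XX b) (fun b => cc (p - 1) * XX b) d₀ d₁ h₀
    fun b hb1 hb => pb_frob_XX hp b hb1 (by omega)
  rw [sg_eq, sg_eq, mul_sum]
  refine Cg.of_eq' (sum_congr rfl fun b _ => by ring) (this.of_eq ?_)
  simp only [mul_sum]
  exact sum_congr rfl fun b _ => by ring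

theorem pb_frob_aa (hp : p ≠ 2) (d₀ d₁ : ℕ) (h₀ : d₀ < p) (h : d₀ + p * d₁ < p ^ 2) :
    Cg p ((p : ℚ) * aa (d₀ + p * d₁)) (cc (p - 1) * cc d₀ * aa d₁) := by
  have := pb_conv hp (fun b => (p : ℚ) * (2 * cc (b - 1) / (b : ℚ)))
    (fun b => cc (p - 1) * (2 * cc (b - 1) / (b : ℚ))) d₀ d₁ h₀
    fun b hb1 hb => pb_frob_a hp b hb1 (by omega)
  rw [aa_eq, aa_eq, mul_sum]
  refine Cg.of_eq' (sum_congr rfl fun b _ => by ring) (this.of_eq ?_)
  simp only [mul_sum]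
  exact sum_congr rfl fun b _ => by ring

theorem pb_reflect_aux (hp : p ≠ 2) : ∀ e : ℕ, e < p → Cg p (cc (p - 1 - e)) (cc (p - 1) * cc e)
  | 0, _ => by simpa [cc] using cg_cc hp (p - 1)
  | 1, _ => by
    have hpr : p.Prime := Fact.out
    obtain ⟨m, hm⟩ := hpr.odd_of_ne_two hp
    have h2 := hpr.two_le
    have : p - 1 - 1 = 2 * (m - 1) + 1 := by omega
    rw [this, cc_two_mul_add_one]
    simpa [cc] using Cg.refl' (p := p) (a := 0) (by simp)
  | (e + 2), h => by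
    have ih := pb_reflect_aux hp e (by omega)
    obtain ⟨k, hk⟩ : ∃ k, p = k + e + 3 := ⟨p - e - 3, by omega⟩
    have e1 : p - 1 - e = k + 2 := by omega
    have e2 : p - 1 - (e + 2) = k := by omega
    rw [e1] at ih
    rw [e2]
    have e3 : cc k = ((k + 2 : ℕ) : ℚ) * ((k + 1 : ℕ) : ℚ)⁻¹ * cc (k + 2) := by
      rw [cc]; push_cast; field_simp
    have c1 : Cg p ((k + 2 : ℕ) : ℚ) (-((e + 1 : ℕ) : ℚ)) := by
      have := Cg.of_int_modEq (p := p) (a := (k : ℤ) + 2) (b := -((e : ℤ) + 1))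
        (Int.modEq_iff_dvd.2 ⟨-1, by rw [hk]; push_cast; ring⟩)
      push_cast at this ⊢; exact this
    have c2 : Cg p ((k + 1 : ℕ) : ℚ) (-((e + 2 : ℕ) : ℚ)) := by
      have := Cg.of_int_modEq (p := p) (a := (k : ℤ) + 1) (b := -((e : ℤ) + 2))
        (Int.modEq_iff_dvd.2 ⟨-1, by rw [hk]; push_cast; ring⟩)
      push_cast at this ⊢; exact this
    have c3 : Cg p ((k + 1 : ℕ) : ℚ)⁻¹ (-((e + 2 : ℕ) : ℚ))⁻¹ := by
      apply c2.inv (pb_inv_small (by omega)).1 _ (by positivity)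
        (neg_ne_zero.2 (by positivity))
      rw [inv_neg, padicNorm.neg]
      exact (pb_inv_small h).1
    rw [e3]
    refine ((c1.mul c3).mul ih).of_eq ?_
    rw [cc]; push_cast; field_simp

theorem pb_reflect (hp : p ≠ 2) (e : ℕ) (he : e < p) :
    Cg p (cc (p - 1) * cc (p - 1 - e)) (cc e) := by
  have hp0 : 0 < p := (Fact.out : p.Prime).pos
  have h1 := pb_reflect_aux hp (p - 1) (by omega)
  rw [Nat.sub_self] at h1
  have h2 := (cg_cc hp (p - 1)).mul (pb_reflect_aux hp e he)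
  refine h2.trans ?_
  rw [← mul_assoc]
  exact (h1.symm.mul (cg_cc hp e)).of_eq (by simp [cc])

theorem pb_sum_shift (i K e₀ j₀ : ℕ) (s : ℤ) (he : e₀ < p) (hj : j₀ < p)
    (hi : i + (p - 1 - e₀) = j₀ + p * K) (F : ℕ → ℚ) :
    ∑ k ∈ range i, (if (p : ℤ) ∣ (k : ℤ) - e₀ + p * s then F k else 0) =
      ∑ k ∈ range K, F (e₀ + p * k) := by
  have hp0 : 0 < p := (Fact.out : p.Prime).pos
  rw [← sum_filter]
  symm
  apply sum_nbij' (fun l => e₀ + p * l) (fun l => l / p)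
  · intro a ha
    simp only [mem_range, mem_filter] at ha ⊢
    refine ⟨?_, ⟨a + s, by push_cast; ring⟩⟩
    have : p * (a + 1) ≤ p * K := Nat.mul_le_mul_left _ ha
    rw [mul_add] at this
    omega
  · intro a ha
    simp only [mem_range, mem_filter] at ha ⊢
    obtain ⟨h1, h2⟩ := ha
    have h3 : (p : ℤ) ∣ (a : ℤ) - e₀ := (dvd_add_left (dvd_mul_right _ _)).1 h2
    have h4 : e₀ ≡ a [MOD p] := (Nat.modEq_iff_dvd).2 h3
    have h5 : a % p = e₀ := by rw [← h4, Nat.mod_eq_of_lt he]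
    have h6 := Nat.mod_add_div a p
    by_contra hc
    have : p * K ≤ p * (a / p) := Nat.mul_le_mul_left _ (not_lt.1 hc)
    omega
  · intro a _
    rw [Nat.add_mul_div_left _ _ hp0, Nat.div_eq_of_lt he, zero_add]
  · intro a ha
    simp only [mem_range, mem_filter] at ha ⊢
    obtain ⟨h1, h2⟩ := ha
    have h3 : (p : ℤ) ∣ (a : ℤ) - e₀ := (dvd_add_left (dvd_mul_right _ _)).1 h2
    have h4 : e₀ ≡ a [MOD p] := (Nat.modEq_iff_dvd).2 h3
    have h5 : a % p = e₀ := by rw [← h4, Nat.mod_eq_of_lt he]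
    rw [← h5]; exact Nat.mod_add_div a p
  · intro a _; rfl

theorem cg_frob_Mh (hp : p ≠ 2) (i j₀ j₁ K e : ℕ) (hi : i + p ≤ p ^ 2) (hj : j₀ + p * j₁ < p ^ 2)
    (hj₀ : j₀ < p) (he : e < p) (hK : i + e = j₀ + p * K) :
    Cg p ((p : ℚ) ^ 2 * Mh i (j₀ + p * j₁)) (cc e * Mh K j₁) := by
  have hp0 : 0 < p := (Fact.out : p.Prime).pos
  have hKp : K < p := pb_lt_of_mul_lt (by omega)
  have hj₁ : j₁ < p := pb_lt_of_mul_lt (by omega)
  unfold Mh
  rw [mul_sub, mul_sub]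
  apply Cg.sub
  · unfold Sh
    rcases le_or_gt K j₁ with h | h
    · obtain ⟨d, rfl⟩ := Nat.exists_eq_add_of_le h
      rw [mul_add] at hj ⊢
      rw [if_pos (by omega), if_pos (by omega)]
      have e1 : (((j₀ + (p * K + p * d) : ℕ) : ℤ) - i + 1 - 1).toNat = e + p * d := by omega
      have e2 : (((K + d : ℕ) : ℤ) - K + 1 - 1).toNat = d := by omega
      rw [e1, e2]
      exact pb_frob_yy hp e d he (by omega)
    · obtain ⟨d, rfl⟩ := Nat.exists_eq_add_of_lt h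
      rw [mul_add, mul_add, mul_one] at hK
      rw [if_neg (by omega), if_neg (by omega)]
      have e1 : (-(((j₀ + p * j₁ : ℕ) : ℤ) - i + 1)).toNat = (p - 1 - e) + p * d := by omega
      have e2 : (-((j₁ : ℤ) - ((j₁ + d + 1 : ℕ) : ℤ) + 1)).toNat = d := by omega
      rw [e1, e2]
      refine (pb_frob_sg hp _ d (by omega) (by omega)).trans ?_
      refine (pb_reflect hp e he).mul (Cg.refl' ?_)
      have := sg_norm_le hp d
      rwa [Nat.log_of_lt (by omega), mul_zero, pow_zero] at this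
  · rw [mul_sum]
    have hz : ∀ k : ℕ, (k : ℤ) + (j₀ + p * j₁) + 1 - i =
        (k : ℤ) - (p - 1 - e : ℕ) + p * (j₁ + 1 - K) := fun k => by
      have h1 : ((p - 1 - e : ℕ) : ℤ) = p - 1 - e := by omega
      have h2 : (i : ℤ) + e = j₀ + p * K := by exact_mod_cast hK
      rw [h1]; linear_combination (-1 : ℤ) * h2
    have h1 : Cg p (∑ k ∈ range i, (p : ℚ) ^ 2 * (aa k / ((k : ℚ) + (j₀ + p * j₁ : ℕ) + 1 - i)))
        (∑ k ∈ range i, if (p : ℤ) ∣ (k : ℤ) - (p - 1 - e : ℕ) + p * (j₁ + 1 - K) then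
          (p : ℚ) * aa k * ((((k : ℤ) - (p - 1 - e : ℕ) + p * (j₁ + 1 - K)) / p : ℤ) : ℚ)⁻¹
          else 0) := by
      apply Cg.sum
      intro k hk
      have hk := mem_range.1 hk
      have c1 : padicNorm p ((p : ℚ) * aa k) ≤ 1 := by
        have := (pb_frob_aa hp (k % p) (k / p) (Nat.mod_lt _ hp0)
          (by rw [Nat.mod_add_div]; omega)).1
        rwa [Nat.mod_add_div] at this
      have c2 := cg_p_div_int (p := p) (m := (k : ℤ) + (j₀ + p * j₁) + 1 - i) (by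
        have : ((j₀ + p * j₁ : ℕ) : ℤ) = j₀ + p * j₁ := by push_cast; ring
        rw [← this]; omega)
      have c3 := (Cg.refl' c1).mul c2
      rw [hz k] at c3
      refine Cg.of_eq' ?_ (c3.of_eq (by simp))
      rw [← hz k]; push_cast; ring
    refine h1.trans ?_
    rw [pb_sum_shift i K (p - 1 - e) j₀ _ (by omega) hj₀ (by omega), mul_sum]
    apply Cg.sum
    intro k hk
    have hk := mem_range.1 hk
    have e1 : ((((p - 1 - e + p * k : ℕ) : ℤ) - (p - 1 - e : ℕ) + p * (j₁ + 1 - K)) / p : ℤ) =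
        k + j₁ + 1 - K := by
      have : (((p - 1 - e + p * k : ℕ) : ℤ) - (p - 1 - e : ℕ) + p * (j₁ + 1 - K)) =
          p * (k + j₁ + 1 - K) := by
        rw [Nat.cast_add, Nat.cast_mul]; ring
      rw [this, Int.mul_ediv_cancel_left _ (by exact_mod_cast hp0.ne')]
    rw [e1]
    have hpk : p * (k + 1) ≤ p * K := Nat.mul_le_mul_left _ hk
    rw [mul_add] at hpk
    have c1 := pb_frob_aa hp (p - 1 - e) k (by omega) (by omega)
    have c2 : padicNorm p (aa k) ≤ 1 := by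
      have := aa_norm_le hp k
      rwa [Nat.log_of_lt (by omega), pow_zero] at this
    have c3 : padicNorm p (((k : ℤ) + j₁ + 1 - K : ℤ) : ℚ)⁻¹ ≤ 1 := by
      have := pn_inv_int_le (p := p) (m := (k : ℤ) + j₁ + 1 - K) (H := p - 1) (by omega)
      rwa [Nat.log_of_lt (by omega), pow_zero] at this
    refine ((c1.trans ((pb_reflect hp e he).mul (Cg.refl' c2))).mul (Cg.refl' c3)).of_eq ?_
    push_cast; ring

/-- Frobenius congruence for `Mh`. -/
theorem frob_Mh (hp : p ≠ 2) (i j : ℕ) (hi : i + p ≤ p ^ 2) (hj : j < p ^ 2) :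
    padicNorm p ((p : ℚ) ^ 2 * Mh i j -
      cc (j % p + p * ((i + p - 1 - j % p) / p) - i) * Mh ((i + p - 1 - j % p) / p) (j / p)) < 1 := by
  have hp0 : 0 < p := (Fact.out : p.Prime).pos
  have h1 := Nat.mod_lt j hp0
  have h2 := Nat.mod_add_div (i + p - 1 - j % p) p
  have h3 := Nat.mod_lt (i + p - 1 - j % p) hp0
  have := cg_frob_Mh hp i (j % p) (j / p) ((i + p - 1 - j % p) / p)
    (j % p + p * ((i + p - 1 - j % p) / p) - i) hi (by rwa [Nat.mod_add_div]) h1 (by omega)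
    (by omega)
  rw [Nat.mod_add_div] at this
  exact this.2

theorem pb_range_eq (i : ℕ) (F : ℕ → ℚ) : ∑ k ∈ range i, F (k + 1) = ∑ k ∈ Icc 1 i, F k := by
  induction i with
  | zero => simp
  | succ n ih => rw [sum_range_succ, ih, sum_Icc_succ_top (by omega)]

theorem pb_H1_eq (i : ℕ) : H1 i = ∑ k ∈ Icc 1 i, (k : ℚ)⁻¹ := by
  rw [← pb_range_eq]; simp [H1]

theorem pb_H2_eq (i : ℕ) : H2 i = ∑ k ∈ Icc 1 i, (k : ℚ)⁻¹ ^ 2 := by
  rw [← pb_range_eq]; simp [H2]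

theorem pb_frob_H (i n : ℕ) (hn : n ≠ 0) (hi : i < p ^ 2) :
    Cg p ((p : ℚ) ^ n * ∑ k ∈ Icc 1 i, (k : ℚ)⁻¹ ^ n) (∑ k ∈ Icc 1 (i / p), (k : ℚ)⁻¹ ^ n) := by
  have hp0 : 0 < p := (Fact.out : p.Prime).pos
  have h1 : Cg p ((p : ℚ) ^ n * ∑ k ∈ Icc 1 i, (k : ℚ)⁻¹ ^ n)
      (∑ k ∈ Icc 1 i, if p ∣ k then ((k / p : ℕ) : ℚ)⁻¹ ^ n else 0) := by
    rw [mul_sum]
    apply Cg.sum
    intro k hk
    refine Cg.of_eq' ?_ (((cg_p_div_nat ((mem_Icc.1 hk).2.trans_lt hi)).pow n).of_eq ?_)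
    · rw [div_eq_mul_inv, mul_pow]
    · split_ifs
      · rfl
      · exact zero_pow hn
  refine h1.of_eq ?_
  rw [sum_Icc_dvd hp0]
  exact sum_congr rfl fun l _ => by rw [Nat.mul_div_cancel_left _ hp0]

theorem cg_frob_Z0 (i j : ℕ) (hi : i < p ^ 2) (hj : j < p ^ 2) :
    Cg p ((p : ℚ) ^ 2 * Z0 i j) (if i % p = j % p then Z0 (i / p) (j / p) else 0) := by
  have hp0 : 0 < p := (Fact.out : p.Prime).pos
  have hH1 : ∀ i, i < p ^ 2 → Cg p ((p : ℚ) * H1 i) (H1 (i / p)) := fun i hi => by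
    have := pb_frob_H (p := p) i 1 one_ne_zero hi
    simpa [pb_H1_eq] using this
  by_cases h : i = j
  · subst h
    unfold Z0
    simp only [if_true]
    rw [pb_H2_eq, pb_H2_eq, mul_neg]
    exact (pb_frob_H i 2 two_ne_zero hi).neg
  · have c1 := ((hH1 i hi).sub (hH1 j hj)).mul
      (cg_p_div_int (p := p) (m := (i : ℤ) - j) (by omega))
    refine Cg.of_eq' ?_ (c1.of_eq ?_)
    · unfold Z0; rw [if_neg h]; push_cast; ring
    · have hiff : (p : ℤ) ∣ (i : ℤ) - j ↔ i % p = j % p := by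
        rw [← Nat.modEq_iff_dvd]; exact ⟨fun h => h.symm, fun h => h.symm⟩
      simp only [hiff]
      split_ifs with h1
      · have h2 := Nat.mod_add_div i p
        have h3 := Nat.mod_add_div j p
        have h4 : i / p ≠ j / p := fun h5 => h (by rw [← h2, ← h3, h1, h5])
        have h5 : ((i : ℤ) - j) / p = ((i / p : ℕ) : ℤ) - ((j / p : ℕ) : ℤ) := by
          have : (i : ℤ) - j = p * (((i / p : ℕ) : ℤ) - ((j / p : ℕ) : ℤ)) := by
            have h2' : ((i % p : ℕ) : ℤ) + p * ((i / p : ℕ) : ℤ) = i := by exact_mod_cast h2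
            have h3' : ((j % p : ℕ) : ℤ) + p * ((j / p : ℕ) : ℤ) = j := by exact_mod_cast h3
            rw [h1] at h2'
            linear_combination h3' - h2'
          rw [this, Int.mul_ediv_cancel_left _ (by exact_mod_cast hp0.ne')]
        unfold Z0
        rw [if_neg h4, h5, div_eq_mul_inv, Int.cast_sub, Int.cast_natCast, Int.cast_natCast]
      · simp

/-- Frobenius congruence for `Z0`. -/
theorem frob_Z0 (i j : ℕ) (hi : i < p ^ 2) (hj : j < p ^ 2) :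
    padicNorm p ((p : ℚ) ^ 2 * Z0 i j - if i % p = j % p then Z0 (i / p) (j / p) else 0) < 1 :=
  (cg_frob_Z0 i j hi hj).2

end Crest.Agent.R006
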