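import Crest.Agent.R006.Defs

set_option autoImplicit false

namespace Crest.Agent.R006

open Polynomial Finset Filter Topology

theorem sm_aa_add_two (k : ℕ) : aa (k + 2) = ((k : ℚ) + 1) / ((k : ℚ) + 2) * aa k := rfl
theorem sm_cc_add_two (k : ℕ) : cc (k + 2) = ((k : ℚ) + 1) / ((k : ℚ) + 2) * cc k := rfl
theorem sm_yy_add_two (k : ℕ) :
    yy (k + 2) = (((k : ℚ) + 1) * yy k + 2 / ((k : ℚ) + 2)) / ((k : ℚ) + 2) := rfl
theorem sm_sg_add_two (k : ℕ) :
    sg (k + 2) = (((k : ℚ) + 1) * sg k - (2 + aa (k + 2)) / ((k : ℚ) + 1)) / ((k : ℚ) + 2) := rfl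
theorem sm_aa_zero : aa 0 = 0 := rfl
theorem sm_aa_one : aa 1 = 2 := rfl
theorem sm_cc_zero : cc 0 = 1 := rfl
theorem sm_cc_one : cc 1 = 0 := rfl
theorem sm_yy_zero : yy 0 = 0 := rfl
theorem sm_yy_one : yy 1 = 2 := rfl
theorem sm_sg_zero : sg 0 = 0 := rfl
theorem sm_sg_one : sg 1 = 2 := rfl

/-- The sums `∑ₖ aa k / (k + e)`. -/
noncomputable def smS (K : Type*) [NormedField K] [CharZero K] (e : ℤ) : K :=
  ∑' k : ℕ, ((aa k / ((k : ℚ) + e) : ℚ) : K)

theorem sm_term (e : ℤ) (k : ℕ) :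
    (e : ℚ) * (aa k / ((k : ℚ) + ((e + 1 : ℤ) : ℚ))) -
      ((e : ℚ) - 1) * (aa (k + 2) / (((k + 2 : ℕ) : ℚ) + ((e - 1 : ℤ) : ℚ))) =
      aa k - aa (k + 2) - if (k : ℤ) + e + 1 = 0 then aa k - aa (k + 2) else 0 := by
  have e1 : ((k : ℚ) + ((e + 1 : ℤ) : ℚ)) = (((k : ℤ) + e + 1 : ℤ) : ℚ) := by push_cast; ring
  have e2 : (((k + 2 : ℕ) : ℚ) + ((e - 1 : ℤ) : ℚ)) = (((k : ℤ) + e + 1 : ℤ) : ℚ) := by
    push_cast; ring
  rw [e1, e2]
  split_ifs with h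
  · rw [h]; simp
  · have h1 : (((k : ℤ) + e + 1 : ℤ) : ℚ) ≠ 0 := by exact_mod_cast h
    have h2 : ((k : ℚ) + 2) ≠ 0 := by positivity
    rw [sm_aa_add_two]
    field_simp
    push_cast
    ring

theorem sm_partial (e : ℤ) (M : ℕ) (hM : e.natAbs ≤ M) :
    ∑ k ∈ range M, ((e : ℚ) * (aa k / ((k : ℚ) + ((e + 1 : ℤ) : ℚ))) -
      ((e : ℚ) - 1) * (aa (k + 2) / (((k + 2 : ℕ) : ℚ) + ((e - 1 : ℤ) : ℚ)))) =
      2 - aa M - aa (M + 1) -
        if e ≤ -1 then aa (-e - 1).toNat - aa ((-e - 1).toNat + 2) else 0 := by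
  simp only [sm_term]
  rw [sum_sub_distrib]
  congr 1
  · clear hM
    induction M with
    | zero => simp [sm_aa_zero, sm_aa_one]
    | succ M ih => rw [sum_range_succ, ih]; ring
  · split_ifs with h
    · rw [sum_eq_single (-e - 1).toNat]
      · rw [if_pos (by omega)]
      · intro b _ hb
        rw [if_neg (by omega)]
      · intro hb
        exact absurd (mem_range.2 (by omega)) hb
    · refine sum_eq_zero fun k _ => ?_
      rw [if_neg (by omega)]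

theorem sm_rec {K : Type*} [NormedField K] [CharZero K]
    (hs : ∀ e : ℤ, Summable fun k : ℕ => ((aa k / ((k : ℚ) + e) : ℚ) : K))
    (h0 : Tendsto (fun k : ℕ => ((aa k : ℚ) : K)) atTop (𝓝 0)) (e : ℤ) :
    (e : K) * smS K (e + 1) - ((e : K) - 1) * (smS K (e - 1) - ((2 / (e : ℚ) : ℚ) : K)) =
      2 - ((if e ≤ -1 then aa (-e - 1).toNat - aa ((-e - 1).toNat + 2) else 0 : ℚ) : K) := by
  have h1 := (hs (e + 1)).hasSum
  have h2 := (hasSum_nat_add_iff' 2).2 (hs (e - 1)).hasSum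
  have e2 : ∑ i ∈ range 2, ((aa i / ((i : ℚ) + ((e - 1 : ℤ) : ℚ)) : ℚ) : K) =
      ((2 / (e : ℚ) : ℚ) : K) := by
    simp [sum_range_succ, sm_aa_zero, sm_aa_one]
  rw [e2] at h2
  have h3 := ((h1.mul_left (e : K)).sub (h2.mul_left ((e : K) - 1))).tendsto_sum_nat
  have h4 : Tendsto (fun M : ℕ => (2 : K) - (aa M : K) - (aa (M + 1) : K) -
      ((if e ≤ -1 then aa (-e - 1).toNat - aa ((-e - 1).toNat + 2) else 0 : ℚ) : K)) atTop
      (𝓝 (2 - 0 - 0 -
        ((if e ≤ -1 then aa (-e - 1).toNat - aa ((-e - 1).toNat + 2) else 0 : ℚ) : K))) :=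
    ((h0.const_sub 2).sub ((tendsto_add_atTop_iff_nat 1).2 h0)).sub_const _
  rw [sub_zero, sub_zero] at h4
  refine tendsto_nhds_unique_of_eventuallyEq h3 h4 ?_
  filter_upwards [eventually_ge_atTop e.natAbs] with M hM
  have h5 := congrArg (fun q : ℚ => (q : K)) (sm_partial e M hM)
  simp only [Rat.cast_sum, Rat.cast_sub, Rat.cast_mul, Rat.cast_intCast, Rat.cast_one,
    Rat.cast_ofNat] at h5
  simpa only [Rat.cast_sub] using h5

theorem sm_up {K : Type*} [NormedField K] [CharZero K]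
    (hs : ∀ e : ℤ, Summable fun k : ℕ => ((aa k / ((k : ℚ) + e) : ℚ) : K))
    (h0 : Tendsto (fun k : ℕ => ((aa k : ℚ) : K)) atTop (𝓝 0)) (n : ℕ) :
    smS K ((n : ℤ) + 1) = (yy n : K) + (cc n : K) * smS K 1 := by
  induction n using Nat.twoStepInduction with
  | zero => simp [sm_yy_zero, sm_cc_zero]
  | one =>
    have h := sm_rec hs h0 1
    simp [sm_yy_one, sm_cc_one] at h ⊢
    exact h
  | more n ih _ =>
    have h := sm_rec hs h0 ((n : ℤ) + 2)
    rw [if_neg (by omega), show (n : ℤ) + 2 - 1 = n + 1 by ring, ih] at h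
    rw [sm_yy_add_two, sm_cc_add_two]
    push_cast at h ⊢
    have h2 : ((n : K) + 2) ≠ 0 := by exact_mod_cast (by omega : n + 2 ≠ 0)
    apply mul_left_cancel₀ h2
    rw [sub_eq_iff_eq_add] at h
    rw [h]
    field_simp
    ring

theorem sm_down {K : Type*} [NormedField K] [CharZero K]
    (hs : ∀ e : ℤ, Summable fun k : ℕ => ((aa k / ((k : ℚ) + e) : ℚ) : K))
    (h0 : Tendsto (fun k : ℕ => ((aa k : ℚ) : K)) atTop (𝓝 0)) (n : ℕ) :
    smS K (-(n : ℤ)) = (sg n : K) + (cc n : K) * smS K 0 := by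
  induction n using Nat.twoStepInduction with
  | zero => simp [sm_sg_zero, sm_cc_zero]
  | one =>
    have h := sm_rec hs h0 0
    simp [sm_sg_one, sm_cc_one] at h ⊢
    exact h
  | more n ih _ =>
    have h := sm_rec hs h0 (-(n : ℤ) - 1)
    rw [if_pos (by omega), show -(n : ℤ) - 1 + 1 = -n by ring, ih,
      show (-(-(n : ℤ) - 1) - 1).toNat = n by omega,
      show -(n : ℤ) - 1 - 1 = -((n + 2 : ℕ) : ℤ) by push_cast; ring] at h
    rw [sm_sg_add_two, sm_cc_add_two]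
    rw [sm_aa_add_two] at h ⊢
    generalize smS K (-((n + 2 : ℕ) : ℤ)) = X at h ⊢
    push_cast at h ⊢
    have h1 : ((n : K) + 1) ≠ 0 := by exact_mod_cast (by omega : n + 1 ≠ 0)
    have h2 : ((n : K) + 2) ≠ 0 := by exact_mod_cast (by omega : n + 2 ≠ 0)
    have h3 : (-(n : K) - 1) ≠ 0 := by
      intro h3
      apply h1
      linear_combination -h3
    field_simp at h ⊢
    linear_combination -h

theorem sm_all {K : Type*} [NormedField K] [CharZero K]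
    (hs : ∀ e : ℤ, Summable fun k : ℕ => ((aa k / ((k : ℚ) + e) : ℚ) : K))
    (h0 : Tendsto (fun k : ℕ => ((aa k : ℚ) : K)) atTop (𝓝 0)) (e : ℤ) :
    smS K e = (Sh e : K) + (ccz (-e) : K) * smS K 0 + (ccz (e - 1) : K) * smS K 1 := by
  unfold Sh ccz
  by_cases h : 1 ≤ e
  · obtain ⟨n, rfl⟩ : ∃ n : ℕ, e = n + 1 := ⟨(e - 1).toNat, by omega⟩
    rw [if_pos h, if_neg (by omega), if_pos (by omega), sm_up hs h0]
    simp
  · obtain ⟨n, rfl⟩ : ∃ n : ℕ, e = -n := ⟨(-e).toNat, by omega⟩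
    rw [if_neg h, if_pos (by omega), if_neg (by omega), sm_down hs h0]
    simp

/-- In any normed field of characteristic zero in which the series converge, the tail sums are
`Mh` plus explicit multiples of two fixed sums. -/
theorem tsum_aa {K : Type*} [NormedField K] [CharZero K]
    (hs : ∀ e : ℤ, Summable fun k : ℕ => ((aa k / ((k : ℚ) + e) : ℚ) : K))
    (h0 : Tendsto (fun k : ℕ => ((aa k : ℚ) : K)) atTop (𝓝 0)) (i j : ℕ) :
    ∑' k : ℕ, ((aa (i + k) / ((j : ℚ) + k + 1) : ℚ) : K) =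
      (Mh i j : K) + (ccz ((i : ℤ) - j - 1) : K) * ∑' k : ℕ, ((aa k / (k : ℚ) : ℚ) : K) +
        (ccz ((j : ℤ) - i) : K) * ∑' k : ℕ, ((aa k / ((k : ℚ) + 1) : ℚ) : K) := by
  have h1 := sm_all hs h0 ((j : ℤ) - i + 1)
  have h2 := ((hasSum_nat_add_iff' i).2 (hs ((j : ℤ) - i + 1)).hasSum).tsum_eq
  have e0 : smS K 0 = ∑' k : ℕ, ((aa k / (k : ℚ) : ℚ) : K) := by simp [smS]
  have e1 : smS K 1 = ∑' k : ℕ, ((aa k / ((k : ℚ) + 1) : ℚ) : K) := by simp [smS]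
  rw [e0, e1, show -((j : ℤ) - i + 1) = i - j - 1 by ring,
    show (j : ℤ) - i + 1 - 1 = j - i by ring] at h1
  have e2 : ∑' k : ℕ, ((aa (i + k) / ((j : ℚ) + k + 1) : ℚ) : K) =
      ∑' k : ℕ, ((aa (k + i) / (((k + i : ℕ) : ℚ) + (((j : ℤ) - i + 1 : ℤ) : ℚ)) : ℚ) : K) := by
    congr 1
    funext k
    rw [add_comm i k]
    congr 2
    push_cast
    ring
  rw [e2, h2]
  change smS K _ - _ = _
  rw [h1]
  unfold Mh
  rw [Rat.cast_sub, Rat.cast_sum]
  have e3 : ∑ k ∈ range i, ((aa k / ((k : ℚ) + (((j : ℤ) - i + 1 : ℤ) : ℚ)) : ℚ) : K) =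
      ∑ k ∈ range i, ((aa k / ((k : ℚ) + j + 1 - i) : ℚ) : K) := by
    refine sum_congr rfl fun k _ => ?_
    congr 2
    push_cast
    ring
  rw [e3]
  ring

end Crest.Agent.R006
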