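import Crest.Agent.R006.Series
import Crest.Agent.R168.CauchyBinet

/-! General lemmas for the 2-adic bound of the determinant. -/

set_option autoImplicit false

namespace Crest.Agent.R006

open Polynomial Finset Filter Topology

section Det

variable {K : Type*} [NormedField K] [IsUltrametricDist K]
variable {ι : Type*} [Fintype ι] [DecidableEq ι]

theorem ta_norm_det_le (A : Matrix ι ι K) (b : ℝ) (hb : 0 ≤ b) (h : ∀ i j, ‖A i j‖ ≤ b) :
    ‖A.det‖ ≤ b ^ Fintype.card ι := by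
  rw [Matrix.det_apply']
  refine IsUltrametricDist.norm_sum_le_of_forall_le_of_nonneg (by positivity) fun σ _ => ?_
  rw [norm_mul, norm_prod]
  have h1 : ‖((Equiv.Perm.sign σ : ℤ) : K)‖ = 1 := by
    rcases Int.units_eq_one_or (Equiv.Perm.sign σ) with h | h <;> simp [h]
  rw [h1, one_mul]
  calc ∏ i, ‖A (σ i) i‖ ≤ ∏ _i : ι, b := prod_le_prod (fun i _ => norm_nonneg _) fun i _ => h _ _
    _ = b ^ Fintype.card ι := by simp

theorem ta_norm_det_sum_le {α : Type*} [DecidableEq α] (E : Finset α) (M : ι → α → K)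
    (N : α → ι → K) (B : ℝ) (hB : 0 ≤ B)
    (h : ∀ f : ι → α, Function.Injective f → (∀ i, f i ∈ E) →
      ‖Matrix.det (Matrix.of fun i j => M i (f j)) * Matrix.det (Matrix.of fun i j => N (f i) j)‖ ≤ B) :
    ‖Matrix.det (Matrix.of fun i j => ∑ e ∈ E, M i e * N e j)‖ ≤ B := by
  classical
  let P : Finset α → Prop := fun A => ∃ f : ι → α, Function.Injective f ∧ univ.image f = A
  let d : (ι → α) → K := fun f =>
    Matrix.det (Matrix.of fun i j => M i (f j)) * Matrix.det (Matrix.of fun i j => N (f i) j)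
  let c : Finset α → K := fun A => if hA : P A then d hA.choose else 0
  have hd : ∀ f g : ι → α, Function.Injective f → Function.Injective g →
      univ.image f = univ.image g → d f = d g := by
    intro f g hf hg hfg
    have hex : ∀ i, ∃ j, f j = g i := by
      intro i
      have : g i ∈ univ.image f := hfg ▸ mem_image_of_mem g (mem_univ i)
      obtain ⟨j, -, hj⟩ := mem_image.1 this
      exact ⟨j, hj⟩
    choose s hs using hex
    have hsi : Function.Injective s := fun i j hij => hg (by rw [← hs, ← hs, hij])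
    let σ : Equiv.Perm ι := Equiv.ofBijective s (Finite.injective_iff_bijective.1 hsi)
    have h1 : (Matrix.of fun i j => M i (g j)) =
        (Matrix.of fun i j => M i (f j)).submatrix id σ := by
      ext i j; simp [σ, hs]
    have h2 : (Matrix.of fun i j => N (g i) j) =
        (Matrix.of fun i j => N (f i) j).submatrix σ id := by
      ext i j; simp [σ, hs]
    simp only [d]
    rw [h1, h2, Matrix.det_permute, Matrix.det_permute']
    rcases Int.units_eq_one_or (Equiv.Perm.sign σ) with h | h <;> simp [h]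
  rw [Crest.Agent.R168.cauchy_binet E M N c]
  · refine IsUltrametricDist.norm_sum_le_of_forall_le_of_nonneg hB fun A hA => ?_
    simp only [c]
    split_ifs with hP
    · obtain ⟨h1, h2⟩ := hP.choose_spec
      refine h _ h1 fun i => mem_powerset.1 hA ?_
      exact h2.le (mem_image_of_mem _ (mem_univ i))
    · simpa using hB
  · intro A _ hcard
    simp only [c]
    rw [dif_neg]
    rintro ⟨f, hf, rfl⟩
    exact hcard (by rw [card_image_of_injective _ hf]; rfl)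
  · intro f hf _
    have hP : P (univ.image f) := ⟨f, hf, rfl⟩
    simp only [c]
    rw [dif_pos hP]
    exact hd _ _ hP.choose_spec.1 hf hP.choose_spec.2

end Det

/-- Sum against the coefficients of a product. -/
theorem ta_sum_coeff_mul {K : Type*} [CommRing K] (p q : ℤ[X]) (c d M : ℕ)
    (hp : ∀ i, c ≤ i → p.coeff i = 0) (hq : ∀ i, d ≤ i → q.coeff i = 0) (hM : c + d ≤ M + 1)
    (F : ℕ → K) :
    ∑ i ∈ range M, (((q * p).coeff i : ℤ) : K) * F i =
      ∑ a ∈ range c, ((p.coeff a : ℤ) : K) * ∑ l ∈ range d, ((q.coeff l : ℤ) : K) * F (a + l) := by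
  have e1 : ∀ (r : ℤ[X]) (n : ℕ), (∀ i, n ≤ i → r.coeff i = 0) →
      r = ∑ a ∈ range n, monomial a (r.coeff a) := by
    intro r n hr
    ext i
    rw [finsetSum_coeff]
    simp only [coeff_monomial]
    rw [sum_ite_eq' (range n) i (fun a => r.coeff a)]
    split_ifs with hi
    · rfl
    · exact hr i (by simpa using hi)
  have e2 : q * p = ∑ a ∈ range c, ∑ l ∈ range d, monomial (a + l) (p.coeff a * q.coeff l) := by
    conv_lhs => rw [e1 p c hp, e1 q d hq, mul_comm, sum_mul_sum]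
    simp only [monomial_mul_monomial]
  rw [e2]
  simp only [finsetSum_coeff, coeff_monomial, Int.cast_sum, sum_mul, mul_sum]
  rw [sum_comm]
  refine sum_congr rfl fun a ha => ?_
  rw [sum_comm]
  refine sum_congr rfl fun l hl => ?_
  have hal : a + l ∈ range M := by
    rw [mem_range] at ha hl ⊢; omega
  rw [sum_eq_single (a + l)]
  · simp [mul_assoc]
  · intro i _ hi
    rw [if_neg (Ne.symm hi)]; simp
  · intro h; exact absurd hal h

theorem ta_sum_range_hinge (θ : ℝ) (hθ : 0 ≤ θ) (M : ℕ) :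
    ∑ x ∈ range M, max (θ - x) 0 ≤ (θ + 1 / 2) ^ 2 / 2 - (max (θ + 1 / 2 - M) 0) ^ 2 / 2 := by
  induction M with
  | zero =>
    rw [max_eq_left (by simp; linarith)]; simp
  | succ M ih =>
    rw [sum_range_succ]
    have : max (θ - M) 0 ≤ (max (θ + 1 / 2 - M) 0) ^ 2 / 2 -
        (max (θ + 1 / 2 - (M + 1 : ℕ)) 0) ^ 2 / 2 := by
      push_cast
      rcases le_total (θ - M) 0 with h1 | h1
      · rw [max_eq_right h1, max_eq_right (show θ + 1 / 2 - (M + 1) ≤ 0 by linarith)]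
        have := sq_nonneg (max (θ + 1 / 2 - M) 0)
        linarith
      · rw [max_eq_left h1, max_eq_left (show 0 ≤ θ + 1 / 2 - M by linarith)]
        rcases le_total (θ + 1 / 2 - (M + 1)) 0 with h2 | h2
        · rw [max_eq_right h2]
          nlinarith [sq_nonneg (θ - M - 1 / 2)]
        · rw [max_eq_left h2]
          nlinarith
    linarith

theorem ta_sum_hinge_le {ι : Type*} (S : Finset ι) (g : ι → ℕ) (hg : Set.InjOn g S) (θ : ℝ)
    (hθ : 0 ≤ θ) : ∑ i ∈ S, max (θ - g i) 0 ≤ (θ + 1 / 2) ^ 2 / 2 := by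
  classical
  have h1 : ∑ i ∈ S, max (θ - g i) 0 = ∑ x ∈ S.image g, max (θ - x) 0 :=
    (sum_image (f := fun x : ℕ => max (θ - x) 0) hg).symm
  obtain ⟨M, hM⟩ := (S.image g).exists_nat_subset_range
  have h2 : ∑ x ∈ S.image g, max (θ - x) 0 ≤ ∑ x ∈ range M, max (θ - (x : ℝ)) 0 :=
    sum_le_sum_of_subset_of_nonneg hM fun i _ _ => le_max_right _ _
  have h3 := ta_sum_range_hinge θ hθ M
  have h4 := sq_nonneg (max (θ + 1 / 2 - M) 0)
  linarith

/-! ### 2-adic norms -/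

theorem ta_norm_two : ‖(2 : ℚ_[2])‖ = 2⁻¹ := by
  have := Padic.norm_p (p := 2)
  simpa using this

theorem ta_norm_nat_ge (n : ℕ) (hn : n ≠ 0) :
    ((2 : ℝ) ^ n.factorization 2)⁻¹ = ‖(n : ℚ_[2])‖ := by
  have h1 : ‖((n : ℚ) : ℚ_[2])‖ = padicNorm 2 (n : ℚ) := Padic.eq_padicNorm _
  rw [Rat.cast_natCast] at h1
  rw [h1, padicNorm.eq_zpow_of_nonzero (by exact_mod_cast hn), padicValRat.of_nat,
    Nat.factorization_def n Nat.prime_two]
  simp

theorem ta_norm_inv_nat_le (n : ℕ) : ‖((n : ℚ_[2]))⁻¹‖ ≤ n := by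
  rcases eq_or_ne n 0 with rfl | hn
  · simp
  rw [norm_inv, ← ta_norm_nat_ge n hn, inv_inv]
  have := Nat.ordProj_le 2 hn
  exact_mod_cast this

theorem ta_norm_inv_int_le (n : ℤ) : ‖((n : ℚ_[2]))⁻¹‖ ≤ |(n : ℝ)| := by
  obtain ⟨m, rfl | rfl⟩ := Int.eq_nat_or_neg n
  · simpa using ta_norm_inv_nat_le m
  · simpa using ta_norm_inv_nat_le m

theorem ta_aa_even (m : ℕ) : aa (2 * m) = 0 := by
  induction m with
  | zero => rfl
  | succ m ih =>
    rw [show 2 * (m + 1) = 2 * m + 2 by ring]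
    show ((((2 * m : ℕ) : ℚ) + 1) / (((2 * m : ℕ) : ℚ) + 2)) * aa (2 * m) = 0
    rw [ih, mul_zero]

theorem ta_aa_odd (m : ℕ) :
    aa (2 * m + 1) = 2 * 4 ^ m / ((2 * m + 1) * (Nat.centralBinom m : ℚ)) := by
  induction m with
  | zero => show (2 : ℚ) = _; simp
  | succ m ih =>
    rw [show 2 * (m + 1) + 1 = (2 * m + 1) + 2 by ring]
    show ((((2 * m + 1 : ℕ) : ℚ) + 1) / (((2 * m + 1 : ℕ) : ℚ) + 2)) * aa (2 * m + 1) = _
    rw [ih]
    have h1 : ((m : ℚ) + 1) * (Nat.centralBinom (m + 1) : ℚ) =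
        2 * (2 * m + 1) * (Nat.centralBinom m : ℚ) := by
      exact_mod_cast Nat.succ_mul_centralBinom_succ m
    have h2 : (Nat.centralBinom m : ℚ) ≠ 0 := by exact_mod_cast Nat.centralBinom_ne_zero m
    have h3 : (Nat.centralBinom (m + 1) : ℚ) = 2 * (2 * m + 1) * (Nat.centralBinom m : ℚ) / (m + 1) := by
      rw [← h1]; field_simp
    rw [h3]
    push_cast
    field_simp
    ring

theorem ta_norm_aa_le (k : ℕ) : ‖((aa k : ℚ) : ℚ_[2])‖ ≤ k * (2⁻¹ : ℝ) ^ k := by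
  obtain ⟨m, rfl | rfl⟩ := Nat.even_or_odd' k
  · rw [ta_aa_even]; simp
  · rw [ta_aa_odd]
    push_cast
    have h1 : ‖((2 * m + 1 : ℕ) : ℚ_[2])‖ = 1 := by
      rw [Padic.norm_natCast_eq_one_iff]
      simp
    push_cast at h1
    have h2 : ‖((Nat.centralBinom m : ℕ) : ℚ_[2])‖⁻¹ ≤ 2 * m + 1 := by
      rw [← ta_norm_nat_ge _ (Nat.centralBinom_ne_zero m), inv_inv]
      rcases Nat.eq_zero_or_pos m with rfl | hm
      · simp
      · have := Nat.pow_factorization_choose_le (p := 2) (n := 2 * m) (k := m) (by omega)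
        rw [← Nat.centralBinom_eq_two_mul_choose] at this
        have h3 : ((2 : ℝ)) ^ (Nat.centralBinom m).factorization 2 ≤ 2 * m := by exact_mod_cast this
        linarith
    have h4 : (4 : ℚ_[2]) = 2 ^ 2 := by norm_num
    rw [norm_div, norm_mul, norm_mul, h1, h4, ← pow_mul, norm_pow, ta_norm_two, one_mul,
      div_eq_mul_inv, ← pow_succ', mul_comm]
    gcongr

theorem ta_norm_cc_le (l : ℕ) : ‖((cc l : ℚ) : ℚ_[2])‖ ≤ 2 ^ l := by
  obtain ⟨m, rfl | rfl⟩ := Nat.even_or_odd' l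
  · rw [cc_two_mul]
    push_cast
    have h4 : (4 : ℚ_[2]) = 2 ^ 2 := by norm_num
    rw [norm_div, h4, ← pow_mul, norm_pow, ta_norm_two, inv_pow, div_eq_mul_inv, inv_inv]
    have h1 : ‖((Nat.centralBinom m : ℕ) : ℚ_[2])‖ ≤ 1 := by
      simpa using Padic.norm_int_le_one (p := 2) (Nat.centralBinom m : ℤ)
    calc _ ≤ 1 * (2 : ℝ) ^ (2 * m) := by gcongr
      _ = _ := one_mul _
  · rw [cc_two_mul_add_one]; simp

theorem ta_norm_ccz_le (e : ℤ) : ‖((ccz e : ℚ) : ℚ_[2])‖ ≤ (2 : ℝ) ^ e := by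
  unfold ccz
  split_ifs with h
  · obtain ⟨n, rfl⟩ := Int.eq_ofNat_of_zero_le h
    simpa using ta_norm_cc_le n
  · simp; positivity

theorem ta_sq_le (k : ℕ) : ((k : ℝ) + 1) ^ 2 * (2⁻¹ : ℝ) ^ k ≤ 4 := by
  have h : ∀ k : ℕ, (k + 1) ^ 2 ≤ 4 * 2 ^ k := by
    intro k
    induction k with
    | zero => norm_num
    | succ k ih =>
      rcases Nat.lt_or_ge k 2 with hk | hk
      · interval_cases k <;> norm_num
      · have : (k + 1 + 1) ^ 2 ≤ 2 * (k + 1) ^ 2 := by nlinarith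
        rw [pow_succ 2 k]; omega
  have h2 : ((k : ℝ) + 1) ^ 2 ≤ 4 * 2 ^ k := by exact_mod_cast h k
  rw [inv_pow, ← div_eq_mul_inv, div_le_iff₀ (by positivity)]
  exact h2

theorem ta_summable (e : ℤ) : Summable fun k : ℕ => ((aa k / ((k : ℚ) + e) : ℚ) : ℚ_[2]) := by
  have h1 : Summable fun k : ℕ => (k : ℝ) ^ 2 * (2⁻¹ : ℝ) ^ k :=
    summable_pow_mul_geometric_of_norm_lt_one 2 (by norm_num)
  have h2 : Summable fun k : ℕ => (k : ℝ) ^ 1 * (2⁻¹ : ℝ) ^ k :=
    summable_pow_mul_geometric_of_norm_lt_one 1 (by norm_num)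
  refine Summable.of_norm_bounded (h1.add (h2.mul_left |(e : ℝ)|)) fun k => ?_
  have h3 := ta_norm_inv_int_le ((k : ℤ) + e)
  have h4 := ta_norm_aa_le k
  push_cast at h3 ⊢
  rw [div_eq_mul_inv, norm_mul]
  have h5 : |(k : ℝ) + e| ≤ k + |(e : ℝ)| := by
    have := abs_add_le (k : ℝ) e
    rwa [Nat.abs_cast] at this
  calc _ ≤ (k * (2⁻¹ : ℝ) ^ k) * (k + |(e : ℝ)|) := by
        gcongr
        exact h3.trans h5
    _ = _ := by ring

theorem ta_tendsto : Tendsto (fun k : ℕ => ((aa k : ℚ) : ℚ_[2])) atTop (𝓝 0) := by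
  have h2 : Summable fun k : ℕ => (k : ℝ) ^ 1 * (2⁻¹ : ℝ) ^ k :=
    summable_pow_mul_geometric_of_norm_lt_one 1 (by norm_num)
  refine squeeze_zero_norm (fun k => ?_) h2.tendsto_atTop_zero
  simpa using ta_norm_aa_le k

theorem ta_norm_tail_le (i j : ℕ) :
    ‖∑' k : ℕ, ((aa (i + k) / ((j : ℚ) + k + 1) : ℚ) : ℚ_[2])‖ ≤
      4 * ((i : ℝ) + 1) * ((j : ℝ) + 1) * (2⁻¹ : ℝ) ^ i := by
  refine IsUltrametricDist.norm_tsum_le_of_forall_le_of_nonneg (by positivity) fun k => ?_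
  have h3 := ta_norm_inv_nat_le (j + k + 1)
  have h4 := ta_norm_aa_le (i + k)
  push_cast at h3 h4 ⊢
  rw [div_eq_mul_inv, norm_mul]
  have h5 := ta_sq_le k
  have hi : (0 : ℝ) ≤ i := Nat.cast_nonneg _
  have hj : (0 : ℝ) ≤ j := Nat.cast_nonneg _
  have hk : (0 : ℝ) ≤ k := Nat.cast_nonneg _
  calc _ ≤ (((i : ℝ) + k) * (2⁻¹ : ℝ) ^ (i + k)) * ((j : ℝ) + k + 1) := by gcongr
    _ ≤ ((((i : ℝ) + 1) * (k + 1)) * (2⁻¹ : ℝ) ^ (i + k)) * (((j : ℝ) + 1) * (k + 1)) := by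
        gcongr <;> nlinarith [mul_nonneg hi hk, mul_nonneg hj hk]
    _ = ((i : ℝ) + 1) * ((j : ℝ) + 1) * (2⁻¹ : ℝ) ^ i * (((k : ℝ) + 1) ^ 2 * (2⁻¹ : ℝ) ^ k) := by
        rw [pow_add]; ring
    _ ≤ ((i : ℝ) + 1) * ((j : ℝ) + 1) * (2⁻¹ : ℝ) ^ i * 4 := by gcongr
    _ = _ := by ring

end Crest.Agent.R006
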