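import Crest.Agent.R006.Poly
import Crest.Agent.R006.PadicBasic
import Crest.Agent.R006.Sums
import Crest.Agent.R006.TwoAdicA

set_option autoImplicit false

namespace Crest.Agent.R006

open Polynomial Finset Filter Topology

noncomputable def taS0 : ℚ_[2] := ∑' k : ℕ, ((aa k / (k : ℚ) : ℚ) : ℚ_[2])

noncomputable def taS1 : ℚ_[2] := ∑' k : ℕ, ((aa k / ((k : ℚ) + 1) : ℚ) : ℚ_[2])

noncomputable def taT (i j : ℕ) : ℚ_[2] :=
  ∑' k : ℕ, ((aa (i + k) / ((j : ℚ) + k + 1) : ℚ) : ℚ_[2])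

noncomputable def taU (G : ℚ) (i j : ℕ) : ℚ_[2] :=
  taT i j + (4 * (G : ℚ_[2]) - taS0) * ((ccz ((i : ℤ) - j - 1) : ℚ) : ℚ_[2])

noncomputable def taZ (i j : ℕ) : ℚ_[2] :=
  3 / 2 * ((Z0 i j : ℚ) : ℚ_[2]) + taS1 * (if i = j then 1 else 0)

noncomputable def taB (N : ℕ) : ℤ[X] := (1 - X) ^ (2 * N)

theorem taB_coeff (N l : ℕ) (hl : 2 * N + 1 ≤ l) : (taB N).coeff l = 0 := by
  apply coeff_eq_zero_of_natDegree_lt
  have h1 : (1 - X : ℤ[X]).natDegree ≤ 1 := by compute_degree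
  have h2 : (taB N).natDegree ≤ 2 * N * 1 := natDegree_pow_le.trans (by gcongr)
  omega

theorem ta_mono (G : ℚ) (N r j : ℕ) (hr : r ≤ 36 * N) (hj : j < 44 * N) :
    ((E0m N r j : ℚ) : ℚ_[2]) + 4 * (G : ℚ_[2]) * ((EBm N r j : ℚ) : ℚ_[2]) =
      ∑ i ∈ range (49 * N + 1), (((rowP N r).coeff i : ℤ) : ℚ_[2]) * taU G i j -
        ∑ i ∈ range (49 * N + 1), (((rowD N r).coeff i : ℤ) : ℚ_[2]) * taZ i j := by
  have hc : ∑ i ∈ range (49 * N + 1), (((rowP N r).coeff i : ℤ) : ℚ_[2]) *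
      ((ccz ((j : ℤ) - i) : ℚ) : ℚ_[2]) = (((rowD N r).coeff j : ℤ) : ℚ_[2]) := by
    have := congrArg (fun q : ℚ => (q : ℚ_[2])) (contact N r j hr hj)
    simpa using this
  have hd : ∑ i ∈ range (49 * N + 1), (((rowD N r).coeff i : ℤ) : ℚ_[2]) *
      (if i = j then 1 else 0) = (((rowD N r).coeff j : ℤ) : ℚ_[2]) := by
    simp only [mul_ite, mul_one, mul_zero]
    rw [sum_ite_eq' (range (49 * N + 1)) j, if_pos (by rw [mem_range]; omega)]
  have hT : ∀ i, taT i j = ((Mh i j : ℚ) : ℚ_[2]) +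
      ((ccz ((i : ℤ) - j - 1) : ℚ) : ℚ_[2]) * taS0 + ((ccz ((j : ℤ) - i) : ℚ) : ℚ_[2]) * taS1 :=
    fun i => tsum_aa ta_summable ta_tendsto i j
  have e1 : ∑ i ∈ range (49 * N + 1), (((rowP N r).coeff i : ℤ) : ℚ_[2]) * taU G i j =
      ∑ i ∈ range (49 * N + 1), (((rowP N r).coeff i : ℤ) : ℚ_[2]) * ((Mh i j : ℚ) : ℚ_[2]) +
      4 * (G : ℚ_[2]) * ∑ i ∈ range (49 * N + 1), (((rowP N r).coeff i : ℤ) : ℚ_[2]) *
        ((ccz ((i : ℤ) - j - 1) : ℚ) : ℚ_[2]) +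
      taS1 * (((rowD N r).coeff j : ℤ) : ℚ_[2]) := by
    rw [← hc, mul_sum, mul_sum, ← sum_add_distrib, ← sum_add_distrib]
    refine sum_congr rfl fun i _ => ?_
    rw [taU, hT]; ring
  have e2 : ∑ i ∈ range (49 * N + 1), (((rowD N r).coeff i : ℤ) : ℚ_[2]) * taZ i j =
      ∑ i ∈ range (49 * N + 1), 3 / 2 * (((rowD N r).coeff i : ℤ) : ℚ_[2]) * ((Z0 i j : ℚ) : ℚ_[2]) +
      taS1 * (((rowD N r).coeff j : ℤ) : ℚ_[2]) := by
    rw [← hd, mul_sum, ← sum_add_distrib]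
    refine sum_congr rfl fun i _ => ?_
    rw [taZ]; ring
  rw [e1, e2, E0m, EBm]
  push_cast
  rw [sum_sub_distrib]
  ring

/-- Index set of the factorisation. -/
def taE (N : ℕ) : Finset ((ℕ × ℕ) ⊕ ℕ) :=
  (range (47 * N + 1) ×ˢ range (38 * N)).disjSum (range (47 * N))

noncomputable def taX (N r : ℕ) : (ℕ × ℕ) ⊕ ℕ → ℚ_[2] :=
  Sum.elim
    (fun p => 2 * (((alphaP (47 * N) ((r : ℤ) - 3 * N)).coeff p.1 : ℤ) : ℚ_[2]) / 2 ^ (47 * N - p.1))
    (fun a => (((deltaP (47 * N) ((r : ℤ) - 3 * N)).coeff a : ℤ) : ℚ_[2]) / 2 ^ (47 * N - 1 - a))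

noncomputable def taW (G : ℚ) (N : ℕ) : (ℕ × ℕ) ⊕ ℕ → ℚ_[2] :=
  Sum.elim
    (fun p => 2 ^ (47 * N - p.1) / 2 *
      ∑ l ∈ range (2 * N + 1), (((taB N).coeff l : ℤ) : ℚ_[2]) * taU G (p.1 + l) (6 * N + p.2))
    (fun a => 2 ^ (47 * N - 1 - a))

noncomputable def taY (N k : ℕ) : (ℕ × ℕ) ⊕ ℕ → ℚ_[2] :=
  Sum.elim
    (fun p => (((colQ N k).coeff (6 * N + p.2) : ℤ) : ℚ_[2]))
    (fun a => -∑ j ∈ range (44 * N), (((colQ N k).coeff j : ℤ) : ℚ_[2]) *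
      ∑ l ∈ range (2 * N + 1), (((taB N).coeff l : ℤ) : ℚ_[2]) * taZ (a + l) j)

theorem ta_entry (G : ℚ) (N r k : ℕ) (hr : r < 36 * N) (hk : k < 36 * N) :
    ((E0 N r k : ℚ) : ℚ_[2]) + 4 * (G : ℚ_[2]) * ((EB N r k : ℚ) : ℚ_[2]) =
      ∑ e ∈ taE N, taX N r e * (taW G N e * taY N k e) := by
  have hu : ((r : ℤ) - 3 * N).natAbs ≤ 47 * N := by omega
  have h1 : ((E0 N r k : ℚ) : ℚ_[2]) + 4 * (G : ℚ_[2]) * ((EB N r k : ℚ) : ℚ_[2]) =
      ∑ j ∈ range (44 * N), (((colQ N k).coeff j : ℤ) : ℚ_[2]) *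
        (((E0m N r j : ℚ) : ℚ_[2]) + 4 * (G : ℚ_[2]) * ((EBm N r j : ℚ) : ℚ_[2])) := by
    rw [E0, EB]
    push_cast
    rw [mul_sum, ← sum_add_distrib]
    refine sum_congr rfl fun j _ => by ring
  have hP : ∀ j, ∑ i ∈ range (49 * N + 1), (((rowP N r).coeff i : ℤ) : ℚ_[2]) * taU G i j =
      ∑ a ∈ range (47 * N + 1), (((alphaP (47 * N) ((r : ℤ) - 3 * N)).coeff a : ℤ) : ℚ_[2]) *
        ∑ l ∈ range (2 * N + 1), (((taB N).coeff l : ℤ) : ℚ_[2]) * taU G (a + l) j := fun j =>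
    ta_sum_coeff_mul _ (taB N) (47 * N + 1) (2 * N + 1) (49 * N + 1)
      (fun i hi => alphaP_coeff_eq_zero _ _ hu i (Or.inr (by omega))) (taB_coeff N) (by omega)
      (fun i => taU G i j)
  have hD : ∀ j, ∑ i ∈ range (49 * N + 1), (((rowD N r).coeff i : ℤ) : ℚ_[2]) * taZ i j =
      ∑ a ∈ range (47 * N), (((deltaP (47 * N) ((r : ℤ) - 3 * N)).coeff a : ℤ) : ℚ_[2]) *
        ∑ l ∈ range (2 * N + 1), (((taB N).coeff l : ℤ) : ℚ_[2]) * taZ (a + l) j := fun j =>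
    ta_sum_coeff_mul _ (taB N) (47 * N) (2 * N + 1) (49 * N + 1)
      (fun i hi => deltaP_coeff_eq_zero _ _ hu i (Or.inr hi)) (taB_coeff N) (by omega)
      (fun i => taZ i j)
  rw [h1, sum_congr rfl fun j hj => by
    rw [ta_mono G N r j hr.le (mem_range.1 hj), hP, hD, mul_sub]]
  rw [sum_sub_distrib, taE, sum_disjSum, sub_eq_add_neg]
  congr 1
  · rw [show 44 * N = 6 * N + 38 * N by ring, sum_range_add, sum_eq_zero, zero_add, sum_product,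
      sum_comm]
    · refine sum_congr rfl fun j _ => ?_
      rw [mul_sum]
      refine sum_congr rfl fun a _ => ?_
      simp only [taX, taW, taY, Sum.elim_inl]
      field_simp
    · intro j hj
      rw [colQ_coeff_eq_zero N k j hk (Or.inl (mem_range.1 hj))]
      simp
  · simp only [mul_sum (range (47 * N))]
    rw [sum_comm, ← sum_neg_distrib]
    refine sum_congr rfl fun a _ => ?_
    simp only [taX, taW, taY, Sum.elim_inr]
    rw [← mul_assoc, div_mul_cancel₀ _ (pow_ne_zero _ two_ne_zero), mul_neg, mul_sum]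
    congr 1
    refine sum_congr rfl fun j _ => by ring

theorem ta_norm_div_le (z : ℤ) (m : ℕ) (h : (2 : ℤ) ^ m ∣ z) : ‖(z : ℚ_[2]) / 2 ^ m‖ ≤ 1 := by
  obtain ⟨w, rfl⟩ := h
  push_cast
  rw [mul_div_cancel_left₀ _ (pow_ne_zero _ two_ne_zero)]
  exact Padic.norm_int_le_one w

theorem taX_norm (N r : ℕ) (hr : r < 36 * N) (e : (ℕ × ℕ) ⊕ ℕ) : ‖taX N r e‖ ≤ 1 := by
  have hu : ((r : ℤ) - 3 * N).natAbs ≤ 47 * N := by omega
  rcases e with p | a
  · have := ta_norm_div_le _ _ (two_pow_dvd_alphaP _ _ hu p.1)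
    simpa [taX] using this
  · have := ta_norm_div_le _ _ (two_pow_dvd_deltaP _ _ hu a)
    simpa [taX] using this

noncomputable def taK (G : ℚ) : ℝ := 10000 + ‖4 * (G : ℚ_[2]) - taS0‖ + ‖taS1‖

theorem taK_ge (G : ℚ) : 10000 ≤ taK G := by
  unfold taK
  have := norm_nonneg (4 * (G : ℚ_[2]) - taS0)
  have := norm_nonneg taS1
  linarith

theorem ta_norm_int_sum_le (s : Finset ℕ) (z : ℕ → ℤ) (F : ℕ → ℚ_[2]) (B : ℝ) (hB : 0 ≤ B)
    (h : ∀ l ∈ s, ‖F l‖ ≤ B) : ‖∑ l ∈ s, (z l : ℚ_[2]) * F l‖ ≤ B := by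
  refine IsUltrametricDist.norm_sum_le_of_forall_le_of_nonneg hB fun l hl => ?_
  rw [norm_mul]
  calc _ ≤ 1 * B := by
        gcongr
        · exact Padic.norm_int_le_one _
        · exact h l hl
    _ = B := one_mul _

theorem taZ_norm (G : ℚ) (N i j : ℕ) (hN : 1 ≤ N) (hi : i ≤ 49 * N) (hj : j ≤ 49 * N) :
    ‖taZ i j‖ ≤ taK G * (N : ℝ) ^ 2 := by
  have h1 : ‖((Z0 i j : ℚ) : ℚ_[2])‖ ≤ (49 * (N : ℝ)) ^ 2 := by
    rw [Padic.eq_padicNorm]
    have h2 := Z0_norm_le (p := 2) (49 * N) i j hi hj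
    have h3 : 2 ^ Nat.log 2 (49 * N) ≤ 49 * N := Nat.pow_log_le_self 2 (by omega)
    have h4 : ((2 : ℕ) : ℚ) ^ (2 * Nat.log 2 (49 * N)) ≤ (49 * (N : ℚ)) ^ 2 := by
      rw [mul_comm 2, pow_mul]
      have : ((2 : ℕ) : ℚ) ^ Nat.log 2 (49 * N) ≤ 49 * (N : ℚ) := by exact_mod_cast h3
      gcongr
    exact_mod_cast h2.trans h4
  have h2 : ‖(3 / 2 : ℚ_[2])‖ ≤ 2 := by
    rw [norm_div, ta_norm_two]
    have : ‖(3 : ℚ_[2])‖ ≤ 1 := by simpa using Padic.norm_int_le_one (p := 2) 3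
    rw [div_inv_eq_mul]
    linarith
  have h3 : ‖(if i = j then 1 else 0 : ℚ_[2])‖ ≤ 1 := by split_ifs <;> simp
  have hN' : (1 : ℝ) ≤ (N : ℝ) ^ 2 := one_le_pow₀ (by exact_mod_cast hN)
  have h0 := norm_nonneg (4 * (G : ℚ_[2]) - taS0)
  have h0' := norm_nonneg taS1
  calc ‖taZ i j‖ ≤ ‖(3 / 2 : ℚ_[2])‖ * ‖((Z0 i j : ℚ) : ℚ_[2])‖ +
        ‖taS1‖ * ‖(if i = j then 1 else 0 : ℚ_[2])‖ := by
        rw [taZ, ← norm_mul, ← norm_mul]; exact norm_add_le _ _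
    _ ≤ 2 * (49 * (N : ℝ)) ^ 2 + ‖taS1‖ * (N : ℝ) ^ 2 := by
        gcongr
        exact h3.trans hN'
    _ ≤ taK G * (N : ℝ) ^ 2 := by
        unfold taK
        nlinarith

theorem taY_norm (G : ℚ) (N k : ℕ) (hN : 1 ≤ N) (e : (ℕ × ℕ) ⊕ ℕ) (he : e ∈ taE N) :
    ‖taY N k e‖ ≤ taK G * (N : ℝ) ^ 2 := by
  have hN' : (1 : ℝ) ≤ (N : ℝ) ^ 2 := one_le_pow₀ (by exact_mod_cast hN)
  have hK := taK_ge G
  rcases e with p | a
  · simp only [taY, Sum.elim_inl]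
    refine (Padic.norm_int_le_one _).trans ?_
    nlinarith
  · simp only [taY, Sum.elim_inr, norm_neg]
    have ha : a < 47 * N := by simpa [taE] using he
    refine ta_norm_int_sum_le _ _ _ _ (by positivity) fun j hj => ?_
    refine ta_norm_int_sum_le _ _ _ _ (by positivity) fun l hl => ?_
    rw [mem_range] at hj hl
    exact taZ_norm G N _ _ hN (by omega) (by omega)

/-- First index. -/
def taG1 (N : ℕ) : (ℕ × ℕ) ⊕ ℕ → ℕ := Sum.elim (fun p => 47 * N - p.1) (fun a => 47 * N - 1 - a)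

/-- Second index. -/
def taG2 : (ℕ × ℕ) ⊕ ℕ → ℕ := Sum.elim (fun p => p.2) (fun _ => 0)

noncomputable def taH (N : ℕ) (e : (ℕ × ℕ) ⊕ ℕ) : ℝ :=
  2 * (if e.isLeft then max (79 / 4 * (N : ℝ) - taG1 N e) 0 else 0) +
    (if e.isLeft then max (79 / 4 * (N : ℝ) - taG2 e) 0 else 0) +
    (if e.isRight then max (65 / 4 * (N : ℝ) - taG1 N e) 0 else 0)

theorem taW_norm (G : ℚ) (N : ℕ) (hN : 1 ≤ N) (e : (ℕ × ℕ) ⊕ ℕ) (he : e ∈ taE N) :
    ‖taW G N e‖ ≤ taK G * (N : ℝ) ^ 2 * (2 : ℝ) ^ (taH N e - 65 / 4 * (N : ℝ)) := by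
  have hN1 : (1 : ℝ) ≤ N := by exact_mod_cast hN
  have hN' : (1 : ℝ) ≤ (N : ℝ) ^ 2 := one_le_pow₀ hN1
  have hK := taK_ge G
  have hpow : ∀ m : ℕ, (2⁻¹ : ℝ) ^ m = (2 : ℝ) ^ (-(m : ℝ)) := by
    intro m
    rw [Real.rpow_neg (by norm_num), Real.rpow_natCast, inv_pow]
  have hmono : ∀ x y : ℝ, x ≤ y → (2 : ℝ) ^ x ≤ (2 : ℝ) ^ y := fun x y h =>
    Real.rpow_le_rpow_of_exponent_le (by norm_num) h
  rcases e with ⟨a, j⟩ | a
  · have ha : a < 47 * N + 1 ∧ j < 38 * N := by simpa [taE] using he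
    obtain ⟨m, hm⟩ : ∃ m, 47 * N = a + m := ⟨47 * N - a, by omega⟩
    have hm' : 47 * N - a = m := by omega
    have hmR : 47 * (N : ℝ) = a + m := by exact_mod_cast hm
    have hH : taH N (Sum.inl (a, j)) =
        2 * max (79 / 4 * (N : ℝ) - m) 0 + max (79 / 4 * (N : ℝ) - j) 0 := by
      simp [taH, taG1, taG2, hm']
    simp only [taW, Sum.elim_inl, hm']
    rw [hH, norm_mul, norm_div, norm_pow, ta_norm_two, hpow, div_inv_eq_mul]
    set h : ℝ := 2 * max (79 / 4 * (N : ℝ) - m) 0 + max (79 / 4 * (N : ℝ) - j) 0 - 65 / 4 * (N : ℝ)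
      with hh
    have hb1 := le_max_left (79 / 4 * (N : ℝ) - m) 0
    have hb2 := le_max_right (79 / 4 * (N : ℝ) - m) 0
    have hb3 := le_max_left (79 / 4 * (N : ℝ) - j) 0
    have hb4 := le_max_right (79 / 4 * (N : ℝ) - j) 0
    have hsum : ‖∑ l ∈ range (2 * N + 1), (((taB N).coeff l : ℤ) : ℚ_[2]) *
        taU G (a + l) (6 * N + j)‖ ≤ taK G * (N : ℝ) ^ 2 * (2 : ℝ) ^ (h + m - 1) := by
      refine ta_norm_int_sum_le _ _ _ _ (by positivity) fun l hl => ?_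
      rw [mem_range] at hl
      have hlR : (l : ℝ) ≤ 2 * N := by exact_mod_cast (show l ≤ 2 * N by omega)
      have hl0 : (0 : ℝ) ≤ l := Nat.cast_nonneg _
      have haR : (a : ℝ) ≤ 47 * N := by exact_mod_cast (show a ≤ 47 * N by omega)
      have hjR : (j : ℝ) + 1 ≤ 38 * N := by exact_mod_cast (show j + 1 ≤ 38 * N by omega)
      have t1 : ‖taT (a + l) (6 * N + j)‖ ≤ 10000 * (N : ℝ) ^ 2 * (2 : ℝ) ^ (h + m - 1) := by
        refine (ta_norm_tail_le _ _).trans ?_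
        rw [hpow]
        have u1 : (((a + l : ℕ) : ℝ) + 1) ≤ 50 * N := by push_cast; linarith
        have u2 : (((6 * N + j : ℕ) : ℝ) + 1) ≤ 50 * N := by push_cast; linarith
        have u3 : (2 : ℝ) ^ (-((a + l : ℕ) : ℝ)) ≤ (2 : ℝ) ^ (h + m - 1) := by
          apply hmono; push_cast; linarith
        calc _ ≤ 4 * (50 * (N : ℝ)) * (50 * N) * (2 : ℝ) ^ (h + m - 1) := by gcongr
          _ = _ := by ring
      have t2 : ‖((ccz (((a + l : ℕ) : ℤ) - (6 * N + j : ℕ) - 1) : ℚ) : ℚ_[2])‖ ≤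
          (N : ℝ) ^ 2 * (2 : ℝ) ^ (h + m - 1) := by
        refine (ta_norm_ccz_le _).trans ?_
        rw [← Real.rpow_intCast]
        have u3 : (2 : ℝ) ^ (((((a + l : ℕ) : ℤ) - (6 * N + j : ℕ) - 1 : ℤ)) : ℝ) ≤
            (2 : ℝ) ^ (h + m - 1) := by
          apply hmono; push_cast; linarith
        refine u3.trans ?_
        exact le_mul_of_one_le_left (by positivity) hN'
      have h0' := norm_nonneg taS1
      have hpos : 0 ≤ (N : ℝ) ^ 2 * (2 : ℝ) ^ (h + m - 1) := by positivity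
      calc ‖taU G (a + l) (6 * N + j)‖ ≤ ‖taT (a + l) (6 * N + j)‖ + ‖4 * (G : ℚ_[2]) - taS0‖ *
            ‖((ccz (((a + l : ℕ) : ℤ) - (6 * N + j : ℕ) - 1) : ℚ) : ℚ_[2])‖ := by
            rw [taU, ← norm_mul]; exact norm_add_le _ _
        _ ≤ 10000 * (N : ℝ) ^ 2 * (2 : ℝ) ^ (h + m - 1) + ‖4 * (G : ℚ_[2]) - taS0‖ *
            ((N : ℝ) ^ 2 * (2 : ℝ) ^ (h + m - 1)) := by gcongr
        _ ≤ _ := by
            unfold taK
            nlinarith [mul_nonneg h0' hpos]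
    calc _ ≤ (2 : ℝ) ^ (-(m : ℝ)) * 2 * (taK G * (N : ℝ) ^ 2 * (2 : ℝ) ^ (h + m - 1)) := by gcongr
      _ = taK G * (N : ℝ) ^ 2 * ((2 : ℝ) ^ (-(m : ℝ)) * (2 : ℝ) ^ (1 : ℝ) * (2 : ℝ) ^ (h + m - 1)) := by
          rw [Real.rpow_one]; ring
      _ = _ := by
          rw [← Real.rpow_add (by norm_num), ← Real.rpow_add (by norm_num)]
          congr 2; ring
  · have hH : taH N (Sum.inr a) = max (65 / 4 * (N : ℝ) - (47 * N - 1 - a : ℕ)) 0 := by
      simp [taH, taG1]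
    simp only [taW, Sum.elim_inr]
    rw [hH, norm_pow, ta_norm_two, hpow]
    have hb1 := le_max_left (65 / 4 * (N : ℝ) - (47 * N - 1 - a : ℕ)) 0
    calc _ ≤ (2 : ℝ) ^ (max (65 / 4 * (N : ℝ) - (47 * N - 1 - a : ℕ)) 0 - 65 / 4 * (N : ℝ)) :=
          hmono _ _ (by linarith)
      _ ≤ _ := le_mul_of_one_le_left (by positivity) (by nlinarith)

theorem ta_sum_taH {ι : Type*} [Fintype ι] (N : ℕ) (f : ι → (ℕ × ℕ) ⊕ ℕ)
    (h1 : Set.InjOn (fun i => taG1 N (f i)) (univ.filter fun i => (f i).isLeft))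
    (h2 : Set.InjOn (fun i => taG2 (f i)) (univ.filter fun i => (f i).isLeft))
    (h3 : Set.InjOn (fun i => taG1 N (f i)) (univ.filter fun i => (f i).isRight)) :
    ∑ i, taH N (f i) ≤ 3 * ((79 / 4 * (N : ℝ) + 1 / 2) ^ 2 / 2) + (65 / 4 * (N : ℝ) + 1 / 2) ^ 2 / 2 := by
  have b1 := ta_sum_hinge_le _ _ h1 (79 / 4 * (N : ℝ)) (by positivity)
  have b2 := ta_sum_hinge_le _ _ h2 (79 / 4 * (N : ℝ)) (by positivity)
  have b3 := ta_sum_hinge_le _ _ h3 (65 / 4 * (N : ℝ)) (by positivity)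
  rw [sum_filter] at b1 b2 b3
  simp only [taH, sum_add_distrib, ← mul_sum]
  linarith

theorem det_norm_two (G : ℚ) : ∃ (K : ℝ) (m : ℕ), 1 ≤ K ∧ ∀ N : ℕ, 1 ≤ N →
    ((padicNorm 2 (Emat G N).det : ℚ) : ℝ) ≤
      (K * (N : ℝ) ^ m) ^ (36 * N) * (2 : ℝ) ^ (1057 / 8 * (N : ℝ) ^ 2) := by
  have hK := taK_ge G
  refine ⟨4 * taK G ^ 2, 4, by nlinarith, fun N hN => ?_⟩
  have hN1 : (1 : ℝ) ≤ N := by exact_mod_cast hN
  have hcast : (((Emat G N).det : ℚ) : ℚ_[2]) = Matrix.det (Matrix.of fun r k : Fin (36 * N) =>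
      ∑ e ∈ taE N, taX N r e * (taW G N e * taY N k e)) := by
    have h := RingHom.map_det (Rat.castHom ℚ_[2]) (Emat G N)
    simp only [Rat.coe_castHom] at h
    rw [h]
    congr 1
    ext r k
    rw [Matrix.of_apply, ← ta_entry G N r k r.2 k.2]
    simp [Emat]
  rw [← Padic.eq_padicNorm, hcast]
  refine ta_norm_det_sum_le (taE N) (fun (r : Fin (36 * N)) e => taX N r e)
    (fun e (k : Fin (36 * N)) => taW G N e * taY N k e) _ (by positivity) fun f _ hf => ?_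
  have hB : 0 ≤ (4 * taK G ^ 2 * (N : ℝ) ^ 4) ^ (36 * N) * (2 : ℝ) ^ (1057 / 8 * (N : ℝ) ^ 2) := by
    positivity
  rw [Matrix.det_mul_column (fun i => taW G N (f i)) (Matrix.of fun i (k : Fin (36 * N)) => taY N k (f i))
    |> fun h => (by simpa only [Matrix.of_apply] using h :
      Matrix.det (Matrix.of fun i (k : Fin (36 * N)) => taW G N (f i) * taY N k (f i)) =
        (∏ i, taW G N (f i)) * Matrix.det (Matrix.of fun i (k : Fin (36 * N)) => taY N k (f i)))]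
  by_cases h1 : Set.InjOn (fun i => taG1 N (f i)) (univ.filter fun i => (f i).isLeft)
  swap
  · simp only [Set.InjOn, not_forall] at h1
    obtain ⟨i, hi, i', hi', hg, hne⟩ := h1
    have hi1 := hf i
    have hi2 := hf i'
    rw [Matrix.det_zero_of_column_eq hne, zero_mul, norm_zero]
    · exact hB
    intro r
    simp only [coe_filter, mem_univ, true_and, Set.mem_ofPred_eq, Sum.isLeft_iff] at hi hi'
    obtain ⟨⟨a, j⟩, ha⟩ := hi
    obtain ⟨⟨a', j'⟩, ha'⟩ := hi'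
    simp only [Matrix.of_apply, ha, ha'] at hg hi1 hi2 ⊢
    have e1 : a < 47 * N + 1 ∧ j < 38 * N := by simpa [taE] using hi1
    have e2 : a' < 47 * N + 1 ∧ j' < 38 * N := by simpa [taE] using hi2
    have e3 : 47 * N - a = 47 * N - a' := hg
    obtain rfl : a = a' := by omega
    rfl
  by_cases h3 : Set.InjOn (fun i => taG1 N (f i)) (univ.filter fun i => (f i).isRight)
  swap
  · simp only [Set.InjOn, not_forall] at h3
    obtain ⟨i, hi, i', hi', hg, hne⟩ := h3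
    have hi1 := hf i
    have hi2 := hf i'
    rw [Matrix.det_zero_of_column_eq hne, zero_mul, norm_zero]
    · exact hB
    intro r
    simp only [coe_filter, mem_univ, true_and, Set.mem_ofPred_eq, Sum.isRight_iff] at hi hi'
    obtain ⟨a, ha⟩ := hi
    obtain ⟨a', ha'⟩ := hi'
    simp only [Matrix.of_apply, ha, ha'] at hg hi1 hi2 ⊢
    have e1 : a < 47 * N := by simpa [taE] using hi1
    have e2 : a' < 47 * N := by simpa [taE] using hi2
    have e3 : 47 * N - 1 - a = 47 * N - 1 - a' := hg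
    obtain rfl : a = a' := by omega
    rfl
  by_cases h2 : Set.InjOn (fun i => taG2 (f i)) (univ.filter fun i => (f i).isLeft)
  swap
  · simp only [Set.InjOn, not_forall] at h2
    obtain ⟨i, hi, i', hi', hg, hne⟩ := h2
    rw [Matrix.det_zero_of_row_eq (M := Matrix.of fun i (k : Fin (36 * N)) => taY N k (f i)) hne,
      mul_zero, mul_zero, norm_zero]
    · exact hB
    funext k
    simp only [coe_filter, mem_univ, true_and, Set.mem_ofPred_eq, Sum.isLeft_iff] at hi hi'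
    obtain ⟨⟨a, j⟩, ha⟩ := hi
    obtain ⟨⟨a', j'⟩, ha'⟩ := hi'
    simp only [Matrix.of_apply, ha, ha'] at hg ⊢
    obtain rfl : j = j' := hg
    rfl
  have hs := ta_sum_taH N f h1 h2 h3
  have hX := ta_norm_det_le (Matrix.of fun (r : Fin (36 * N)) j => taX N r (f j)) 1 zero_le_one
    fun r j => taX_norm N r r.2 _
  have hY := ta_norm_det_le (Matrix.of fun i (k : Fin (36 * N)) => taY N k (f i))
    (taK G * (N : ℝ) ^ 2) (by positivity) fun i k => taY_norm G N k hN _ (hf i)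
  have hW : ‖∏ i, taW G N (f i)‖ ≤ (taK G * (N : ℝ) ^ 2) ^ (36 * N) *
      (2 : ℝ) ^ (1057 / 8 * (N : ℝ) ^ 2 + 72 * N) := by
    rw [norm_prod]
    calc ∏ i, ‖taW G N (f i)‖ ≤
          ∏ i, (taK G * (N : ℝ) ^ 2 * (2 : ℝ) ^ (taH N (f i) - 65 / 4 * (N : ℝ))) :=
          prod_le_prod (fun i _ => norm_nonneg _) fun i _ => taW_norm G N hN _ (hf i)
      _ = (taK G * (N : ℝ) ^ 2) ^ (36 * N) *
          (2 : ℝ) ^ (∑ i, (taH N (f i) - 65 / 4 * (N : ℝ))) := by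
          rw [prod_mul_distrib, Real.rpow_sum_of_pos (by norm_num)]
          simp
      _ ≤ _ := by
          gcongr
          · norm_num
          rw [sum_sub_distrib]
          simp only [sum_const, card_univ, Fintype.card_fin, nsmul_eq_mul]
          push_cast
          nlinarith
  rw [one_pow] at hX
  rw [Fintype.card_fin] at hY
  have h72 : (2 : ℝ) ^ (72 * (N : ℝ)) = 4 ^ (36 * N) := by
    rw [show (72 * (N : ℝ)) = ((2 * (36 * N) : ℕ) : ℝ) by push_cast; ring, Real.rpow_natCast, pow_mul]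
    norm_num
  rw [norm_mul, norm_mul]
  calc _ ≤ 1 * (((taK G * (N : ℝ) ^ 2) ^ (36 * N) *
      (2 : ℝ) ^ (1057 / 8 * (N : ℝ) ^ 2 + 72 * N)) * (taK G * (N : ℝ) ^ 2) ^ (36 * N)) := by
        gcongr
    _ = _ := by
        rw [Real.rpow_add (by norm_num), h72,
          show 4 * taK G ^ 2 * (N : ℝ) ^ 4 = 4 * ((taK G * (N : ℝ) ^ 2) * (taK G * (N : ℝ) ^ 2)) by ring,
          mul_pow 4, mul_pow (taK G * (N : ℝ) ^ 2)]
        ring

end Crest.Agent.R006
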