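import Crest.Agent.R006.OddP
import Crest.Agent.R006.TwoAdic
import Crest.Agent.Lib.PNT.Basic

set_option autoImplicit false

namespace Crest.Agent.R006

open Polynomial Finset Filter Topology

/-- For a prime dividing the denominator, the norm is the exact power in the denominator. -/
theorem arith_norm_of_dvd_den {p : ℕ} [hp : Fact p.Prime] (D : ℚ) (h : p ∣ D.den) :
    padicNorm p D = (p : ℚ) ^ (D.den.factorization p) := by
  have hD : D ≠ 0 := by
    rintro rfl
    simp at h
    exact hp.out.one_lt.ne' h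
  have hnum : ¬ (p : ℤ) ∣ D.num := by
    intro h'
    have h1 : p ∣ D.num.natAbs := Int.natCast_dvd.mp h'
    have := Nat.dvd_gcd h1 h
    rw [D.reduced] at this
    exact hp.out.one_lt.ne' (Nat.dvd_one.mp this)
  rw [padicNorm.eq_zpow_of_nonzero hD, padicValRat, padicValInt.eq_zero_of_not_dvd hnum,
    Nat.factorization_def _ hp.out]
  simp

theorem arith_norm_le_one_of_not_dvd {p : ℕ} [hp : Fact p.Prime] (D : ℚ) (h : ¬ p ∣ D.den) :
    padicNorm p D ≤ 1 := by
  by_cases hD : D = 0
  · simp [hD]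
  rw [padicNorm.eq_zpow_of_nonzero hD, padicValRat, padicValNat.eq_zero_of_not_dvd h]
  have h1 : (1 : ℚ) ≤ p := by exact_mod_cast hp.out.one_lt.le
  apply zpow_le_one_of_nonpos₀ h1
  simp

theorem arith_norm_le_den {p : ℕ} [hp : Fact p.Prime] (D : ℚ) :
    padicNorm p D ≤ D.den := by
  by_cases h : p ∣ D.den
  · rw [arith_norm_of_dvd_den D h]
    have : p ^ (D.den.factorization p) ≤ D.den := Nat.ordProj_le p D.den_ne_zero
    exact_mod_cast this
  · refine (arith_norm_le_one_of_not_dvd D h).trans ?_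
    exact_mod_cast D.den_pos

/-- Product formula, as an upper bound for the denominator. -/
theorem arith_log_den_le (D : ℚ) (S : Finset ℕ) (b : ℕ → ℝ) (hb : ∀ p ∈ S, 0 ≤ b p)
    (h1 : ∀ p : ℕ, ∀ _ : Fact p.Prime, p ∈ S → ((padicNorm p D : ℚ) : ℝ) ≤ Real.exp (b p))
    (h2 : ∀ p : ℕ, ∀ _ : Fact p.Prime, p ∉ S → ((padicNorm p D : ℚ) : ℝ) ≤ 1) :
    (D.den : ℝ) ≤ Real.exp (∑ p ∈ S, b p) := by
  have hsub : D.den.primeFactors ⊆ S := by
    intro p hp
    have hpp := Nat.prime_of_mem_primeFactors hp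
    have hd := Nat.dvd_of_mem_primeFactors hp
    haveI : Fact p.Prime := ⟨hpp⟩
    by_contra hS
    have h3 := h2 p ‹_› hS
    rw [arith_norm_of_dvd_den D hd] at h3
    have h4 : 0 < D.den.factorization p := hpp.factorization_pos_of_dvd D.den_ne_zero hd
    have h5 : (1 : ℝ) < (p : ℝ) ^ (D.den.factorization p) :=
      one_lt_pow₀ (by exact_mod_cast hpp.one_lt) h4.ne'
    push_cast at h3
    linarith
  have hprod : (D.den : ℝ) = ∏ p ∈ D.den.primeFactors, (p : ℝ) ^ (D.den.factorization p) := by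
    conv_lhs => rw [← Nat.factorization_prod_pow_eq_self D.den_ne_zero]
    rw [Finsupp.prod]
    push_cast
    rfl
  calc (D.den : ℝ) = ∏ p ∈ D.den.primeFactors, (p : ℝ) ^ (D.den.factorization p) := hprod
    _ ≤ ∏ p ∈ D.den.primeFactors, Real.exp (b p) := by
        apply Finset.prod_le_prod
        · intro p _
          positivity
        · intro p hp
          have hpp := Nat.prime_of_mem_primeFactors hp
          have hd := Nat.dvd_of_mem_primeFactors hp
          haveI : Fact p.Prime := ⟨hpp⟩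
          have h3 := h1 p ‹_› (hsub hp)
          rw [arith_norm_of_dvd_den D hd] at h3
          push_cast at h3
          exact h3
    _ = Real.exp (∑ p ∈ D.den.primeFactors, b p) := by rw [Real.exp_sum]
    _ ≤ Real.exp (∑ p ∈ S, b p) := by
        apply Real.exp_le_exp.mpr
        exact Finset.sum_le_sum_of_subset_of_nonneg hsub (fun p hp _ => hb p hp)

theorem arith_inv_den_le (D : ℚ) (hD : D ≠ 0) : ((D.den : ℝ))⁻¹ ≤ |(D : ℝ)| := by
  have h1 : (D : ℝ) = (D.num : ℝ) / (D.den : ℝ) := by
    exact_mod_cast (Rat.num_div_den D).symm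
  have h2 : (0 : ℝ) < D.den := by exact_mod_cast D.den_pos
  have h3 : (1 : ℝ) ≤ |(D.num : ℝ)| := by
    have : D.num ≠ 0 := Rat.num_ne_zero.mpr hD
    have h4 : (1 : ℤ) ≤ |D.num| := Int.one_le_abs this
    exact_mod_cast h4
  rw [h1, abs_div, abs_of_pos h2, le_div_iff₀ h2, inv_mul_cancel₀ h2.ne']
  exact h3

theorem arith_phiN_nonneg (N p : ℝ) (hN : 0 ≤ N) : 0 ≤ phiN N p := by
  unfold phiN hinge
  have a1 := le_max_left (49 * N - p) 0
  have a2 := le_max_right (49 * N - p) 0
  have b1 := le_max_left (44 * N - p) 0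
  have b2 := le_max_right (44 * N - p) 0
  have c1 := le_max_left (43 * N - p) 0
  have c2 := le_max_right (43 * N - p) 0
  have d1 := le_max_left (30 * N - p) 0
  have d2 := le_max_right (30 * N - p) 0
  have e1 := le_max_left (43 / 2 * N - p) 0
  have e2 := le_max_right (43 / 2 * N - p) 0
  rcases max_cases (51 / 2 * N - p) 0 with ⟨h1, h1'⟩ | ⟨h1, h1'⟩ <;>
  rcases max_cases (49 / 2 * N - p) 0 with ⟨h2, h2'⟩ | ⟨h2, h2'⟩ <;>
  rcases max_cases (37 / 2 * N - p) 0 with ⟨h3, h3'⟩ | ⟨h3, h3'⟩ <;>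
  rw [h1, h2, h3] <;> linarith

theorem arith_phiN_eq_zero (N p : ℝ) (hN : 0 ≤ N) (h : 49 * N ≤ p) : phiN N p = 0 := by
  unfold phiN hinge
  rw [max_eq_right (by linarith), max_eq_right (by linarith), max_eq_right (by linarith),
    max_eq_right (by linarith), max_eq_right (by linarith), max_eq_right (by linarith),
    max_eq_right (by linarith), max_eq_right (by linarith)]
  ring

/-- Partial sums of `θ` at half-integers. -/
noncomputable def arithU (Y : ℕ) : ℝ := ∑ j ∈ range Y, Chebyshev.theta ((j : ℝ) / 2)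

theorem arith_tendsto_U : Tendsto (fun Y : ℕ => arithU Y / (Y : ℝ) ^ 2) atTop (𝓝 (1 / 4)) := by
  have h0 : Tendsto (fun j : ℕ => (j : ℝ) / 2) atTop atTop :=
    tendsto_natCast_atTop_atTop.atTop_div_const (by norm_num)
  have h1 : Tendsto (fun j : ℕ => Chebyshev.theta ((j : ℝ) / 2) / ((j : ℝ) / 2)) atTop (𝓝 1) :=
    Crest.Agent.Lib.PNT.tendsto_theta_div.comp h0
  have h2 : (fun j : ℕ => Chebyshev.theta ((j : ℝ) / 2) - (j : ℝ) / 2) =o[atTop]
      (fun j : ℕ => (j : ℝ)) := by
    rw [Asymptotics.isLittleO_iff_tendsto']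
    · have h3 := (h1.sub_const 1).div_const 2
      simp only [sub_self, zero_div] at h3
      refine h3.congr' ?_
      filter_upwards [eventually_gt_atTop 0] with j hj
      have : (j : ℝ) ≠ 0 := by positivity
      field_simp
    · filter_upwards [eventually_gt_atTop 0] with j hj h
      have : (j : ℝ) ≠ 0 := by positivity
      exact absurd h this
  have hsum : ∀ Y : ℕ, ∑ j ∈ range Y, (j : ℝ) = (Y : ℝ) * ((Y : ℝ) - 1) / 2 := by
    intro Y
    induction Y with
    | zero => simp
    | succ n ih => rw [sum_range_succ, ih]; push_cast; ring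
  have h4 : Tendsto (fun Y : ℕ => ∑ j ∈ range Y, (j : ℝ)) atTop atTop := by
    simp_rw [hsum]
    apply Tendsto.atTop_div_const (by norm_num)
    apply Tendsto.atTop_mul_atTop₀ tendsto_natCast_atTop_atTop
    exact tendsto_atTop_add_const_right _ (-1) tendsto_natCast_atTop_atTop
  have h5 := h2.sum_range (fun j => Nat.cast_nonneg j) h4
  have h6 : (fun Y : ℕ => ∑ j ∈ range Y, (j : ℝ)) =O[atTop] (fun Y : ℕ => (Y : ℝ) ^ 2) := by
    apply Asymptotics.IsBigO.of_bound 1
    filter_upwards [eventually_ge_atTop 1] with Y hY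
    have hY' : (1 : ℝ) ≤ Y := by exact_mod_cast hY
    rw [hsum, Real.norm_of_nonneg (by apply div_nonneg (mul_nonneg (by linarith) (by linarith)); norm_num),
      Real.norm_of_nonneg (by positivity)]
    nlinarith
  have h7 := (h5.trans_isBigO h6).tendsto_div_nhds_zero
  have h8 : Tendsto (fun Y : ℕ => (1 / 4 : ℝ) - (1 / 4) * ((Y : ℝ))⁻¹) atTop (𝓝 (1 / 4 - 1 / 4 * 0)) :=
    tendsto_const_nhds.sub (tendsto_inv_atTop_nhds_zero_nat.const_mul _)
  have h9 := h7.add h8
  simp only [mul_zero, sub_zero, zero_add] at h9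
  refine h9.congr' ?_
  filter_upwards [eventually_gt_atTop 0] with Y hY
  have : (Y : ℝ) ≠ 0 := by positivity
  rw [sum_sub_distrib, ← sum_div, hsum, arithU]
  field_simp
  ring

theorem arith_hinge_sum (Y M : ℕ) (h : Y ≤ 2 * M) :
    ∑ p ∈ (range (M + 1)).filter Nat.Prime, hinge ((Y : ℝ) / 2) p * Real.log p = arithU Y / 2 := by
  induction Y with
  | zero =>
    simp only [arithU, hinge, range_zero, sum_empty, zero_div, Nat.cast_zero, zero_sub]
    apply sum_eq_zero
    intro p _
    rw [max_eq_right (by simp)]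
    simp
  | succ n ih =>
    have ih' := ih (by omega)
    have hth : Chebyshev.theta ((n : ℝ) / 2) =
        ∑ p ∈ (range (M + 1)).filter Nat.Prime, if 2 * p ≤ n then Real.log p else 0 := by
      rw [Chebyshev.theta, ← sum_filter]
      apply sum_congr _ (fun _ _ => rfl)
      ext p
      have hfl : ⌊(n : ℝ) / 2⌋₊ = n / 2 := by
        have := Nat.floor_div_natCast (K := ℝ) (n : ℝ) 2
        simpa using this
      simp only [mem_filter, mem_Ioc, mem_range, hfl]
      constructor
      · rintro ⟨⟨h1, h2⟩, h3⟩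
        exact ⟨⟨by omega, h3⟩, by omega⟩
      · rintro ⟨⟨h1, h2⟩, h3⟩
        exact ⟨⟨h2.pos, by omega⟩, h2⟩
    rw [arithU, sum_range_succ, ← arithU, add_div, ← ih', hth, sum_div, ← sum_add_distrib]
    apply sum_congr rfl
    intro p _
    unfold hinge
    split_ifs with hp
    · have hp' : 2 * (p : ℝ) ≤ n := by exact_mod_cast hp
      rw [max_eq_left (by push_cast; linarith), max_eq_left (by linarith)]
      push_cast
      ring
    · have hp' : (n : ℝ) + 1 ≤ 2 * (p : ℝ) := by
        have : n + 1 ≤ 2 * p := by omega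
        exact_mod_cast this
      rw [max_eq_right (by push_cast; linarith), max_eq_right (by linarith)]
      simp

theorem arith_tendsto_hinge (c : ℕ) (hc : 0 < c) :
    Tendsto (fun N : ℕ => arithU (c * N) / 2 / (N : ℝ) ^ 2) atTop (𝓝 ((c : ℝ) ^ 2 / 8)) := by
  have h0 : Tendsto (fun N : ℕ => c * N) atTop atTop :=
    tendsto_id.const_mul_atTop' hc
  have h1 := (arith_tendsto_U.comp h0).const_mul ((c : ℝ) ^ 2 / 2)
  have h2 : (c : ℝ) ^ 2 / 2 * (1 / 4) = (c : ℝ) ^ 2 / 8 := by ring
  rw [h2] at h1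
  refine h1.congr' ?_
  filter_upwards [eventually_gt_atTop 0] with N hN
  have : (N : ℝ) ≠ 0 := by positivity
  have : (c : ℝ) ≠ 0 := by positivity
  simp only [Function.comp]
  push_cast
  field_simp

theorem arith_phi_sum (N : ℕ) :
    ∑ p ∈ (range (49 * N + 1)).filter Nat.Prime, phiN N p * Real.log p =
      arithU (98 * N) / 2 + arithU (88 * N) / 2 + arithU (86 * N) / 2 + arithU (60 * N) / 2
        - 2 * (arithU (51 * N) / 2) - 2 * (arithU (49 * N) / 2) + 2 * (arithU (43 * N) / 2)
        - 2 * (arithU (37 * N) / 2) := by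
  rw [← arith_hinge_sum (98 * N) (49 * N) (by omega), ← arith_hinge_sum (88 * N) (49 * N) (by omega),
    ← arith_hinge_sum (86 * N) (49 * N) (by omega), ← arith_hinge_sum (60 * N) (49 * N) (by omega),
    ← arith_hinge_sum (51 * N) (49 * N) (by omega), ← arith_hinge_sum (49 * N) (49 * N) (by omega),
    ← arith_hinge_sum (43 * N) (49 * N) (by omega), ← arith_hinge_sum (37 * N) (49 * N) (by omega)]
  simp only [mul_sum, ← sum_add_distrib, ← sum_sub_distrib]
  apply sum_congr rfl
  intro p _
  unfold phiN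
  push_cast
  have e1 : (98 : ℝ) * N / 2 = 49 * N := by ring
  have e2 : (88 : ℝ) * N / 2 = 44 * N := by ring
  have e3 : (86 : ℝ) * N / 2 = 43 * N := by ring
  have e4 : (60 : ℝ) * N / 2 = 30 * N := by ring
  have e5 : (51 : ℝ) * N / 2 = 51 / 2 * N := by ring
  have e6 : (49 : ℝ) * N / 2 = 49 / 2 * N := by ring
  have e7 : (43 : ℝ) * N / 2 = 43 / 2 * N := by ring
  have e8 : (37 : ℝ) * N / 2 = 37 / 2 * N := by ring
  rw [e1, e2, e3, e4, e5, e6, e7, e8]
  ring

theorem arith_tendsto_phi :
    Tendsto (fun N : ℕ => (∑ p ∈ (range (49 * N + 1)).filter Nat.Prime, phiN N p * Real.log p) /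
      (N : ℝ) ^ 2) atTop (𝓝 (4825 / 2)) := by
  have h := (((((((arith_tendsto_hinge 98 (by norm_num)).add (arith_tendsto_hinge 88 (by norm_num))).add
    (arith_tendsto_hinge 86 (by norm_num))).add (arith_tendsto_hinge 60 (by norm_num))).sub
    ((arith_tendsto_hinge 51 (by norm_num)).const_mul 2)).sub
    ((arith_tendsto_hinge 49 (by norm_num)).const_mul 2)).add
    ((arith_tendsto_hinge 43 (by norm_num)).const_mul 2)).sub
    ((arith_tendsto_hinge 37 (by norm_num)).const_mul 2)
  have e : (((98 : ℕ) : ℝ) ^ 2 / 8 + ((88 : ℕ) : ℝ) ^ 2 / 8 + ((86 : ℕ) : ℝ) ^ 2 / 8 +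
      ((60 : ℕ) : ℝ) ^ 2 / 8 - 2 * (((51 : ℕ) : ℝ) ^ 2 / 8) - 2 * (((49 : ℕ) : ℝ) ^ 2 / 8) +
      2 * (((43 : ℕ) : ℝ) ^ 2 / 8) - 2 * (((37 : ℕ) : ℝ) ^ 2 / 8)) = 4825 / 2 := by
    norm_num
  rw [e] at h
  refine h.congr (fun N => ?_)
  rw [arith_phi_sum]
  ring

theorem arith_tendsto_log_sqrt :
    Tendsto (fun N : ℕ => Real.log N / Real.sqrt N) atTop (𝓝 0) := by
  have h := (isLittleO_log_rpow_atTop (r := 1 / 2) (by norm_num)).tendsto_div_nhds_zero
  have h2 := h.comp tendsto_natCast_atTop_atTop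
  refine h2.congr (fun N => ?_)
  simp [Function.comp, Real.sqrt_eq_rpow]

theorem arith_tendsto_inv_sqrt :
    Tendsto (fun N : ℕ => (Real.sqrt N)⁻¹) atTop (𝓝 0) :=
  tendsto_inv_atTop_zero.comp (Real.tendsto_sqrt_atTop.comp tendsto_natCast_atTop_atTop)

/-- The error terms are `o(N²)`. -/
theorem arith_tendsto_err (a b c : ℝ) :
    Tendsto (fun N : ℕ => ((10 * Real.sqrt N + a) * (36 * N * (b + c * Real.log N))) / (N : ℝ) ^ 2)
      atTop (𝓝 0) := by
  have h1 := ((arith_tendsto_inv_sqrt.const_mul a).const_add 10).mul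
    (((arith_tendsto_inv_sqrt.const_mul b).add (arith_tendsto_log_sqrt.const_mul c)).const_mul 36)
  simp only [mul_zero, add_zero] at h1
  refine h1.congr' ?_
  filter_upwards [eventually_gt_atTop 0] with N hN
  have h2 : (0 : ℝ) < N := by positivity
  have h3 : 0 < Real.sqrt N := Real.sqrt_pos.mpr h2
  have h4 : (N : ℝ) = Real.sqrt N ^ 2 := (Real.sq_sqrt h2.le).symm
  set s := Real.sqrt N with hs
  set l := Real.log N
  rw [h4]
  field_simp

theorem arith_card_bad (N d : ℕ) (hd : 0 < d) (S : Finset ℕ) :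
    ((S.filter (fun p => p ^ 2 < 100 * N ∨ p ∣ d)).card : ℝ) ≤ 10 * Real.sqrt N + (d + 2) := by
  have hsub : S.filter (fun p => p ^ 2 < 100 * N ∨ p ∣ d) ⊆
      range (Nat.sqrt (100 * N) + 1) ∪ range (d + 1) := by
    intro p hp
    rcases (mem_filter.mp hp).2 with h | h
    · apply mem_union_left
      rw [mem_range, Nat.lt_succ_iff, Nat.le_sqrt']
      omega
    · apply mem_union_right
      rw [mem_range, Nat.lt_succ_iff]
      exact Nat.le_of_dvd hd h
  have h1 := (card_le_card hsub).trans (card_union_le _ _)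
  rw [card_range, card_range] at h1
  have h2 : ((Nat.sqrt (100 * N) : ℕ) : ℝ) ≤ 10 * Real.sqrt N := by
    have h3 : ((Nat.sqrt (100 * N) : ℕ) : ℝ) ≤ Real.sqrt ((100 * N : ℕ) : ℝ) :=
      Real.nat_sqrt_le_real_sqrt
    have h4 : Real.sqrt ((100 * N : ℕ) : ℝ) = 10 * Real.sqrt N := by
      push_cast
      rw [Real.sqrt_mul (by norm_num), show (100 : ℝ) = 10 ^ 2 by norm_num,
        Real.sqrt_sq (by norm_num)]
    linarith
  have h5 : ((S.filter (fun p => p ^ 2 < 100 * N ∨ p ∣ d)).card : ℝ) ≤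
      ((Nat.sqrt (100 * N) + 1 + (d + 1) : ℕ) : ℝ) := by exact_mod_cast h1
  push_cast at h5
  linarith

theorem arith_bound (G : ℚ) : ∀ᶠ N : ℕ in atTop, (Emat G N).det ≠ 0 →
    Real.exp (-(5009 / 2) * (N : ℝ) ^ 2) ≤ |(((Emat G N).det : ℚ) : ℝ)| := by
  obtain ⟨K, m, hK, h2⟩ := det_norm_two G
  have hd1 : (1 : ℝ) ≤ G.den := by exact_mod_cast G.den_pos
  have hlim := (arith_tendsto_phi.add
    (arith_tendsto_err ((G.den : ℝ) + 2) (Real.log G.den + 2 * Real.log 49) 2)).add
    (arith_tendsto_err 1 (Real.log K) m)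
  have hlt : (4825 / 2 + 0 + 0 : ℝ) < 4825 / 2 + 2 / 5 := by norm_num
  filter_upwards [hlim.eventually (gt_mem_nhds hlt), eventually_ge_atTop 1,
    eventually_ge_atTop G.den] with N hN hN1 hNd hD
  have hN1' : (1 : ℝ) ≤ N := by exact_mod_cast hN1
  have hlogN : 0 ≤ Real.log N := Real.log_nonneg hN1'
  have hlogK : 0 ≤ Real.log K := Real.log_nonneg hK
  have hlogd : 0 ≤ Real.log G.den := Real.log_nonneg hd1
  have hlog49 : 0 ≤ Real.log 49 := Real.log_nonneg (by norm_num)
  have hlog2 : 0 ≤ Real.log 2 := Real.log_nonneg (by norm_num)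
  set D := (Emat G N).det with hDdef
  set S := (range (49 * N + 1)).filter Nat.Prime with hS
  set b2 : ℝ := 36 * N * (Real.log K + m * Real.log N) + 1057 / 8 * (N : ℝ) ^ 2 * Real.log 2
    with hb2
  set bs : ℝ := 36 * N * (Real.log G.den + 2 * Real.log 49 + 2 * Real.log N) with hbs
  have hb2n : 0 ≤ b2 := by positivity
  have hbsn : 0 ≤ bs := by positivity
  have hphi : ∀ p : ℕ, 0 ≤ phiN N p * Real.log p := fun p =>
    mul_nonneg (arith_phiN_nonneg _ _ (by positivity)) (Real.log_natCast_nonneg p)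
  have key := arith_log_den_le D S
    (fun p => (if p = 2 then b2 else 0) + (if p ^ 2 < 100 * N ∨ p ∣ G.den then bs else 0) +
      phiN N p * Real.log p)
    (by
      intro p _
      have := hphi p
      split_ifs <;> linarith)
    (by
      intro p hp _
      have hph := hphi p
      have hp0 : (0 : ℝ) < p := by exact_mod_cast hp.out.pos
      by_cases hp2 : p = 2
      · subst hp2
        refine (h2 N hN1).trans ?_
        have e : (K * (N : ℝ) ^ m) ^ (36 * N) * (2 : ℝ) ^ (1057 / 8 * (N : ℝ) ^ 2) = Real.exp b2 := by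
          rw [hb2, Real.exp_add, Real.rpow_def_of_pos (by norm_num), mul_comm (Real.log 2)]
          congr 1
          have : (36 : ℝ) * N = ((36 * N : ℕ) : ℝ) := by push_cast; ring
          rw [this, Real.exp_nat_mul, Real.exp_add, Real.exp_log (by linarith), Real.exp_nat_mul,
            Real.exp_log (by linarith)]
        rw [e]
        apply Real.exp_le_exp.mpr
        simp only [if_true]
        split_ifs <;> linarith
      · simp only [hp2, if_false, zero_add]
        split_ifs with hbad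
        · have h3 := det_norm_small hp2 G N
          have h4 : max 1 (padicNorm p G) ≤ G.den :=
            max_le (by exact_mod_cast G.den_pos) (arith_norm_le_den G)
          have h5 : p ^ (Nat.log p (49 * N)) ≤ 49 * N := Nat.pow_log_le_self p (by omega)
          have h6 : (p : ℚ) ^ (2 * Nat.log p (49 * N)) ≤ (49 * N) ^ 2 := by
            rw [mul_comm, pow_mul]
            apply pow_le_pow_left₀ (by positivity)
            exact_mod_cast h5
          have h7 : padicNorm p D ≤ ((G.den : ℚ) * (49 * N) ^ 2) ^ (36 * N) := by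
            refine h3.trans ?_
            apply pow_le_pow_left₀ (by positivity)
            exact mul_le_mul h4 h6 (by positivity) (by positivity)
          have h8 : ((padicNorm p D : ℚ) : ℝ) ≤ ((G.den : ℝ) * (49 * N) ^ 2) ^ (36 * N) := by
            exact_mod_cast h7
          refine h8.trans ?_
          have e : ((G.den : ℝ) * (49 * N) ^ 2) ^ (36 * N) = Real.exp bs := by
            have : (36 : ℝ) * N = ((36 * N : ℕ) : ℝ) := by push_cast; ring
            rw [hbs, this, Real.exp_nat_mul, Real.exp_add, Real.exp_add, Real.exp_log (by linarith)]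
            have e2 : ∀ x : ℝ, Real.exp (2 * x) = Real.exp x ^ 2 := fun x => by
              rw [← Real.exp_nat_mul]; norm_num
            rw [e2, e2, Real.exp_log (by norm_num), Real.exp_log (by linarith)]
            congr 1
            ring
          rw [e]
          apply Real.exp_le_exp.mpr
          linarith
        · push Not at hbad
          refine (det_norm_big hp2 G (arith_norm_le_one_of_not_dvd G hbad.2) N hbad.1).trans ?_
          rw [Real.rpow_def_of_pos hp0, zero_add, mul_comm])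
    (by
      intro p hp hpS
      have hbig : 49 * N < p := by
        by_contra h
        apply hpS
        rw [hS, mem_filter, mem_range]
        exact ⟨by omega, hp.out⟩
      have hp2 : p ≠ 2 := by omega
      have hnd : ¬ p ∣ G.den := fun h => by
        have := Nat.le_of_dvd G.den_pos h
        omega
      have hsq : 100 * N ≤ p ^ 2 := by nlinarith
      refine (det_norm_big hp2 G (arith_norm_le_one_of_not_dvd G hnd) N hsq).trans ?_
      rw [arith_phiN_eq_zero _ _ (by positivity) (by exact_mod_cast hbig.le), Real.rpow_zero])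
  refine le_trans ?_ (arith_inv_den_le D hD)
  have hden : (0 : ℝ) < D.den := by exact_mod_cast D.den_pos
  rw [neg_mul, Real.exp_neg]
  apply inv_anti₀ hden
  refine key.trans (Real.exp_le_exp.mpr ?_)
  rw [sum_add_distrib, sum_add_distrib]
  have s1 : ∑ p ∈ S, (if p = 2 then b2 else 0) ≤ b2 := by
    rw [sum_ite_eq']
    split_ifs <;> linarith
  have s2 : ∑ p ∈ S, (if p ^ 2 < 100 * N ∨ p ∣ G.den then bs else 0) ≤
      (10 * Real.sqrt N + ((G.den : ℝ) + 2)) * bs := by
    rw [← sum_filter, sum_const, nsmul_eq_mul]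
    exact mul_le_mul_of_nonneg_right (arith_card_bad N G.den G.den_pos S) hbsn
  have hN2 : (0 : ℝ) < (N : ℝ) ^ 2 := by positivity
  rw [← add_div, ← add_div, div_lt_iff₀ hN2] at hN
  have s3 : 36 * N * (Real.log K + m * Real.log N) ≤
      (10 * Real.sqrt N + 1) * (36 * N * (Real.log K + m * Real.log N)) := by
    apply le_mul_of_one_le_left (by positivity)
    have := Real.sqrt_nonneg (N : ℝ)
    linarith
  have s4 : 1057 / 8 * (N : ℝ) ^ 2 * Real.log 2 ≤ 1057 / 8 * (N : ℝ) ^ 2 * 0.6931471808 :=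
    mul_le_mul_of_nonneg_left Real.log_two_lt_d9.le (by positivity)
  nlinarith

end Crest.Agent.R006
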