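import Crest.Agent.R006.CertData

set_option autoImplicit false

namespace Crest.Agent.R006

theorem cert1_x_chk : CertCheck.chkL (CertCheck.termsX (14 / 36) (49 / 36) lX1 lS1) (-9817 / 10000)
    16777216 (-16777216)
    [-16400384, -15908864, -15253504, -14368768, -13254656, -11812864, -10108928, -8339456, -6832128,
     -5586944, -4571136, -3784704, -3162112, -2670592, -2293760, -2015232, -1761280, -1433600,
     -1007616, -392704, -48960, 0, 57344, 450560, 1007616, 1433600, 1728512, 1974272, 2252800,
     2629632, 3121152, 3743744, 4530176, 5545984, 6791168, 8298496, 9936896, 11444224, 12623872,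
     13574144, 14327808, 14884864, 15327232, 15671296, 15933440, 16130048, 16285696, 16404480,
     16490496, 16553984, 16601088, 16640000, 16680960, 16744448, 16777216] = true := by
  decide +kernel

end Crest.Agent.R006
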