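import Crest.Agent.R006.CertData

set_option autoImplicit false

namespace Crest.Agent.R006

theorem cert1_s_chk : CertCheck.chkL (CertCheck.termsS lS1) (-15987 / 10000) 16777216 0
    [81920, 155648, 215040, 284672, 358400, 440320, 538624, 665600, 813056, 993280, 1206272, 1468416,
     1763328, 2107392, 2516992, 2992128, 3549184, 4171776, 4925440, 5810176, 6825984, 7940096,
     9250816, 10692608, 12134400, 13379584, 14329856, 15017984, 15509504, 15869952, 16123904,
     16312320, 16443392, 16541696, 16607232, 16656384, 16691200, 16715776, 16733184, 16745472,
     16754688, 16761344, 16766208, 16769792, 16772480, 16774336, 16775552, 16776384, 16776896,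
     16777200, 16777216] = true := by
  decide +kernel

theorem cert2_s_chk : CertCheck.chkL (CertCheck.termsS lS2) (-162 / 100) 16777216 0
    [253952, 974848, 2351104, 4317184, 6676480, 9166848, 12050432, 15458304, 16743424,
     16777216] = true := by
  decide +kernel

end Crest.Agent.R006
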