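import Crest.Agent.R006.CertData

set_option autoImplicit false

namespace Crest.Agent.R006

theorem cert1_q_chk : (CertCheck.ubQ lX1 + CertCheck.ubQ lS1) / 2 ≤ 7818 / 10000 := by
  decide +kernel

theorem cert2_x_chk : CertCheck.chkL (CertCheck.termsX (8 / 36) (49 / 36 - 1 / 2 + 21 / 5) lX2 lS2)
    (-197 / 100) 16777216 (-16777216)
    [-9437184, -5898240, -3801088, -2359296, -1343488, -688128, -196608, -24576, 0, 27648, 216064,
     707584, 1362944, 2280448, 3656704, 5884928, 9554944, 15073984, 16777216] = true := by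
  decide +kernel

theorem cert2_q_chk : (CertCheck.ubQ lX2 + CertCheck.ubQ lS2) / 2 ≤ 125 / 100 := by
  decide +kernel

end Crest.Agent.R006
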