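import Crest.Agent.R006.Defs
import Crest.Agent.R006.CertA
import Crest.Agent.R006.CertB
import Crest.Agent.R006.CertC

set_option autoImplicit false

namespace Crest.Agent.R006

open Polynomial Finset Filter Topology

theorem cert_norm : (∀ c ∈ lX1, ‖zc c‖ < 1) ∧ (∀ c ∈ lS1, ‖zc c‖ < 1) ∧
    (∀ c ∈ lX2, ‖zc c‖ < 1) ∧ (∀ c ∈ lS2, ‖zc c‖ < 1) :=
  ⟨CertCheck.norm_lt_of_ok _ (by decide +kernel), CertCheck.norm_lt_of_ok _ (by decide +kernel),
    CertCheck.norm_lt_of_ok _ (by decide +kernel), CertCheck.norm_lt_of_ok _ (by decide +kernel)⟩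

/-- True supremum about `-0.982146`. -/
theorem cert1_x (x : ℝ) (hx : x ∈ Set.Ioo (-1 : ℝ) 1) (hx0 : x ≠ 0) :
    14 / 36 * Real.log |x| + (4 / 36 - 1 / 100000) * Real.log (1 - x) - 49 / 36 * Real.log (1 + x ^ 2)
      + (potC lX1 x - potL lS1 x) ≤ -9817 / 10000 := by
  have h := CertCheck.chkL_sound _ _ _ x (CertCheck.termsX_pos _ _ _ _ x hx.2 hx0) _ _ cert1_x_chk
    (by norm_num; exact hx.1) (by norm_num; exact hx.2.le)
  rw [CertCheck.termsX_eval] at h
  push_cast at h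
  exact h

/-- True supremum about `-1.599165`. -/
theorem cert1_s (s : ℝ) (hs : s ∈ Set.Ioo (0 : ℝ) 1) :
    6 / 36 * Real.log s + (2 / 36 - 1 / 100000) * Real.log (1 - s) + potC lS1 s ≤ -15987 / 10000 := by
  have h := CertCheck.chkL_sound _ _ _ s (CertCheck.termsS_pos _ s hs.2 hs.1) _ _ cert1_s_chk
    (by norm_num; exact hs.1) (by norm_num; exact hs.2.le)
  rw [CertCheck.termsS_eval] at h
  push_cast at h
  exact h

/-- True value about `0.781693`. -/
theorem cert1_q : -(quadQ lX1 + quadQ lS1) / 2 ≤ 7818 / 10000 := by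
  have h1 := CertCheck.neg_quadQ_le lX1 (by decide +kernel)
  have h2 := CertCheck.neg_quadQ_le lS1 (by decide +kernel)
  have h3 : (((CertCheck.ubQ lX1 + CertCheck.ubQ lS1) / 2 : ℚ) : ℝ) ≤ ((7818 / 10000 : ℚ) : ℝ) :=
    Rat.cast_le.2 cert1_q_chk
  push_cast at h3
  linarith

/-- True supremum about `-1.98462`. -/
theorem cert2_x (x : ℝ) (hx : x ∈ Set.Ioo (-1 : ℝ) 1) (hx0 : x ≠ 0) :
    8 / 36 * Real.log |x| + (4 / 36 - 1 / 100000) * Real.log (1 - x)
      - (49 / 36 - 1 / 2 + 21 / 5) * Real.log (1 + x ^ 2)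
      + (potC lX2 x - potL lS2 x) ≤ -197 / 100 := by
  have h := CertCheck.chkL_sound _ _ _ x (CertCheck.termsX_pos _ _ _ _ x hx.2 hx0) _ _ cert2_x_chk
    (by norm_num; exact hx.1) (by norm_num; exact hx.2.le)
  rw [CertCheck.termsX_eval] at h
  push_cast at h
  exact h

/-- True supremum about `-1.635545`. -/
theorem cert2_s (s : ℝ) (hs : s ∈ Set.Ioo (0 : ℝ) 1) :
    6 / 36 * Real.log s + (2 / 36 - 1 / 100000) * Real.log (1 - s) + potC lS2 s ≤ -162 / 100 := by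
  have h := CertCheck.chkL_sound _ _ _ s (CertCheck.termsS_pos _ s hs.2 hs.1) _ _ cert2_s_chk
    (by norm_num; exact hs.1) (by norm_num; exact hs.2.le)
  rw [CertCheck.termsS_eval] at h
  push_cast at h
  exact h

/-- True value about `1.239325`. -/
theorem cert2_q : -(quadQ lX2 + quadQ lS2) / 2 ≤ 125 / 100 := by
  have h1 := CertCheck.neg_quadQ_le lX2 (by decide +kernel)
  have h2 := CertCheck.neg_quadQ_le lS2 (by decide +kernel)
  have h3 : (((CertCheck.ubQ lX2 + CertCheck.ubQ lS2) / 2 : ℚ) : ℝ) ≤ ((125 / 100 : ℚ) : ℝ) :=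
    Rat.cast_le.2 cert2_q_chk
  push_cast at h3
  linarith

end Crest.Agent.R006
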