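import Mathlib

/-!
A reflective checker for upper bounds of `∑ cⱼ log (aⱼ + bⱼ x + dⱼ x²)` on an interval.
-/

set_option autoImplicit false

namespace Crest.Agent.R006.CertCheck

open Finset

/-- Rounding up to a multiple of `2⁻⁶⁰`. -/
def up (q : ℚ) : ℚ := (⌈q * 1152921504606846976⌉ : ℚ) / 1152921504606846976

theorem le_up (q : ℚ) : q ≤ up q := by
  unfold up
  rw [le_div_iff₀ (by norm_num)]
  exact Int.le_ceil _

/-- Partial sums of `2 artanh t`. -/
def ser (t : ℚ) : ℕ → ℚ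
  | 0 => 0
  | n + 1 => ser t n + 2 * t ^ (2 * n + 1) / (2 * n + 1)

theorem ser_eq (t : ℚ) (n : ℕ) : (ser t n : ℝ) =
    (∑ i ∈ range (2 * n), (t : ℝ) ^ (i + 1) / (i + 1))
      - ∑ i ∈ range (2 * n), (-(t : ℝ)) ^ (i + 1) / (i + 1) := by
  induction n with
  | zero => simp [ser]
  | succ n ih =>
    have h2 : 2 * (n + 1) = 2 * n + 1 + 1 := by ring
    rw [h2, sum_range_succ, sum_range_succ, sum_range_succ, sum_range_succ, ser]
    push_cast
    rw [ih]
    have e1 : (-(t : ℝ)) ^ (2 * n + 1) = -(t : ℝ) ^ (2 * n + 1) := Odd.neg_pow ⟨n, rfl⟩ _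
    have e2 : (-(t : ℝ)) ^ (2 * n + 1 + 1) = (t : ℝ) ^ (2 * n + 1 + 1) :=
      Even.neg_pow ⟨n + 1, by ring⟩ _
    rw [e1, e2]
    ring

theorem abs_log_sub_ser (t : ℚ) (ht : |(t : ℝ)| < 1) (n : ℕ) :
    |Real.log (1 + t) - Real.log (1 - t) - ser t n| ≤ 2 * |(t : ℝ)| ^ (2 * n + 1) / (1 - |(t : ℝ)|) := by
  have h1 := Real.abs_log_sub_add_sum_range_le ht (2 * n)
  have h2 := Real.abs_log_sub_add_sum_range_le (x := -(t : ℝ)) (by rwa [abs_neg]) (2 * n)
  rw [abs_neg, sub_neg_eq_add] at h2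
  rw [ser_eq]
  rw [abs_le] at h1 h2 ⊢
  have e : 2 * |(t : ℝ)| ^ (2 * n + 1) / (1 - |(t : ℝ)|)
      = |(t : ℝ)| ^ (2 * n + 1) / (1 - |(t : ℝ)|) + |(t : ℝ)| ^ (2 * n + 1) / (1 - |(t : ℝ)|) := by ring
  rw [e]
  constructor <;> linarith [h1.1, h1.2, h2.1, h2.2]

/-- Binary exponent of a positive rational (a hint only). -/
def ex (y : ℚ) : ℤ := (Nat.log2 y.num.natAbs : ℤ) - (Nat.log2 y.den : ℤ)

/-- The reduced argument. -/
def red (y : ℚ) : ℚ := (y / 2 ^ ex y - 1) / (y / 2 ^ ex y + 1)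

/-- Upper bound of `c * log y` given the reduced argument `t` and the exponent `k`. -/
def ubAux (c t : ℚ) (k : ℤ) : ℚ :=
  up (c * (k * (287209 / 414355) + ser t 10) + |c| * (|(k : ℚ)| / 10 ^ 10 + 2 * |t| ^ 21 / (1 - |t|)))

/-- Upper bound of `c * log y`. -/
def ub (c y : ℚ) : ℚ := ubAux c (red y) (ex y)

theorem le_ub (c y : ℚ) (hy : 0 < y) : (c : ℝ) * Real.log y ≤ ub c y := by
  set k := ex y with hk
  set w : ℝ := (y : ℝ) / 2 ^ k with hw
  have hy' : (0 : ℝ) < y := by exact_mod_cast hy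
  have h2k : (0 : ℝ) < 2 ^ k := zpow_pos (by norm_num) _
  have hw0 : 0 < w := div_pos hy' h2k
  have ht : ((red y : ℚ) : ℝ) = (w - 1) / (w + 1) := by
    unfold red; rw [← hk]; push_cast; rfl
  set t : ℚ := red y with htdef
  have hw1 : 0 < w + 1 := by linarith
  have htabs : |(t : ℝ)| < 1 := by
    rw [ht, abs_lt]; constructor
    · rw [lt_div_iff₀ hw1]; linarith
    · rw [div_lt_iff₀ hw1]; linarith
  have hlog : Real.log y = k * Real.log 2 + (Real.log (1 + t) - Real.log (1 - t)) := by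
    have h1 : (1 : ℝ) + t = 2 * w / (w + 1) := by rw [ht]; field_simp; ring
    have h2 : (1 : ℝ) - t = 2 / (w + 1) := by rw [ht]; field_simp; ring
    rw [h1, h2, ← Real.log_div (by positivity) (by positivity)]
    have h3 : 2 * w / (w + 1) / (2 / (w + 1)) = w := by field_simp
    rw [h3, hw, Real.log_div hy'.ne' h2k.ne', Real.log_zpow]
    ring
  have hs := abs_log_sub_ser t htabs 10
  have hl := Real.log_two_near_10
  have hup : ((ub c y : ℚ) : ℝ) ≥ ((c * (k * (287209 / 414355) + ser t 10)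
      + |c| * (|(k : ℚ)| / 10 ^ 10 + 2 * |t| ^ 21 / (1 - |t|)) : ℚ) : ℝ) := by
    unfold ub ubAux
    rw [← hk, ← htdef]
    exact_mod_cast le_up _
  refine le_trans ?_ hup
  push_cast
  have key : |Real.log y - (k * (287209 / 414355) + (ser t 10 : ℝ))|
      ≤ |(k : ℝ)| / 10 ^ 10 + 2 * |(t : ℝ)| ^ 21 / (1 - |(t : ℝ)|) := by
    have e : Real.log y - (k * (287209 / 414355) + (ser t 10 : ℝ))
        = k * (Real.log 2 - 287209 / 414355) + (Real.log (1 + t) - Real.log (1 - t) - ser t 10) := by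
      rw [hlog]; ring
    rw [e]
    refine (abs_add_le _ _).trans (add_le_add ?_ hs)
    rw [abs_mul, div_eq_mul_one_div |(k : ℝ)|]
    exact mul_le_mul_of_nonneg_left hl (abs_nonneg _)
  have := le_abs_self ((c : ℝ) * (Real.log y - (k * (287209 / 414355) + (ser t 10 : ℝ))))
  rw [abs_mul] at this
  have h3 := mul_le_mul_of_nonneg_left key (abs_nonneg (c : ℝ))
  linarith

theorem log_le_cubic (u : ℝ) (hu : -1 < u) : Real.log (1 + u) ≤ u - u ^ 2 / 2 + u ^ 3 / 3 := by
  let g : ℝ → ℝ := fun u => u - u ^ 2 / 2 + u ^ 3 / 3 - Real.log (1 + u)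
  have hd : ∀ v : ℝ, -1 < v → HasDerivAt g (v ^ 3 / (1 + v)) v := by
    intro v hv
    have h1 : (1 : ℝ) + v ≠ 0 := by linarith
    have hl : HasDerivAt (fun u : ℝ => Real.log (1 + u)) (1 / (1 + v)) v := by
      have := ((hasDerivAt_id v).const_add 1).log h1
      simpa using this
    have hp : HasDerivAt (fun u : ℝ => u - u ^ 2 / 2 + u ^ 3 / 3) (1 - v + v ^ 2) v := by
      have := (((hasDerivAt_id v).sub ((hasDerivAt_pow 2 v).div_const 2)).add
        ((hasDerivAt_pow 3 v).div_const 3))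
      exact this.congr_deriv (by simp)
    refine (hp.sub hl).congr_deriv ?_
    field_simp
    ring
  have hg0 : g 0 = 0 := by simp [g]
  suffices h : 0 ≤ g u by simp only [g] at h; linarith
  rcases le_total 0 u with h0 | h0
  · have hm : MonotoneOn g (Set.Ici 0) := by
      refine monotoneOn_of_deriv_nonneg (convex_Ici 0) ?_ ?_ ?_
      · intro v hv
        exact (hd v (by have : (0 : ℝ) ≤ v := hv; linarith)).continuousAt.continuousWithinAt
      · intro v hv
        rw [interior_Ici] at hv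
        exact (hd v (by have : (0 : ℝ) < v := hv; linarith)).differentiableAt.differentiableWithinAt
      · intro v hv
        rw [interior_Ici] at hv
        have hv' : (0 : ℝ) < v := hv
        rw [(hd v (by linarith)).deriv]
        positivity
    rw [← hg0]
    exact hm (Set.mem_Ici.2 le_rfl) h0 h0
  · have hm : AntitoneOn g (Set.Ioc (-1) 0) := by
      refine antitoneOn_of_deriv_nonpos (convex_Ioc _ _) ?_ ?_ ?_
      · intro v hv
        exact (hd v hv.1).continuousAt.continuousWithinAt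
      · intro v hv
        rw [interior_Ioc] at hv
        exact (hd v hv.1).differentiableAt.differentiableWithinAt
      · intro v hv
        rw [interior_Ioc] at hv
        rw [(hd v hv.1).deriv]
        have h1 : 0 < 1 + v := by linarith [hv.1]
        have h2 : v ^ 3 ≤ 0 := Odd.pow_nonpos ⟨1, rfl⟩ hv.2.le
        exact div_nonpos_of_nonpos_of_nonneg h2 h1.le
    rw [← hg0]
    exact hm ⟨hu, h0⟩ ⟨by norm_num, le_rfl⟩ h0

theorem cubic_le_log (u U : ℝ) (hu : |u| ≤ U) (hU : U < 1) :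
    u - u ^ 2 / 2 + u ^ 3 / 3 - (U ^ 4 / 4 + U ^ 5 / (1 - U)) ≤ Real.log (1 + u) := by
  have h := Real.abs_log_sub_add_sum_range_le (x := -u) (by rw [abs_neg]; linarith) 4
  rw [abs_neg, sub_neg_eq_add] at h
  simp only [sum_range_succ, range_zero, sum_empty] at h
  have h0 := abs_nonneg u
  have h1 : |u| ^ 5 / (1 - |u|) ≤ U ^ 5 / (1 - U) := by
    apply div_le_div₀ (pow_nonneg (h0.trans hu) _) (pow_le_pow_left₀ h0 hu _) <;> linarith
  have h2 : u ^ 4 ≤ U ^ 4 := by
    have : u ^ 4 = |u| ^ 4 := by rw [← abs_pow, abs_of_nonneg (by positivity)]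
    rw [this]; exact pow_le_pow_left₀ h0 hu _
  have h3 := (abs_le.1 h).1
  norm_num at h3
  nlinarith [h1, h2, h3]

/-- The term `c * log (a + b x + d x²)`; `s` marks a factor that may vanish at an end point. -/
structure Term where
  c : ℚ
  a : ℚ
  b : ℚ
  d : ℚ
  s : Bool

/-- The quadratic. -/
def Term.P (t : Term) (x : ℝ) : ℝ := t.a + t.b * x + t.d * x ^ 2

/-- Value of a list of terms. -/
noncomputable def evalL (l : List Term) (x : ℝ) : ℝ := (l.map fun t => (t.c : ℝ) * Real.log (t.P x)).sum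

/-- Cubic upper bound: coefficients. -/
structure Cub where
  c0 : ℚ
  c1 : ℚ
  c2 : ℚ
  c3 : ℚ

/-- Evaluation of a cubic. -/
def Cub.ev (q : Cub) (h : ℝ) : ℝ := q.c0 + q.c1 * h + q.c2 * h ^ 2 + q.c3 * h ^ 3

/-- Remainder bound. -/
def rem (c al be r U : ℚ) : ℚ :=
  |c| * (|al ^ 2 * be - be ^ 2 / 2| * r ^ 4 + |al| * be ^ 2 * r ^ 5 + |be| ^ 3 * r ^ 6 / 3
    + (if c < 0 then U ^ 4 / 4 + U ^ 5 / (1 - U) else 0))

/-- One accumulation step, given `p0`, `al`, `be`. -/
def stepAux (c : ℚ) (s : Bool) (r p0 al be : ℚ) (q : Cub) : Option Cub :=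
  if 0 < p0 ∧ (|al| * r + |be| * r ^ 2 < 1 ∨ (s = true ∧ 0 ≤ c)) then
    some ⟨q.c0 + ub c p0 + up (rem c al be r (|al| * r + |be| * r ^ 2)), q.c1 + c * al,
      q.c2 + c * (be - al ^ 2 / 2), q.c3 + c * (al ^ 3 / 3 - al * be)⟩
  else none

/-- One accumulation step. -/
def step (t : Term) (m r : ℚ) (q : Cub) : Option Cub :=
  stepAux t.c t.s r (t.a + t.b * m + t.d * m ^ 2)
    ((t.b + 2 * t.d * m) / (t.a + t.b * m + t.d * m ^ 2)) (t.d / (t.a + t.b * m + t.d * m ^ 2)) q

theorem step_sound (t : Term) (m r : ℚ) (q q' : Cub) (hq : step t m r q = some q') (h : ℝ)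
    (hh : |h| ≤ r) (hs : t.s = true → 0 < t.P (m + h)) :
    q.ev h + (t.c : ℝ) * Real.log (t.P (m + h)) ≤ q'.ev h := by
  unfold step stepAux at hq
  set p0 : ℚ := t.a + t.b * m + t.d * m ^ 2 with hp0
  set al : ℚ := (t.b + 2 * t.d * m) / p0 with hal
  set be : ℚ := t.d / p0 with hbe
  set U : ℚ := |al| * r + |be| * r ^ 2 with hU
  split_ifs at hq with hc
  obtain ⟨hp, hc⟩ := hc
  have hq' := (Option.some.inj hq).symm
  subst hq'
  have hp' : (0 : ℝ) < p0 := by exact_mod_cast hp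
  set u : ℝ := al * h + be * h ^ 2 with hu
  have hP : t.P (m + h) = p0 * (1 + u) := by
    rw [hu, hal, hbe]
    push_cast
    field_simp
    rw [hp0]
    unfold Term.P
    push_cast
    ring
  have h0 := abs_nonneg h
  have hr0 : (0 : ℝ) ≤ r := h0.trans hh
  have huU : |u| ≤ U := by
    rw [hu, hU]; push_cast
    refine (abs_add_le _ _).trans (add_le_add ?_ ?_)
    · rw [abs_mul]; exact mul_le_mul_of_nonneg_left hh (abs_nonneg _)
    · rw [abs_mul, abs_pow]
      exact mul_le_mul_of_nonneg_left (pow_le_pow_left₀ h0 hh _) (abs_nonneg _)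
  have hu1 : -1 < u := by
    rcases hc with hc | hc
    · have : (U : ℝ) < 1 := by exact_mod_cast hc
      linarith [(abs_le.1 huU).1]
    · have := hs hc.1
      rw [hP] at this
      have := (pos_iff_pos_of_mul_pos this).1 hp'
      linarith
  have hlog : Real.log (t.P (m + h)) = Real.log p0 + Real.log (1 + u) := by
    rw [hP, Real.log_mul hp'.ne' (by linarith)]
  have hub := le_ub t.c p0 hp
  have hup : ((rem t.c al be r U : ℚ) : ℝ) ≤ (up (rem t.c al be r U) : ℚ) := by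
    exact_mod_cast le_up _
  -- the cubic polynomial in `u`, expanded
  set T : ℝ := (al ^ 2 * be - be ^ 2 / 2) * h ^ 4 + al * be ^ 2 * h ^ 5 + be ^ 3 * h ^ 6 / 3 with hT
  have hexp : u - u ^ 2 / 2 + u ^ 3 / 3 = al * h + (be - al ^ 2 / 2) * h ^ 2
      + (al ^ 3 / 3 - al * be) * h ^ 3 + T := by rw [hu, hT]; ring
  set W : ℝ := |(al : ℝ) ^ 2 * be - be ^ 2 / 2| * r ^ 4 + |(al : ℝ)| * be ^ 2 * r ^ 5
      + |(be : ℝ)| ^ 3 * r ^ 6 / 3 with hW
  have hTW : |T| ≤ W := by
    rw [hT, hW]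
    refine (abs_add_le _ _).trans (add_le_add ((abs_add_le _ _).trans (add_le_add ?_ ?_)) ?_)
    · rw [abs_mul, abs_pow]
      exact mul_le_mul_of_nonneg_left (pow_le_pow_left₀ h0 hh _) (abs_nonneg _)
    · rw [abs_mul, abs_mul, abs_pow h, abs_pow, sq_abs]
      exact mul_le_mul_of_nonneg_left (pow_le_pow_left₀ h0 hh _) (by positivity)
    · rw [abs_div, abs_mul, abs_pow h, abs_pow, abs_of_pos (by norm_num : (0 : ℝ) < 3)]
      exact div_le_div_of_nonneg_right
        (mul_le_mul_of_nonneg_left (pow_le_pow_left₀ h0 hh _) (by positivity)) (by norm_num)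
  have main : (t.c : ℝ) * Real.log (1 + u) ≤ t.c * (al * h + (be - al ^ 2 / 2) * h ^ 2
      + (al ^ 3 / 3 - al * be) * h ^ 3) + (rem t.c al be r U : ℚ) := by
    unfold rem
    by_cases hneg : t.c < 0
    · have hU1 : (U : ℝ) < 1 := by
        rcases hc with hc | hc
        · exact_mod_cast hc
        · exact absurd hc.2 (not_le.2 hneg)
      have hl := cubic_le_log u U huU hU1
      rw [if_pos hneg]
      push_cast
      rw [← hW]
      have hc' : (t.c : ℝ) < 0 := by exact_mod_cast hneg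
      rw [abs_of_neg hc']
      rw [hexp] at hl
      have := (abs_le.1 hTW).1
      nlinarith
    · have hl := log_le_cubic u hu1
      rw [if_neg hneg]
      push_cast
      rw [← hW]
      have hc' : (0 : ℝ) ≤ t.c := by exact_mod_cast not_lt.1 hneg
      rw [abs_of_nonneg hc']
      rw [hexp] at hl
      have := (abs_le.1 hTW).2
      nlinarith
  unfold Cub.ev
  push_cast
  rw [hlog]
  linarith

/-- Accumulate over a list. -/
def acc (m r : ℚ) : List Term → Cub → Option Cub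
  | [], q => some q
  | t :: l, q => match step t m r q with
    | none => none
    | some q' => acc m r l q'

theorem acc_sound (m r : ℚ) (h : ℝ) (hh : |h| ≤ r) : ∀ (l : List Term) (q q' : Cub),
    acc m r l q = some q' → (∀ t ∈ l, t.s = true → 0 < t.P (m + h)) →
    q.ev h + evalL l (m + h) ≤ q'.ev h
  | [], q, q', hq, _ => by
    simp only [acc, Option.some.injEq] at hq
    subst hq; simp [evalL]
  | t :: l, q, q', hq, hs => by
    simp only [acc] at hq
    cases h1 : step t m r q with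
    | none => rw [h1] at hq; simp at hq
    | some q1 =>
      rw [h1] at hq
      have h2 := acc_sound m r h hh l q1 q' hq (fun t' ht' => hs t' (List.mem_cons_of_mem _ ht'))
      have h3 := step_sound t m r q q1 h1 h hh (hs t List.mem_cons_self)
      unfold evalL at h2 ⊢
      rw [List.map_cons, List.sum_cons]
      linarith

/-- Upper bound of `c1 h + c2 h²` on `|h| ≤ r`. -/
def quadMax (c1 c2 r : ℚ) : ℚ :=
  if c2 < 0 ∧ |c1| < -2 * c2 * r then c1 ^ 2 / (-4 * c2) else |c1| * r + c2 * r ^ 2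

theorem le_quadMax (c1 c2 r : ℚ) (h : ℝ) (hh : |h| ≤ r) :
    (c1 : ℝ) * h + c2 * h ^ 2 ≤ quadMax c1 c2 r := by
  unfold quadMax
  have h0 := abs_nonneg h
  have e1 : (c1 : ℝ) * h ≤ |(c1 : ℝ)| * |h| := by rw [← abs_mul]; exact le_abs_self _
  have e2 : h ^ 2 = |h| ^ 2 := (sq_abs h).symm
  split_ifs with hc
  · have hc2 : (c2 : ℝ) < 0 := by exact_mod_cast hc.1
    push_cast
    rw [le_div_iff₀ (by linarith)]
    nlinarith [sq_nonneg (c1 + 2 * c2 * h)]
  · push_cast
    rw [e2]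
    have ha := abs_nonneg (c1 : ℝ)
    by_cases h2 : c2 < 0
    · have hc2 : (c2 : ℝ) < 0 := by exact_mod_cast h2
      have h3 : -2 * c2 * r ≤ |c1| := not_lt.1 fun h => hc ⟨h2, h⟩
      have h4 : -2 * (c2 : ℝ) * r ≤ |(c1 : ℝ)| := by exact_mod_cast h3
      have h5 : 0 ≤ (r - |h|) * (|(c1 : ℝ)| + c2 * (r + |h|)) := by
        apply mul_nonneg (by linarith)
        nlinarith
      nlinarith
    · have hc2 : (0 : ℝ) ≤ c2 := by exact_mod_cast not_lt.1 h2
      have h5 : |h| ^ 2 ≤ (r : ℝ) ^ 2 := pow_le_pow_left₀ h0 hh _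
      nlinarith

/-- Check on the interval `[lo, hi]`. -/
def chk1 (l : List Term) (M lo hi : ℚ) : Bool :=
  match acc ((lo + hi) / 2) ((hi - lo) / 2) l ⟨0, 0, 0, 0⟩ with
  | none => false
  | some q => decide (q.c0 + quadMax q.c1 q.c2 ((hi - lo) / 2) + |q.c3| * ((hi - lo) / 2) ^ 3 ≤ M)

theorem chk1_sound (l : List Term) (M lo hi : ℚ) (hc : chk1 l M lo hi = true) (x : ℝ)
    (h1 : (lo : ℝ) ≤ x) (h2 : x ≤ hi) (hs : ∀ t ∈ l, t.s = true → 0 < t.P x) : evalL l x ≤ M := by
  unfold chk1 at hc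
  set m : ℚ := (lo + hi) / 2 with hm
  set r : ℚ := (hi - lo) / 2 with hr
  have hx : x = m + (x - m) := by ring
  have hh : |x - m| ≤ r := by
    rw [hm, hr, abs_le]; push_cast; constructor <;> linarith
  cases h3 : acc m r l ⟨0, 0, 0, 0⟩ with
  | none => rw [h3] at hc; simp at hc
  | some q =>
    rw [h3] at hc
    have h4 : q.c0 + quadMax q.c1 q.c2 r + |q.c3| * r ^ 3 ≤ M := by simpa using hc
    have h5 : (q.c0 : ℝ) + quadMax q.c1 q.c2 r + |(q.c3 : ℝ)| * r ^ 3 ≤ M := by exact_mod_cast h4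
    have h6 := acc_sound m r (x - m) hh l _ q h3 (by rw [← hx]; exact hs)
    rw [← hx] at h6
    have h7 := le_quadMax q.c1 q.c2 r (x - m) hh
    have h8 : (q.c3 : ℝ) * (x - m) ^ 3 ≤ |(q.c3 : ℝ)| * r ^ 3 := by
      refine (le_abs_self _).trans ?_
      rw [abs_mul, abs_pow]
      exact mul_le_mul_of_nonneg_left (pow_le_pow_left₀ (abs_nonneg _) hh _) (abs_nonneg _)
    unfold Cub.ev at h6
    simp only [Rat.cast_zero, zero_mul, add_zero, zero_add] at h6
    linarith

/-- Check on consecutive intervals `lo, p₁, p₂, …`, the break points being `pᵢ / D`. -/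
def chkL (l : List Term) (M : ℚ) (D : ℕ) : ℤ → List ℤ → Bool
  | _, [] => true
  | lo, p :: ps => chk1 l M (lo / D) (p / D) && chkL l M D p ps

theorem chkL_sound (l : List Term) (M : ℚ) (D : ℕ) (x : ℝ) (hs : ∀ t ∈ l, t.s = true → 0 < t.P x) :
    ∀ (ps : List ℤ) (lo : ℤ), chkL l M D lo ps = true → (lo : ℝ) / D < x →
      x ≤ (ps.getLastD lo : ℤ) / D → evalL l x ≤ M
  | [], lo, _, h1, h2 => by simp at h2; linarith
  | p :: ps, lo, hc, h1, h2 => by
    simp only [chkL, Bool.and_eq_true] at hc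
    by_cases hp : x ≤ (p : ℝ) / D
    · exact chk1_sound l M _ _ hc.1 x (by push_cast; exact h1.le) (by push_cast; exact hp) hs
    · refine chkL_sound l M D x hs ps p hc.2 (not_le.1 hp) ?_
      rwa [List.getLastD_cons] at h2

end Crest.Agent.R006.CertCheck
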