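import Crest.Agent.R006.Defs
import Crest.Agent.R006.CertCheck

set_option autoImplicit false

namespace Crest.Agent.R006.CertCheck

open Finset

/-- The term for `wt c * log ‖1 - 2 x z + z²‖`. -/
def toC (c : ℚ × ℚ × ℚ) : Term :=
  ⟨c.2.2 / 2, (1 + c.1 ^ 2 - c.2.1 ^ 2) ^ 2 + (2 * c.1 * c.2.1) ^ 2,
    -4 * c.1 * (1 + c.1 ^ 2 + c.2.1 ^ 2), 4 * (c.1 ^ 2 + c.2.1 ^ 2), false⟩

/-- The term for `-wt c * log ‖1 - x z‖`. -/
def toL (c : ℚ × ℚ × ℚ) : Term :=
  ⟨-c.2.2 / 2, 1, -2 * c.1, c.1 ^ 2 + c.2.1 ^ 2, false⟩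

theorem log_norm_eq (w : ℂ) : Real.log ‖w‖ = Real.log (w.re ^ 2 + w.im ^ 2) / 2 := by
  rw [← Complex.normSq_add_mul_I, Complex.re_add_im, Complex.normSq_eq_norm_sq, Real.log_pow]
  push_cast; ring

theorem potC_eq (l : List (ℚ × ℚ × ℚ)) (x : ℝ) : potC l x = evalL (l.map toC) x := by
  unfold potC evalL
  rw [List.map_map]
  congr 1
  refine List.map_congr_left fun c _ => ?_
  rw [log_norm_eq]
  have : (1 - 2 * (x : ℂ) * zc c + zc c ^ 2).re ^ 2 + (1 - 2 * (x : ℂ) * zc c + zc c ^ 2).im ^ 2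
      = (toC c).P x := by
    simp [zc, toC, Term.P, pow_two]; ring
  rw [this]
  simp only [Function.comp, toC, wt]
  push_cast; ring

theorem potL_eq (l : List (ℚ × ℚ × ℚ)) (x : ℝ) : -potL l x = evalL (l.map toL) x := by
  unfold potL evalL
  rw [List.map_map]
  induction l with
  | nil => simp
  | cons c l ih =>
    simp only [List.map_cons, List.sum_cons, neg_add, ih]
    congr 1
    rw [log_norm_eq]
    have : (1 - (x : ℂ) * zc c).re ^ 2 + (1 - (x : ℂ) * zc c).im ^ 2 = (toL c).P x := by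
      simp [zc, toL, Term.P, pow_two]; ring
    rw [this]
    simp only [Function.comp, toL, wt]
    push_cast; ring

theorem evalL_append (l l' : List Term) (x : ℝ) : evalL (l ++ l') x = evalL l x + evalL l' x := by
  simp [evalL]

/-- Terms for the `x` potential. -/
def termsX (c0 c2 : ℚ) (lX lS : List (ℚ × ℚ × ℚ)) : List Term :=
  [⟨c0 / 2, 0, 0, 1, true⟩, ⟨4 / 36 - 1 / 100000, 1, -1, 0, true⟩, ⟨-c2, 1, 0, 1, false⟩]
    ++ (lX.map toC ++ lS.map toL)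

/-- Terms for the `s` potential. -/
def termsS (lS : List (ℚ × ℚ × ℚ)) : List Term :=
  [⟨6 / 36, 0, 1, 0, true⟩, ⟨2 / 36 - 1 / 100000, 1, -1, 0, true⟩] ++ lS.map toC

theorem termsX_eval (c0 c2 : ℚ) (lX lS : List (ℚ × ℚ × ℚ)) (x : ℝ) :
    evalL (termsX c0 c2 lX lS) x = c0 * Real.log |x| + (4 / 36 - 1 / 100000) * Real.log (1 - x)
      - c2 * Real.log (1 + x ^ 2) + (potC lX x - potL lS x) := by
  unfold termsX
  rw [evalL_append, evalL_append, ← potC_eq, ← potL_eq]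
  simp only [evalL, Term.P, List.map_cons, List.map_nil, List.sum_cons, List.sum_nil]
  push_cast
  have e1 : (0 : ℝ) + 0 * x + 1 * x ^ 2 = x ^ 2 := by ring
  have e2 : (1 : ℝ) + -1 * x + 0 * x ^ 2 = 1 - x := by ring
  have e3 : (1 : ℝ) + 0 * x + 1 * x ^ 2 = 1 + x ^ 2 := by ring
  rw [e1, e2, e3, Real.log_pow, Real.log_abs]
  push_cast; ring

theorem termsS_eval (lS : List (ℚ × ℚ × ℚ)) (x : ℝ) :
    evalL (termsS lS) x = 6 / 36 * Real.log x + (2 / 36 - 1 / 100000) * Real.log (1 - x)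
      + potC lS x := by
  unfold termsS
  rw [evalL_append, ← potC_eq]
  simp only [evalL, Term.P, List.map_cons, List.map_nil, List.sum_cons, List.sum_nil]
  push_cast
  have e1 : (0 : ℝ) + 1 * x + 0 * x ^ 2 = x := by ring
  have e2 : (1 : ℝ) + -1 * x + 0 * x ^ 2 = 1 - x := by ring
  rw [e1, e2]
  ring

theorem termsX_pos (c0 c2 : ℚ) (lX lS : List (ℚ × ℚ × ℚ)) (x : ℝ) (hx : x < 1) (hx0 : x ≠ 0) :
    ∀ t ∈ termsX c0 c2 lX lS, t.s = true → 0 < t.P x := by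
  intro t ht hs
  simp only [termsX, List.mem_append, List.mem_cons, List.mem_map, List.not_mem_nil, or_false] at ht
  rcases ht with (rfl | rfl | rfl) | ⟨c, _, rfl⟩ | ⟨c, _, rfl⟩
  · simp [Term.P]; positivity
  · simp [Term.P]; linarith
  · simp at hs
  · simp [toC] at hs
  · simp [toL] at hs

theorem termsS_pos (lS : List (ℚ × ℚ × ℚ)) (x : ℝ) (hx : x < 1) (hx0 : 0 < x) :
    ∀ t ∈ termsS lS, t.s = true → 0 < t.P x := by
  intro t ht hs
  simp only [termsS, List.mem_append, List.mem_cons, List.mem_map, List.not_mem_nil, or_false] at ht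
  rcases ht with (rfl | rfl) | ⟨c, _, rfl⟩
  · simp [Term.P]; exact hx0
  · simp [Term.P]; linarith
  · simp [toC] at hs

/-- `|1 - z w̄|²`. -/
def n1 (c d : ℚ × ℚ × ℚ) : ℚ :=
  (1 - (c.1 * d.1 + c.2.1 * d.2.1)) ^ 2 + (c.1 * d.2.1 - c.2.1 * d.1) ^ 2

/-- `|1 - z w|²`. -/
def n2 (c d : ℚ × ℚ × ℚ) : ℚ :=
  (1 - (c.1 * d.1 - c.2.1 * d.2.1)) ^ 2 + (c.1 * d.2.1 + c.2.1 * d.1) ^ 2

/-- Upper bound of `-quadQ l`. -/
def ubQ (l : List (ℚ × ℚ × ℚ)) : ℚ :=
  (l.map fun c => (l.map fun d => ub (-(c.2.2 * d.2.2) / 4) (n1 c d * n2 c d)).sum).sum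

/-- Positivity check. -/
def posQ (l : List (ℚ × ℚ × ℚ)) : Bool :=
  l.all fun c => l.all fun d => decide (0 < n1 c d) && decide (0 < n2 c d)

theorem neg_quadQ_le (l : List (ℚ × ℚ × ℚ)) (hl : posQ l = true) : -quadQ l ≤ ubQ l := by
  unfold quadQ ubQ
  rw [neg_le, Rat.cast_list_sum, List.map_map, List.sum_neg, List.map_map]
  refine List.sum_le_sum fun c hc => ?_
  simp only [Function.comp]
  rw [Rat.cast_list_sum, List.map_map, List.sum_neg, List.map_map]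
  refine List.sum_le_sum fun d hd => ?_
  simp only [Function.comp]
  simp only [posQ, List.all_eq_true, Bool.and_eq_true, decide_eq_true_eq] at hl
  obtain ⟨h1, h2⟩ := hl c hc d hd
  have h := le_ub (-(c.2.2 * d.2.2) / 4) (n1 c d * n2 c d) (mul_pos h1 h2)
  have h1' : (0 : ℝ) < n1 c d := by exact_mod_cast h1
  have h2' : (0 : ℝ) < n2 c d := by exact_mod_cast h2
  rw [log_norm_eq, log_norm_eq]
  have e1 : (1 - zc c * (starRingEnd ℂ) (zc d)).re ^ 2 + (1 - zc c * (starRingEnd ℂ) (zc d)).im ^ 2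
      = n1 c d := by
    simp [zc, n1]; ring
  have e2 : (1 - zc c * zc d).re ^ 2 + (1 - zc c * zc d).im ^ 2 = n2 c d := by
    simp [zc, n2]; ring
  rw [e1, e2]
  push_cast at h
  rw [Real.log_mul h1'.ne' h2'.ne'] at h
  simp only [wt]
  linarith

/-- Norm check. -/
def normOk (l : List (ℚ × ℚ × ℚ)) : Bool := l.all fun c => decide (c.1 ^ 2 + c.2.1 ^ 2 < 1)

theorem norm_lt_of_ok (l : List (ℚ × ℚ × ℚ)) (hl : normOk l = true) : ∀ c ∈ l, ‖zc c‖ < 1 := by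
  intro c hc
  simp only [normOk, List.all_eq_true, decide_eq_true_eq] at hl
  have h : ((c.1 ^ 2 + c.2.1 ^ 2 : ℚ) : ℝ) < 1 := by exact_mod_cast hl c hc
  push_cast at h
  rw [← sq_lt_one_iff₀ (norm_nonneg _), ← Complex.normSq_eq_norm_sq, Complex.normSq_apply]
  simp only [zc]
  nlinarith

end Crest.Agent.R006.CertCheck
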