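import Mathlib

/-!
Definitions for the irrationality of Catalan's constant (row 6).

Parameters at scale `N`: n = 36N (matrix size), b = 6N, q = 2N, g = 3N, h = 2N,
L = b+q+n = 44N, C = L+g = 47N, H = C+h = 49N, A = C+g-n = 14N.
-/

set_option autoImplicit false

namespace Crest.Agent.R006

open Polynomial Finset

/-- Taylor coefficients of `1/√(1-z²)`. -/
def cc : ℕ → ℚ
  | 0 => 1
  | 1 => 0
  | (k + 2) => ((k : ℚ) + 1) / ((k : ℚ) + 2) * cc k

/-- `cc` extended by zero to negative indices. -/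
def ccz (e : ℤ) : ℚ := if 0 ≤ e then cc e.toNat else 0

/-- Taylor coefficients of `2 arcsin z / √(1-z²)`. -/
def aa : ℕ → ℚ
  | 0 => 0
  | 1 => 2
  | (k + 2) => ((k : ℚ) + 1) / ((k : ℚ) + 2) * aa k

/-- Rational part of `∑ₖ aa k / (k + d + 1)`. -/
def yy : ℕ → ℚ
  | 0 => 0
  | 1 => 2
  | (k + 2) => (((k : ℚ) + 1) * yy k + 2 / ((k : ℚ) + 2)) / ((k : ℚ) + 2)

/-- Rational part of `∑ₖ aa k / (k - d)` (the term `k = d` omitted). -/
def sg : ℕ → ℚ
  | 0 => 0
  | 1 => 2
  | (k + 2) => (((k : ℚ) + 1) * sg k - (2 + aa (k + 2)) / ((k : ℚ) + 1)) / ((k : ℚ) + 2)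

/-- Rational part of `∑ₖ aa k / (k + e)`. -/
def Sh (e : ℤ) : ℚ := if 1 ≤ e then yy (e - 1).toNat else sg (-e).toNat

/-- Rational part of `∑ₖ aa (i + k) / (j + k + 1)`.  (A zero denominator gives a zero term.) -/
def Mh (i j : ℕ) : ℚ :=
  Sh ((j : ℤ) - i + 1) - ∑ k ∈ range i, aa k / ((k : ℚ) + j + 1 - i)

/-- Harmonic numbers. -/
def H1 (i : ℕ) : ℚ := ∑ k ∈ range i, 1 / ((k : ℚ) + 1)

/-- Harmonic numbers of order two. -/
def H2 (i : ℕ) : ℚ := ∑ k ∈ range i, 1 / ((k : ℚ) + 1) ^ 2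

/-- Rational part of `∑ₖ 1 / ((i + k + 1) (j + k + 1))`. -/
def Z0 (i j : ℕ) : ℚ := if i = j then -H2 i else (H1 i - H1 j) / ((i : ℚ) - j)

/-- With `f² = 1 - X²`: `(1 - f)^u = pa u - f * pb u`. -/
noncomputable def pa : ℕ → ℤ[X]
  | 0 => 1
  | 1 => 1
  | (u + 2) => 2 * pa (u + 1) - X ^ 2 * pa u

/-- With `f² = 1 - X²`: `(1 - f)^u = pa u - f * pb u`. -/
noncomputable def pb : ℕ → ℤ[X]
  | 0 => 0
  | 1 => 1
  | (u + 2) => 2 * pb (u + 1) - X ^ 2 * pb u

/-- `t^c T_u(1/t)`. -/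
noncomputable def alphaP (c : ℕ) (u : ℤ) : ℤ[X] := X ^ (c - u.natAbs) * pa u.natAbs

/-- `t^(c-1) U_(u-1)(1/t)`. -/
noncomputable def deltaP (c : ℕ) (u : ℤ) : ℤ[X] := C u.sign * X ^ (c - u.natAbs) * pb u.natAbs

/-- First row polynomial. -/
noncomputable def rowP (N r : ℕ) : ℤ[X] := (1 - X) ^ (2 * N) * alphaP (47 * N) ((r : ℤ) - 3 * N)

/-- Second row polynomial. -/
noncomputable def rowD (N r : ℕ) : ℤ[X] := (1 - X) ^ (2 * N) * deltaP (47 * N) ((r : ℤ) - 3 * N)

/-- Column polynomial. -/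
noncomputable def colQ (N k : ℕ) : ℤ[X] := X ^ (6 * N + k) * (1 - X) ^ (2 * N)

/-- Rational part of the entry for the monomial column `s^j`. -/
noncomputable def E0m (N r j : ℕ) : ℚ :=
  ∑ i ∈ range (49 * N + 1), (((rowP N r).coeff i : ℚ) * Mh i j - 3 / 2 * ((rowD N r).coeff i : ℚ) * Z0 i j)

/-- Coefficient of `4 G` in the entry for the monomial column `s^j`. -/
noncomputable def EBm (N r j : ℕ) : ℚ :=
  ∑ i ∈ range (49 * N + 1), ((rowP N r).coeff i : ℚ) * ccz ((i : ℤ) - j - 1)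

/-- Rational part of the matrix entry. -/
noncomputable def E0 (N r k : ℕ) : ℚ := ∑ j ∈ range (44 * N), ((colQ N k).coeff j : ℚ) * E0m N r j

/-- Coefficient of `4 G` in the matrix entry. -/
noncomputable def EB (N r k : ℕ) : ℚ := ∑ j ∈ range (44 * N), ((colQ N k).coeff j : ℚ) * EBm N r j

/-- The matrix, over any field of characteristic zero, at the value `G`. -/
noncomputable def Emat {K : Type*} [Field K] [CharZero K] (G : K) (N : ℕ) :
    Matrix (Fin (36 * N)) (Fin (36 * N)) K :=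
  Matrix.of fun r k => (E0 N r k : K) + 4 * G * (EB N r k : K)

/-- Catalan's constant. -/
noncomputable def catG : ℝ := ∑' j : ℕ, (-1 : ℝ) ^ j / ((2 * j + 1 : ℝ) ^ 2)

/-- `t = 2x/(1+x²)`. -/
noncomputable def tt (x : ℝ) : ℝ := 2 * x / (1 + x ^ 2)

/-- `√(1-t²) = (1-x²)/(1+x²)`. -/
noncomputable def ff (x : ℝ) : ℝ := (1 - x ^ 2) / (1 + x ^ 2)

/-- Row function in the integral representation. -/
noncomputable def Frow (N r : ℕ) (x : ℝ) : ℝ :=
  (if 0 < x then aeval (tt x) (rowP N r) - 3 / 2 * ff x * aeval (tt x) (rowD N r)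
    else -aeval (tt x) (rowP N r)) * (2 / (1 + x ^ 2))

/-- Column function in the integral representation. -/
noncomputable def Gam (N k : ℕ) (x : ℝ) : ℝ :=
  ∫ s in (0 : ℝ)..1, aeval s (colQ N k) / (1 - tt x * s)

/-- Sum over pairs `i < j`. -/
noncomputable def pairSum {n : ℕ} (F : Fin n → Fin n → ℝ) : ℝ := ∑ i, ∑ j ∈ Ioi i, F i j

/-- Position of a trial charge `(re, im, weight)`. -/
noncomputable def zc (c : ℚ × ℚ × ℚ) : ℂ := ⟨c.1, c.2.1⟩

/-- Weight of a trial charge. -/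
noncomputable def wt (c : ℚ × ℚ × ℚ) : ℝ := c.2.2

/-- Potential of trial charges at the two unit-circle points over `x`. -/
noncomputable def potC (l : List (ℚ × ℚ × ℚ)) (x : ℝ) : ℝ :=
  (l.map fun c => wt c * Real.log ‖1 - 2 * (x : ℂ) * zc c + zc c ^ 2‖).sum

/-- Potential of trial charges at the point `x` of the disc. -/
noncomputable def potL (l : List (ℚ × ℚ × ℚ)) (x : ℝ) : ℝ :=
  (l.map fun c => wt c * Real.log ‖1 - (x : ℂ) * zc c‖).sum

/-- Self-energy of the (conjugation symmetrised) trial charges. -/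
noncomputable def quadQ (l : List (ℚ × ℚ × ℚ)) : ℝ :=
  (l.map fun c => (l.map fun d => wt c * wt d *
    ((Real.log ‖1 - zc c * (starRingEnd ℂ) (zc d)‖ + Real.log ‖1 - zc c * zc d‖) / 2)).sum).sum

/-- Trial charges, case 1, Chebyshev part. -/
def lX1 : List (ℚ × ℚ × ℚ) :=
  [(488/10000, 4096/10000, 239407/100000), (-3236/10000, 1681/10000, -103793/100000),
   (9014/10000, 0, -12305/100000), (805/10000, 7105/10000, 5376/100000),
   (-1276/10000, 6927/10000, 8200/100000), (-3277/10000, 6566/10000, 1276/100000),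
   (-6890/10000, 0, -10342/100000), (9637/10000, 973/10000, -4627/100000),
   (796/10000, 9739/10000, -6550/100000), (-1/10000, 9312/10000, -27238/100000),
   (-821/10000, 9733/10000, -6248/100000)]

/-- Trial charges, case 1, Cauchy part. -/
def lS1 : List (ℚ × ℚ × ℚ) :=
  [(-9415/10000, 0, -8114/100000), (3039/10000, 0, 136408/100000),
   (1286/10000, 3920/10000, 254952/100000), (4684/10000, 3114/10000, 13535/100000),
   (770/10000, 7145/10000, 116513/100000), (659/10000, 8568/10000, 37049/100000),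
   (-319/10000, 7189/10000, -154231/100000), (267/10000, 9308/10000, 52694/100000),
   (126/10000, 9655/10000, 46198/100000), (16/10000, 9466/10000, -82617/100000),
   (9939/10000, 0, -5598/100000), (73/10000, 9901/10000, 31310/100000),
   (52/10000, 9905/10000, -33784/100000)]

/-- Trial charges, case 2, Chebyshev part. -/
def lX2 : List (ℚ × ℚ × ℚ) :=
  [(29/100, 57/100, 1164/1000), (-2/100, 60/100, 3802/1000), (0, 96/100, -269/1000)]

/-- Trial charges, case 2, Cauchy part. -/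
def lS2 : List (ℚ × ℚ × ℚ) :=
  [(32/100, 28/100, 2556/1000), (-2/100, 76/100, -6961/1000), (1/100, 74/100, 7675/1000),
   (3/100, 94/100, 407/1000)]

/-- Positive part, written for reals. -/
noncomputable def hinge (a p : ℝ) : ℝ := max (a - p) 0

/-- The bound for `-v_p(det)` at an odd prime `p` with `49 N < p²`. -/
noncomputable def phiN (N p : ℝ) : ℝ :=
  hinge (49 * N) p + hinge (44 * N) p + hinge (43 * N) p + hinge (30 * N) p
    - 2 * hinge (51 / 2 * N) p - 2 * hinge (49 / 2 * N) p + 2 * hinge (43 / 2 * N) p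
    - 2 * hinge (37 / 2 * N) p

end Crest.Agent.R006
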