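import Crest.Agent.R006.Defs

/-! Auxiliary facts for the logarithmic energy inequality. -/

set_option autoImplicit false

namespace Crest.Agent.R006

open Finset ComplexConjugate

/-- The conjugation-symmetrised logarithmic kernel of the disc. -/
noncomputable def enK (y w : ℂ) : ℝ := Real.log ‖1 - y * conj w‖ + Real.log ‖1 - y * w‖

theorem en_hasSum_log {u : ℂ} (hu : ‖u‖ < 1) :
    HasSum (fun k : ℕ => -((u ^ k).re / k)) (Real.log ‖1 - u‖) := by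
  have h := (Complex.hasSum_re (Complex.hasSum_taylorSeries_neg_log hu)).neg
  simp only [Complex.neg_re, neg_neg, Complex.log_re, Complex.div_natCast_re] at h
  exact h

theorem en_norm_mul_lt {y w : ℂ} (hy : ‖y‖ ≤ 1) (hw : ‖w‖ < 1) : ‖y * w‖ < 1 := by
  rw [norm_mul]
  exact mul_lt_one_of_nonneg_of_lt_one_right hy (norm_nonneg _) hw

theorem en_hasSum_K {y w : ℂ} (hy : ‖y‖ < 1) (hw : ‖w‖ < 1) :
    HasSum (fun k : ℕ => -(2 / k) * ((y ^ k).re * (w ^ k).re)) (enK y w) := by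
  have h1 := en_hasSum_log (en_norm_mul_lt hy.le (show ‖conj w‖ < 1 by rwa [Complex.norm_conj]))
  have h2 := en_hasSum_log (en_norm_mul_lt hy.le hw)
  suffices e : (fun k : ℕ => -(2 / k) * ((y ^ k).re * (w ^ k).re)) = fun k : ℕ =>
      -(((y * conj w) ^ k).re / k) + -(((y * w) ^ k).re / k) by rw [e]; exact h1.add h2
  funext k
  rw [mul_pow, mul_pow, ← map_pow, Complex.mul_re, Complex.mul_re, Complex.conj_re,
    Complex.conj_im]
  ring

/-- Mutual energy of two families of charges. -/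
noncomputable def enE {ι κ : Type*} [Fintype ι] [Fintype κ] (e : ι → ℝ) (y : ι → ℂ) (f : κ → ℝ)
    (w : κ → ℂ) : ℝ := ∑ a, ∑ b, e a * f b * enK (y a) (w b)

theorem en_hasSum_E {ι κ : Type*} [Fintype ι] [Fintype κ] (e : ι → ℝ) (y : ι → ℂ) (f : κ → ℝ)
    (w : κ → ℂ) (hy : ∀ a, ‖y a‖ < 1) (hw : ∀ b, ‖w b‖ < 1) :
    HasSum (fun k : ℕ => -(2 / k) * ((∑ a, e a * (y a ^ k).re) * (∑ b, f b * (w b ^ k).re)))
      (enE e y f w) := by
  have h := hasSum_sum (s := univ) fun a _ => hasSum_sum (s := univ) fun b _ =>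
    (en_hasSum_K (hy a) (hw b)).mul_left (e a * f b)
  suffices e : (fun k : ℕ => -(2 / k) * ((∑ a, e a * (y a ^ k).re) * (∑ b, f b * (w b ^ k).re))) =
      fun k : ℕ => ∑ a, ∑ b, e a * f b * (-(2 / k) * ((y a ^ k).re * (w b ^ k).re)) by
    rw [e]; exact h
  funext k
  rw [sum_mul_sum, mul_sum]
  refine sum_congr rfl fun a _ => ?_
  rw [mul_sum]
  refine sum_congr rfl fun b _ => ?_
  ring

theorem en_psd2 {ι κ : Type*} [Fintype ι] [Fintype κ] (e : ι → ℝ) (y : ι → ℂ) (f : κ → ℝ)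
    (w : κ → ℂ) (hy : ∀ a, ‖y a‖ < 1) (hw : ∀ b, ‖w b‖ < 1) :
    enE e y e y + 2 * enE e y f w + enE f w f w ≤ 0 := by
  have h := ((en_hasSum_E e y e y hy hy).add ((en_hasSum_E e y f w hy hw).mul_left 2)).add
    (en_hasSum_E f w f w hw hw)
  refine h.nonpos fun k => ?_
  have h0 : (0 : ℝ) ≤ 2 / k := by positivity
  have := mul_nonneg h0 (sq_nonneg ((∑ a, e a * (y a ^ k).re) + ∑ b, f b * (w b ^ k).re))
  nlinarith

theorem en_psd3 {ι κ μ : Type*} [Fintype ι] [Fintype κ] [Fintype μ] (e : ι → ℝ) (y : ι → ℂ)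
    (f : κ → ℝ) (w : κ → ℂ) (g : μ → ℝ) (v : μ → ℂ) (hy : ∀ a, ‖y a‖ < 1) (hw : ∀ b, ‖w b‖ < 1)
    (hv : ∀ c, ‖v c‖ < 1) :
    enE e y e y + enE f w f w + enE g v g v + 2 * enE f w e y + 2 * enE e y g v
      + 2 * enE f w g v ≤ 0 := by
  have h := (((((en_hasSum_E e y e y hy hy).add (en_hasSum_E f w f w hw hw)).add
    (en_hasSum_E g v g v hv hv)).add ((en_hasSum_E f w e y hw hy).mul_left 2)).add
    ((en_hasSum_E e y g v hy hv).mul_left 2)).add ((en_hasSum_E f w g v hw hv).mul_left 2)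
  refine h.nonpos fun k => ?_
  have h0 : (0 : ℝ) ≤ 2 / k := by positivity
  have := mul_nonneg h0 (sq_nonneg ((∑ a, e a * (y a ^ k).re) + (∑ b, f b * (w b ^ k).re)
    + ∑ c, g c * (v c ^ k).re))
  nlinarith

/-- The point of the unit circle above `s`. -/
noncomputable def enXi (s : ℝ) : ℂ := ⟨s, √(1 - s ^ 2)⟩

theorem en_sq_sqrt {s : ℝ} (hs : |s| ≤ 1) : √(1 - s ^ 2) * √(1 - s ^ 2) = 1 - s ^ 2 :=
  Real.mul_self_sqrt (by have := (sq_le_one_iff_abs_le_one s).2 hs; linarith)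

theorem en_normSq_xi {s : ℝ} (hs : |s| ≤ 1) : Complex.normSq (enXi s) = 1 := by
  rw [Complex.normSq_apply, enXi]
  have := en_sq_sqrt hs
  simp only
  linarith

theorem en_norm_xi {s : ℝ} (hs : |s| ≤ 1) : ‖enXi s‖ = 1 := by
  rw [Complex.norm_def, en_normSq_xi hs, Real.sqrt_one]

theorem en_xi_mul {s : ℝ} (hs : |s| ≤ 1) (a : ℂ) :
    (1 - enXi s * a) * (1 - conj (enXi s) * a) = 1 - 2 * s * a + a ^ 2 := by
  have h1 : enXi s * conj (enXi s) = 1 := by rw [Complex.mul_conj, en_normSq_xi hs]; simp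
  have h2 : enXi s + conj (enXi s) = 2 * s := by rw [Complex.add_conj]; simp [enXi]
  linear_combination (-a) * h2 + a ^ 2 * h1

theorem en_one_sub_pos {u : ℂ} (hu : ‖u‖ < 1) : 0 < ‖1 - u‖ := by
  have := norm_sub_norm_le (1 : ℂ) u
  rw [norm_one] at this
  linarith

theorem en_K_xi {s : ℝ} (hs : |s| ≤ 1) {a : ℂ} (ha : ‖a‖ < 1) :
    enK (enXi s) a = Real.log ‖1 - 2 * (s : ℂ) * a + a ^ 2‖ := by
  have e : ‖1 - enXi s * conj a‖ = ‖1 - conj (enXi s) * a‖ := by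
    rw [← Complex.norm_conj]; simp
  have h1 := en_one_sub_pos (en_norm_mul_lt (en_norm_xi hs).le ha)
  have h2 := en_one_sub_pos (en_norm_mul_lt (y := conj (enXi s))
    (by rw [Complex.norm_conj, en_norm_xi hs]) ha)
  rw [enK, e, ← en_xi_mul hs, norm_mul, Real.log_mul h1.ne' h2.ne', add_comm]

theorem en_K_real (x : ℝ) (a : ℂ) : enK x a = 2 * Real.log ‖1 - (x : ℂ) * a‖ := by
  have e : ‖1 - (x : ℂ) * conj a‖ = ‖1 - (x : ℂ) * a‖ := by
    rw [← Complex.norm_conj]; simp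
  rw [enK, e]; ring

theorem en_log_sub_le {y y' z : ℂ} (hy : ‖y‖ ≤ 1) (hy' : ‖y'‖ ≤ 1) (hz : ‖z‖ < 1) :
    Real.log ‖1 - y * z‖ - Real.log ‖1 - y' * z‖ ≤ ‖y - y'‖ / (1 - ‖z‖) := by
  have h1 := en_one_sub_pos (en_norm_mul_lt hy hz)
  have h2 := en_one_sub_pos (en_norm_mul_lt hy' hz)
  rw [← Real.log_div h1.ne' h2.ne']
  refine (Real.log_le_sub_one_of_pos (div_pos h1 h2)).trans ?_
  have h3 : ‖1 - y * z‖ ≤ ‖1 - y' * z‖ + ‖y - y'‖ := by
    have e : 1 - y * z = (1 - y' * z) - (y - y') * z := by ring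
    rw [e]
    refine (norm_sub_le _ _).trans ?_
    rw [norm_mul]
    have := mul_le_of_le_one_right (norm_nonneg (y - y')) hz.le
    linarith
  have h4 : 1 - ‖z‖ ≤ ‖1 - y' * z‖ := by
    have := norm_sub_norm_le (1 : ℂ) (y' * z)
    rw [norm_one, norm_mul] at this
    have := mul_le_of_le_one_left (norm_nonneg z) hy'
    linarith
  rw [div_sub_one h2.ne']
  exact div_le_div₀ (norm_nonneg _) (by linarith) (by linarith) h4

theorem en_K_perturb {y y' z : ℂ} (hy : ‖y‖ ≤ 1) (hy' : ‖y'‖ ≤ 1) (hz : ‖z‖ < 1) :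
    |enK y z - enK y' z| ≤ ‖y - y'‖ * (2 / (1 - ‖z‖)) := by
  have hz' : ‖conj z‖ < 1 := by rwa [Complex.norm_conj]
  have a1 := en_log_sub_le hy hy' hz
  have a2 := en_log_sub_le hy' hy hz
  have a3 := en_log_sub_le hy hy' hz'
  have a4 := en_log_sub_le hy' hy hz'
  rw [Complex.norm_conj] at a3 a4
  rw [norm_sub_rev y' y] at a2 a4
  have e : ‖y - y'‖ * (2 / (1 - ‖z‖)) = 2 * (‖y - y'‖ / (1 - ‖z‖)) := by ring
  rw [e, abs_le, enK, enK]
  constructor <;> linarith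

/-- Lipschitz constant of the trial potentials. -/
noncomputable def enLip (l : List (ℚ × ℚ × ℚ)) : ℝ :=
  ∑ c : Fin l.length, |wt l[c.1]| * (2 / (1 - ‖zc l[c.1]‖))

theorem en_Lip_nonneg (l : List (ℚ × ℚ × ℚ)) (hl : ∀ c ∈ l, ‖zc c‖ < 1) : 0 ≤ enLip l :=
  sum_nonneg fun c _ => mul_nonneg (abs_nonneg _)
    (div_nonneg zero_le_two (by have := hl _ (List.getElem_mem c.2); linarith))

theorem en_pot_perturb (l : List (ℚ × ℚ × ℚ)) (hl : ∀ c ∈ l, ‖zc c‖ < 1) {y y' : ℂ}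
    (hy : ‖y‖ ≤ 1) (hy' : ‖y'‖ ≤ 1) {δ : ℝ} (hδ : ‖y - y'‖ ≤ δ) :
    |∑ c : Fin l.length, wt l[c.1] * enK y (zc l[c.1]) -
      ∑ c : Fin l.length, wt l[c.1] * enK y' (zc l[c.1])| ≤ δ * enLip l := by
  rw [← sum_sub_distrib, enLip, mul_sum]
  refine (abs_sum_le_sum_abs _ _).trans (sum_le_sum fun c _ => ?_)
  have hc := hl _ (List.getElem_mem c.2)
  rw [← mul_sub, abs_mul]
  have h1 := en_K_perturb hy hy' hc
  have h2 : (0 : ℝ) ≤ 2 / (1 - ‖zc l[c.1]‖) := div_nonneg zero_le_two (by linarith)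
  calc _ ≤ |wt l[c.1]| * (‖y - y'‖ * (2 / (1 - ‖zc l[c.1]‖))) := by gcongr
    _ ≤ |wt l[c.1]| * (δ * (2 / (1 - ‖zc l[c.1]‖))) := by gcongr
    _ = _ := by ring

theorem en_potC (l : List (ℚ × ℚ × ℚ)) (hl : ∀ c ∈ l, ‖zc c‖ < 1) {s : ℝ} (hs : |s| ≤ 1) :
    potC l s = ∑ c : Fin l.length, wt l[c.1] * enK (enXi s) (zc l[c.1]) := by
  rw [potC, ← Fin.sum_univ_fun_getElem]
  exact sum_congr rfl fun c _ => by rw [en_K_xi hs (hl _ (List.getElem_mem c.2))]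

theorem en_potL (l : List (ℚ × ℚ × ℚ)) (x : ℝ) :
    2 * potL l x = ∑ c : Fin l.length, wt l[c.1] * enK x (zc l[c.1]) := by
  rw [potL, ← Fin.sum_univ_fun_getElem, mul_sum]
  exact sum_congr rfl fun c _ => by rw [en_K_real]; ring

theorem en_quadQ (l : List (ℚ × ℚ × ℚ)) (t : ℝ) :
    enE (fun c : Fin l.length => -(t / 2) * wt l[c.1]) (fun c => zc l[c.1])
      (fun c : Fin l.length => -(t / 2) * wt l[c.1]) (fun c => zc l[c.1]) =
      t ^ 2 / 2 * quadQ l := by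
  rw [quadQ, ← Fin.sum_univ_fun_getElem, mul_sum, enE]
  refine sum_congr rfl fun c _ => ?_
  rw [← Fin.sum_univ_fun_getElem, mul_sum]
  refine sum_congr rfl fun d _ => ?_
  rw [enK]; ring

theorem en_double_sum {n : ℕ} (F g : Fin n → Fin n → ℝ) (D : Fin n → ℝ) (c : ℝ)
    (hg : ∀ i j, g i j = g j i) (h1 : ∀ i j, i ≠ j → g i j + c ≤ F i j) (h2 : ∀ i, D i ≤ F i i) :
    2 * pairSum g + c * ((n : ℝ) ^ 2 - n) + ∑ i, D i ≤ ∑ i, ∑ j, F i j := by
  have e1 : 2 * pairSum g = ∑ i, ∑ j ∈ {i}ᶜ, g i j := by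
    have := sum_sum_Ioi_add_eq_sum_sum_off_diag (fun j i => g i j)
    rw [← this, pairSum, mul_sum]
    refine sum_congr rfl fun i _ => ?_
    rw [mul_sum]
    exact sum_congr rfl fun j _ => by rw [hg j i]; ring
  have e2 : c * ((n : ℝ) ^ 2 - n) = ∑ i : Fin n, ∑ j ∈ ({i}ᶜ : Finset (Fin n)), c := by
    have : ∀ i : Fin n, ∑ j ∈ ({i}ᶜ : Finset (Fin n)), c = c * (n - 1) := by
      intro i
      rw [sum_const, card_compl, card_singleton, Fintype.card_fin, nsmul_eq_mul,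
        Nat.cast_sub (Nat.one_le_iff_ne_zero.2 (Fin.pos i).ne')]
      push_cast; ring
    simp_rw [this]
    rw [sum_const, card_univ, Fintype.card_fin, nsmul_eq_mul]; ring
  rw [e1, e2, ← sum_add_distrib, ← sum_add_distrib]
  refine sum_le_sum fun i _ => ?_
  rw [← sum_add_distrib, ← sum_compl_add_sum {i} (F i), sum_singleton]
  exact add_le_add (sum_le_sum fun j hj => h1 i j (by
    rw [mem_compl, mem_singleton] at hj; exact fun h => hj h.symm)) (h2 i)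

theorem en_log_one_sub {ε : ℝ} (h1 : ε ≤ 1 / 2) (h0 : 0 ≤ ε) : -(2 * ε) ≤ Real.log (1 - ε) := by
  have h := Real.one_sub_inv_le_log_of_pos (show 0 < 1 - ε by linarith)
  refine le_trans ?_ h
  have : (1 - ε)⁻¹ ≤ 1 + 2 * ε := by
    rw [inv_le_iff_one_le_mul₀ (by linarith)]; nlinarith
  linarith

theorem en_shrink {u : ℂ} (hu : ‖u‖ = 1) {r t : ℝ} (ht : 0 ≤ t) (hr : t ^ 2 ≤ r) :
    t * ‖1 - u‖ ≤ ‖1 - r * u‖ := by
  have h1 : u.re ^ 2 + u.im ^ 2 = 1 := by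
    have := Complex.sq_norm u
    rw [hu, Complex.normSq_apply] at this
    linarith
  have h2 : u.re ≤ 1 := by nlinarith [sq_nonneg u.im]
  refine (abs_le_of_sq_le_sq' ?_ (norm_nonneg _)).2
  rw [mul_pow, Complex.sq_norm, Complex.sq_norm, Complex.normSq_apply, Complex.normSq_apply]
  simp only [Complex.sub_re, Complex.one_re, Complex.sub_im, Complex.one_im, Complex.mul_re,
    Complex.ofReal_re, Complex.ofReal_im, Complex.mul_im]
  have e1 : (1 - u.re) * (1 - u.re) + (0 - u.im) * (0 - u.im) = 2 - 2 * u.re := by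
    linear_combination h1
  have e2 : (1 - (r * u.re - 0 * u.im)) * (1 - (r * u.re - 0 * u.im)) +
      (0 - (r * u.im + 0 * u.re)) * (0 - (r * u.im + 0 * u.re)) =
      (1 - r) ^ 2 + r * (2 - 2 * u.re) := by linear_combination r ^ 2 * h1
  rw [e1, e2]
  have := mul_le_mul_of_nonneg_right hr (show 0 ≤ 2 - 2 * u.re by linarith)
  nlinarith [sq_nonneg (1 - r)]

end Crest.Agent.R006
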