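import Crest.Agent.R006.Defs
import Crest.Agent.R006.EnergyAux

set_option autoImplicit false

namespace Crest.Agent.R006

open Polynomial Finset Filter Topology ComplexConjugate

theorem en_norm_rho {s ρ : ℝ} (hs : |s| ≤ 1) (hρ : 0 ≤ ρ) : ‖(ρ : ℂ) * enXi s‖ = ρ := by
  rw [norm_mul, en_norm_xi hs, Complex.norm_real, Real.norm_of_nonneg hρ, mul_one]

theorem en_A {n : ℕ} (s ρ : Fin n → ℝ) (ε : ℝ) (h0 : 0 ≤ ε) (h1 : ε ≤ 1 / 2)
    (hs : ∀ i, |s i| ≤ 1) (inj : Function.Injective s) (hρ : ∀ i, 1 - ε ≤ ρ i)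
    (hρ' : ∀ i, ρ i < 1) :
    2 * pairSum (fun i j => Real.log |s j - s i|) + (Real.log 2 - 4 * ε) * ((n : ℝ) ^ 2 - n)
      + ∑ i, 2 * Real.log (1 - ρ i ^ 2) ≤
      enE (fun _ => 1) (fun i => (ρ i : ℂ) * enXi (s i)) (fun _ => 1)
        (fun i => (ρ i : ℂ) * enXi (s i)) := by
  have ρ0 : ∀ i, 0 ≤ ρ i := fun i => by linarith [hρ i]
  refine en_double_sum _ _ _ _ (fun i j => by rw [abs_sub_comm]) (fun i j hij => ?_) (fun i => ?_)
  · rw [one_mul, one_mul, enK]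
    have ht : 0 < 1 - ε := by linarith
    have hr : (1 - ε) ^ 2 ≤ ρ i * ρ j := by
      rw [sq]; exact mul_le_mul (hρ i) (hρ j) ht.le (ρ0 i)
    have n1 : ‖conj (enXi (s j)) * enXi (s i)‖ = 1 := by
      rw [norm_mul, Complex.norm_conj, en_norm_xi (hs _), en_norm_xi (hs _), mul_one]
    have n2 : ‖enXi (s j) * enXi (s i)‖ = 1 := by
      rw [norm_mul, en_norm_xi (hs _), en_norm_xi (hs _), mul_one]
    have a1 := en_shrink n1 ht.le hr
    have a2 := en_shrink n2 ht.le hr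
    have e1 : (ρ i : ℂ) * enXi (s i) * conj ((ρ j : ℂ) * enXi (s j)) =
        ((ρ i * ρ j : ℝ) : ℂ) * (conj (enXi (s j)) * enXi (s i)) := by
      rw [map_mul, Complex.conj_ofReal]; push_cast; ring
    have e2 : (ρ i : ℂ) * enXi (s i) * ((ρ j : ℂ) * enXi (s j)) =
        ((ρ i * ρ j : ℝ) : ℂ) * (enXi (s j) * enXi (s i)) := by push_cast; ring
    rw [e1, e2]
    have e3 : ‖1 - enXi (s j) * enXi (s i)‖ * ‖1 - conj (enXi (s j)) * enXi (s i)‖ =
        2 * |s j - s i| := by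
      have h1 : enXi (s i) * conj (enXi (s i)) = 1 := by
        rw [Complex.mul_conj, en_normSq_xi (hs i)]; simp
      have h2 : enXi (s i) + conj (enXi (s i)) = 2 * s i := by rw [Complex.add_conj]; simp [enXi]
      have h3 : 1 - 2 * (s j : ℂ) * enXi (s i) + enXi (s i) ^ 2 =
          enXi (s i) * ((-2 * (s j - s i) : ℝ) : ℂ) := by
        push_cast
        linear_combination -h1 + enXi (s i) * h2
      rw [← norm_mul, en_xi_mul (hs j), h3, norm_mul, en_norm_xi (hs i), one_mul,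
        Complex.norm_real, Real.norm_eq_abs, abs_mul]
      norm_num
    have hd : 0 < |s j - s i| := abs_pos.2 (sub_ne_zero.2 fun h => hij (inj h).symm)
    have p : 0 < ‖1 - enXi (s j) * enXi (s i)‖ * ‖1 - conj (enXi (s j)) * enXi (s i)‖ := by
      rw [e3]; positivity
    have p1 : 0 < ‖1 - enXi (s j) * enXi (s i)‖ :=
      (norm_nonneg _).lt_of_ne fun h => by rw [← h, zero_mul] at p; exact lt_irrefl _ p
    have p2 : 0 < ‖1 - conj (enXi (s j)) * enXi (s i)‖ :=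
      (norm_nonneg _).lt_of_ne fun h => by rw [← h, mul_zero] at p; exact lt_irrefl _ p
    have b1 := Real.log_le_log (mul_pos ht p2) a1
    have b2 := Real.log_le_log (mul_pos ht p1) a2
    rw [Real.log_mul ht.ne' p2.ne'] at b1
    rw [Real.log_mul ht.ne' p1.ne'] at b2
    have b3 := congrArg Real.log e3
    rw [Real.log_mul p1.ne' p2.ne', Real.log_mul two_ne_zero hd.ne'] at b3
    have b4 := en_log_one_sub h1 h0
    linarith
  · rw [one_mul, one_mul, enK]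
    have hp : 0 < 1 - ρ i ^ 2 := by nlinarith [ρ0 i, hρ' i]
    have key : ∀ w : ℂ, ‖w‖ = ρ i →
        Real.log (1 - ρ i ^ 2) ≤ Real.log ‖1 - (ρ i : ℂ) * enXi (s i) * w‖ := by
      intro w hw
      refine Real.log_le_log hp ?_
      have := norm_sub_norm_le (1 : ℂ) ((ρ i : ℂ) * enXi (s i) * w)
      rwa [norm_one, norm_mul, hw, en_norm_rho (hs i) (ρ0 i), ← sq] at this
    have k1 := key _ (en_norm_rho (hs i) (ρ0 i))
    have k2 := key (conj ((ρ i : ℂ) * enXi (s i)))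
      (by rw [Complex.norm_conj, en_norm_rho (hs i) (ρ0 i)])
    linarith

theorem en_B {n : ℕ} (l : List (ℚ × ℚ × ℚ)) (hl : ∀ c ∈ l, ‖zc c‖ < 1) (s ρ : Fin n → ℝ) (ε : ℝ)
    (h1 : ε ≤ 1 / 2) (hs : ∀ i, |s i| ≤ 1) (hρ : ∀ i, 1 - ε ≤ ρ i) (hρ' : ∀ i, ρ i < 1) :
    -(n * ∑ i, potC l (s i)) - (n : ℝ) ^ 2 * (ε * enLip l) ≤
      2 * enE (fun _ => 1) (fun i => (ρ i : ℂ) * enXi (s i))
        (fun c : Fin l.length => -((n : ℝ) / 2) * wt l[c.1]) (fun c => zc l[c.1]) := by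
  have ρ0 : ∀ i, 0 ≤ ρ i := fun i => by linarith [hρ i]
  have e : (n : ℝ) ^ 2 * (ε * enLip l) = ∑ _i : Fin n, n * (ε * enLip l) := by
    rw [sum_const, card_univ, Fintype.card_fin, nsmul_eq_mul]; ring
  rw [e, enE, mul_sum, mul_sum, ← sum_neg_distrib, ← sum_sub_distrib]
  refine sum_le_sum fun i _ => ?_
  have h := en_pot_perturb l hl (y := (ρ i : ℂ) * enXi (s i)) (y' := enXi (s i)) (δ := ε)
    (by rw [en_norm_rho (hs i) (ρ0 i)]; exact (hρ' i).le) (en_norm_xi (hs i)).le (by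
      have : (ρ i : ℂ) * enXi (s i) - enXi (s i) = -(((1 - ρ i : ℝ) : ℂ) * enXi (s i)) := by
        push_cast; ring
      rw [this, norm_neg, en_norm_rho (hs i) (by linarith [hρ' i])]
      linarith [hρ i])
  rw [← en_potC l hl (hs i)] at h
  have e2 : 2 * ∑ c : Fin l.length, 1 * (-((n : ℝ) / 2) * wt l[c.1]) *
      enK ((ρ i : ℂ) * enXi (s i)) (zc l[c.1]) =
      -n * ∑ c : Fin l.length, wt l[c.1] * enK ((ρ i : ℂ) * enXi (s i)) (zc l[c.1]) := by
    rw [mul_sum, mul_sum]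
    exact sum_congr rfl fun c _ => by ring
  rw [e2]
  have := mul_le_mul_of_nonneg_left (abs_le.1 h).2 (Nat.cast_nonneg (α := ℝ) n)
  linarith

theorem en_D {n : ℕ} (x : Fin n → ℝ) (ε : ℝ) (h0 : 0 < ε) (h1 : ε ≤ 1 / 2)
    (hx : ∀ i, x i ∈ Set.Ioo (-1 : ℝ) 1) :
    pairSum (fun i j => Real.log (1 - x i * x j)) - ε * ((n : ℝ) ^ 2 - n)
      + (1 / 2 * ∑ i, Real.log (1 - x i) + n * (Real.log ε / 2)) ≤
      enE (fun _ => -(1 / 2)) (fun i => ((x i + ε * (1 - x i) : ℝ) : ℂ)) (fun _ => -(1 / 2))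
        (fun i => ((x i + ε * (1 - x i) : ℝ) : ℂ)) := by
  have key : ∀ i j, ∀ t, 0 < t → t ≤ 1 - (x i + ε * (1 - x i)) * (x j + ε * (1 - x j)) →
      1 / 2 * Real.log t ≤ -(1 / 2) * -(1 / 2) *
        enK ((x i + ε * (1 - x i) : ℝ) : ℂ) ((x j + ε * (1 - x j) : ℝ) : ℂ) := by
    intro i j t ht h
    rw [en_K_real, ← Complex.ofReal_mul, ← Complex.ofReal_one, ← Complex.ofReal_sub,
      Complex.norm_real, Real.norm_of_nonneg (by linarith)]
    have := Real.log_le_log ht h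
    linarith
  have h := en_double_sum (n := n) (fun i j => -(1 / 2) * -(1 / 2) *
      enK ((x i + ε * (1 - x i) : ℝ) : ℂ) ((x j + ε * (1 - x j) : ℝ) : ℂ))
    (fun i j => 1 / 2 * Real.log (1 - x i * x j))
    (fun i => 1 / 2 * Real.log (1 - x i) + Real.log ε / 2) (-ε)
    (fun i j => by rw [mul_comm (x i)]) (fun i j _ => ?_) (fun i => ?_)
  · have e : 2 * pairSum (fun i j => 1 / 2 * Real.log (1 - x i * x j)) =
        pairSum (fun i j => Real.log (1 - x i * x j)) := by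
      simp only [pairSum, ← mul_sum]; ring
    rw [e, sum_add_distrib, ← mul_sum, sum_const, card_univ, Fintype.card_fin, nsmul_eq_mul] at h
    rw [enE]
    linarith
  · obtain ⟨a1, a2⟩ := hx i
    obtain ⟨b1, b2⟩ := hx j
    have p : 0 < 1 - x i * x j := by nlinarith
    have ht : 0 < 1 - ε := by linarith
    have := key i j ((1 - ε) * (1 - x i * x j)) (mul_pos ht p) (by
      have := mul_nonneg (mul_nonneg h0.le ht.le)
        (mul_nonneg (sub_nonneg.2 a2.le) (sub_nonneg.2 b2.le))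
      nlinarith)
    rw [Real.log_mul ht.ne' p.ne'] at this
    have b4 := en_log_one_sub h1 h0.le
    linarith
  · obtain ⟨a1, a2⟩ := hx i
    have p : 0 < 1 - x i := by linarith
    have := key i i (ε * (1 - x i)) (mul_pos h0 p) (by
      have e : 1 - (x i + ε * (1 - x i)) * (x i + ε * (1 - x i)) =
          ((1 - ε) * (2 - (1 - ε) * (1 - x i))) * (1 - x i) := by ring
      rw [e]
      refine mul_le_mul_of_nonneg_right ?_ p.le
      have q1 : (1 - ε) * (1 - x i) ≤ (1 - ε) * 2 :=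
        mul_le_mul_of_nonneg_left (by linarith) (by linarith)
      nlinarith)
    rw [Real.log_mul h0.ne' p.ne'] at this
    linarith

theorem en_E {n : ℕ} (x s : Fin n → ℝ) (ε : ℝ) (h0 : 0 < ε) (h1 : ε ≤ 1 / 2)
    (hx : ∀ i, x i ∈ Set.Ioo (-1 : ℝ) 1) (hs : ∀ j, s j ∈ Set.Ioo (0 : ℝ) 1) :
    -(∑ i, ∑ j, Real.log (1 - 2 * x i * s j + x i ^ 2)) - 6 * ε * (n : ℝ) ^ 2 ≤
      2 * enE (fun _ => -(1 / 2)) (fun i => ((x i + ε * (1 - x i) : ℝ) : ℂ)) (fun _ => 1)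
        (fun j => ((1 - ε * √(1 - s j ^ 2) : ℝ) : ℂ) * enXi (s j)) := by
  have e : 6 * ε * (n : ℝ) ^ 2 = ∑ _i : Fin n, ∑ _j : Fin n, 6 * ε := by
    simp only [sum_const, card_univ, Fintype.card_fin, nsmul_eq_mul]; ring
  rw [e, enE, mul_sum, ← sum_neg_distrib, ← sum_sub_distrib]
  refine sum_le_sum fun i _ => ?_
  rw [mul_sum, ← sum_neg_distrib, ← sum_sub_distrib]
  refine sum_le_sum fun j _ => ?_
  obtain ⟨a1, a2⟩ := hx i
  obtain ⟨b1, b2⟩ := hs j
  have hs1 : |s j| ≤ 1 := abs_le.2 ⟨by linarith, b2.le⟩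
  set σ := √(1 - s j ^ 2) with hσ
  have σ0 : 0 ≤ σ := Real.sqrt_nonneg _
  have σ2 : σ * σ = 1 - s j ^ 2 := en_sq_sqrt hs1
  have σ1 : σ ≤ 1 := by nlinarith
  set N := ‖1 - (x i : ℂ) * enXi (s j)‖ with hN
  have N0 : 0 ≤ N := norm_nonneg _
  have N2 : N ^ 2 = 1 - 2 * x i * s j + x i ^ 2 := by
    rw [hN, Complex.sq_norm, Complex.normSq_apply]
    simp only [Complex.sub_re, Complex.one_re, Complex.sub_im, Complex.one_im, Complex.mul_re,
      Complex.ofReal_re, Complex.ofReal_im, Complex.mul_im, enXi, ← hσ]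
    linear_combination x i ^ 2 * σ2
  have l1 : σ ≤ N := by
    refine (abs_le_of_sq_le_sq' ?_ N0).2
    rw [N2]; nlinarith [sq_nonneg (x i - s j)]
  have l2 : (1 - x i) / 2 ≤ N := by
    refine (abs_le_of_sq_le_sq' ?_ N0).2
    rw [N2]
    rcases le_total 0 (x i) with h | h
    · nlinarith [mul_nonneg h (sub_nonneg.2 b2.le), sq_nonneg (1 - x i)]
    · nlinarith [mul_nonneg (neg_nonneg.2 h) b1.le, sq_nonneg (1 + x i)]
  have Npos : 0 < N := by linarith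
  set x' : ℝ := x i + ε * (1 - x i) with hx'
  have x1 : |x'| ≤ 1 := by rw [abs_le]; constructor <;> nlinarith
  have hρ : 0 ≤ 1 - ε * σ := by nlinarith
  have σpos : 0 < σ := Real.sqrt_pos.2 (by nlinarith)
  have pos : 0 < ‖1 - (x' : ℂ) * (((1 - ε * σ : ℝ) : ℂ) * enXi (s j))‖ :=
    en_one_sub_pos (en_norm_mul_lt (by rwa [Complex.norm_real]) (by
      rw [en_norm_rho hs1 hρ]; nlinarith))
  have up : ‖1 - (x' : ℂ) * (((1 - ε * σ : ℝ) : ℂ) * enXi (s j))‖ ≤ (1 + 3 * ε) * N := by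
    have e : 1 - (x' : ℂ) * (((1 - ε * σ : ℝ) : ℂ) * enXi (s j)) =
        (1 - (x i : ℂ) * enXi (s j)) + ((x' * (ε * σ) - ε * (1 - x i) : ℝ) : ℂ) * enXi (s j) := by
      rw [hx']; push_cast; ring
    rw [e]
    refine (norm_add_le _ _).trans ?_
    rw [norm_mul, en_norm_xi hs1, mul_one, Complex.norm_real, Real.norm_eq_abs, ← hN]
    have q1 : |x' * (ε * σ) - ε * (1 - x i)| ≤ ε * σ + ε * (1 - x i) := by
      refine (abs_sub _ _).trans ?_
      rw [abs_mul, abs_of_nonneg (mul_nonneg h0.le σ0),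
        abs_of_nonneg (mul_nonneg h0.le (by linarith : 0 ≤ 1 - x i))]
      have := mul_le_of_le_one_left (mul_nonneg h0.le σ0) x1
      linarith
    have q2 := mul_le_mul_of_nonneg_left l1 h0.le
    have q3 := mul_le_mul_of_nonneg_left l2 h0.le
    linarith
  have b1 := Real.log_le_log pos up
  rw [Real.log_mul (by linarith) Npos.ne'] at b1
  have b2 := Real.log_le_sub_one_of_pos (show 0 < 1 + 3 * ε by linarith)
  rw [en_K_real, ← N2, Real.log_pow]
  push_cast at b1 ⊢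
  linarith

theorem en_F {n : ℕ} (l : List (ℚ × ℚ × ℚ)) (hl : ∀ c ∈ l, ‖zc c‖ < 1) (x : Fin n → ℝ) (ε : ℝ)
    (h0 : 0 < ε) (h1 : ε ≤ 1 / 2) (hx : ∀ i, x i ∈ Set.Ioo (-1 : ℝ) 1) :
    n * ∑ i, potL l (x i) - (n : ℝ) ^ 2 * (ε * enLip l) ≤
      2 * enE (fun _ => -(1 / 2)) (fun i => ((x i + ε * (1 - x i) : ℝ) : ℂ))
        (fun c : Fin l.length => -((n : ℝ) / 2) * wt l[c.1]) (fun c => zc l[c.1]) := by
  have e : (n : ℝ) ^ 2 * (ε * enLip l) = ∑ _i : Fin n, n * (ε * enLip l) := by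
    rw [sum_const, card_univ, Fintype.card_fin, nsmul_eq_mul]; ring
  rw [e, enE, mul_sum, mul_sum, ← sum_sub_distrib]
  refine sum_le_sum fun i _ => ?_
  obtain ⟨a1, a2⟩ := hx i
  have h := en_pot_perturb l hl (y := ((x i + ε * (1 - x i) : ℝ) : ℂ)) (y' := (x i : ℂ))
    (δ := 2 * ε)
    (by rw [Complex.norm_real, Real.norm_eq_abs, abs_le]; constructor <;> nlinarith)
    (by rw [Complex.norm_real, Real.norm_eq_abs, abs_le]; constructor <;> linarith) (by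
      rw [← Complex.ofReal_sub, Complex.norm_real, Real.norm_eq_abs, abs_le]
      constructor <;> nlinarith)
  rw [← en_potL l (x i)] at h
  have e2 : 2 * ∑ c : Fin l.length, -(1 / 2) * (-((n : ℝ) / 2) * wt l[c.1]) *
      enK ((x i + ε * (1 - x i) : ℝ) : ℂ) (zc l[c.1]) =
      n / 2 * ∑ c : Fin l.length, wt l[c.1] * enK ((x i + ε * (1 - x i) : ℝ) : ℂ) (zc l[c.1]) := by
    rw [mul_sum, mul_sum]
    exact sum_congr rfl fun c _ => by ring
  rw [e2]
  have := mul_le_mul_of_nonneg_left (abs_le.1 h).1 (Nat.cast_nonneg (α := ℝ) n)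
  linarith

/-- The energy inequality, linearised at the trial charges `lX`, `lS`. -/
theorem energy_le (lX lS : List (ℚ × ℚ × ℚ)) (hX : ∀ c ∈ lX, ‖zc c‖ < 1) (hS : ∀ c ∈ lS, ‖zc c‖ < 1)
    (η : ℝ) (hη : 0 < η) : ∃ C₀ : ℝ, ∀ (n : ℕ) (x s : Fin n → ℝ),
      (∀ i, x i ∈ Set.Ioo (-1 : ℝ) 1) → (∀ j, s j ∈ Set.Ioo (0 : ℝ) 1) →
      Function.Injective x → Function.Injective s →
      2 * pairSum (fun i j => Real.log |x j - x i|) + pairSum (fun i j => Real.log (1 - x i * x j))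
        + 2 * pairSum (fun i j => Real.log |s j - s i|)
        - ∑ i, ∑ j, Real.log (1 - 2 * x i * s j + x i ^ 2) ≤
      -2 * (n : ℝ) ^ 2 * Real.log 2
        + n * ∑ i, (potC lX (x i) - potL lS (x i)) + n * ∑ j, potC lS (s j)
        - (n : ℝ) ^ 2 / 2 * (quadQ lX + quadQ lS)
        - 1 / 2 * ∑ i, Real.log (1 - x i) - ∑ j, Real.log (1 - s j)
        + η * (n : ℝ) ^ 2 + C₀ * n := by
  have LX := en_Lip_nonneg lX hX
  have LS := en_Lip_nonneg lS hS
  obtain ⟨ε, h0, h1, h2⟩ : ∃ ε : ℝ, 0 < ε ∧ ε ≤ 1 / 2 ∧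
      ε * (15 + enLip lX + 2 * enLip lS) ≤ η :=
    ⟨min (1 / 2) (η / (15 + enLip lX + 2 * enLip lS)), by positivity, min_le_left _ _,
      (le_div_iff₀ (by positivity)).1 (min_le_right _ _)⟩
  refine ⟨2 * Real.log 2 - 9 / 2 * Real.log ε, fun n x s hx hs ix is => ?_⟩
  have hx1 : ∀ i, |x i| ≤ 1 := fun i => abs_le.2 ⟨(hx i).1.le, (hx i).2.le⟩
  have hs1 : ∀ j, |s j| ≤ 1 := fun j => abs_le.2 ⟨by linarith [(hs j).1], (hs j).2.le⟩
  have σpos : ∀ j, 0 < √(1 - s j ^ 2) := fun j =>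
    Real.sqrt_pos.2 (by nlinarith [(hs j).1, (hs j).2])
  have σ1 : ∀ j, √(1 - s j ^ 2) ≤ 1 := fun j =>
    Real.sqrt_le_one.2 (by nlinarith [sq_nonneg (s j)])
  have r1 : ∀ j, 1 - ε ≤ 1 - ε * √(1 - s j ^ 2) := fun j => by nlinarith [σ1 j]
  have r2 : ∀ j, 1 - ε * √(1 - s j ^ 2) < 1 := fun j => by nlinarith [σpos j]
  have AX := en_A x (fun _ => 1 - ε) ε h0.le h1 hx1 ix (fun _ => le_rfl) (fun _ => by linarith)
  have BX := en_B lX hX x (fun _ => 1 - ε) ε h1 hx1 (fun _ => le_rfl) (fun _ => by linarith)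
  have PX := en_psd2 (fun _ => 1) (fun i => ((1 - ε : ℝ) : ℂ) * enXi (x i))
    (fun c : Fin lX.length => -((n : ℝ) / 2) * wt lX[c.1]) (fun c => zc lX[c.1])
    (fun i => by rw [en_norm_rho (hx1 i) (by linarith)]; linarith)
    (fun c => hX _ (List.getElem_mem c.2))
  have AS := en_A s (fun j => 1 - ε * √(1 - s j ^ 2)) ε h0.le h1 hs1 is r1 r2
  have BS := en_B lS hS s (fun j => 1 - ε * √(1 - s j ^ 2)) ε h1 hs1 r1 r2
  have DS := en_D x ε h0 h1 hx
  have ES := en_E x s ε h0 h1 hx hs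
  have FS := en_F lS hS x ε h0 h1 hx
  have PS := en_psd3 (fun _ => 1) (fun j => ((1 - ε * √(1 - s j ^ 2) : ℝ) : ℂ) * enXi (s j))
    (fun _ => -(1 / 2)) (fun i => ((x i + ε * (1 - x i) : ℝ) : ℂ))
    (fun c : Fin lS.length => -((n : ℝ) / 2) * wt lS[c.1]) (fun c => zc lS[c.1])
    (fun j => by rw [en_norm_rho (hs1 j) (by linarith [r1 j])]; exact r2 j)
    (fun i => by
      rw [Complex.norm_real, Real.norm_eq_abs, abs_lt]
      constructor <;> nlinarith [(hx i).1, (hx i).2])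
    (fun c => hS _ (List.getElem_mem c.2))
  rw [en_quadQ] at PX PS
  have dX : n * (2 * Real.log ε) ≤ ∑ _i : Fin n, 2 * Real.log (1 - (1 - ε) ^ 2) := by
    rw [sum_const, card_univ, Fintype.card_fin, nsmul_eq_mul]
    have := Real.log_le_log h0 (show ε ≤ 1 - (1 - ε) ^ 2 by nlinarith)
    gcongr
  have dS : n * (2 * Real.log ε) + ∑ j, Real.log (1 - s j) ≤
      ∑ j, 2 * Real.log (1 - (1 - ε * √(1 - s j ^ 2)) ^ 2) := by
    have e : n * (2 * Real.log ε) = ∑ _j : Fin n, 2 * Real.log ε := by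
      rw [sum_const, card_univ, Fintype.card_fin, nsmul_eq_mul]
    rw [e, ← sum_add_distrib]
    refine sum_le_sum fun j _ => ?_
    have q0 := mul_pos h0 (σpos j)
    have q1 := Real.log_le_log q0 (show ε * √(1 - s j ^ 2) ≤ 1 - (1 - ε * √(1 - s j ^ 2)) ^ 2 by
      nlinarith [r1 j])
    rw [Real.log_mul h0.ne' (σpos j).ne', Real.log_sqrt (by nlinarith [(hs j).1, (hs j).2])] at q1
    have q2 := Real.log_le_log (show 0 < 1 - s j by linarith [(hs j).2])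
      (show 1 - s j ≤ 1 - s j ^ 2 by nlinarith [(hs j).1, (hs j).2])
    linarith
  have n0 : (0 : ℝ) ≤ n := Nat.cast_nonneg n
  have f1 := mul_le_mul_of_nonneg_left h2 (sq_nonneg (n : ℝ))
  have f2 := mul_nonneg h0.le n0
  rw [sum_sub_distrib]
  linarith

end Crest.Agent.R006
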