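import Crest.Agent.R006.Poly

set_option autoImplicit false

namespace Crest.Agent.R006

open Polynomial Finset Filter Topology

theorem cc_two_mul (k : ℕ) : cc (2 * k) = (Nat.centralBinom k : ℚ) / 4 ^ k := by
  induction k with
  | zero => simp [cc]
  | succ k ih =>
    have h : ((k : ℚ) + 1) * (Nat.centralBinom (k + 1) : ℚ) =
        2 * (2 * k + 1) * (Nat.centralBinom k : ℚ) := by
      exact_mod_cast Nat.succ_mul_centralBinom_succ k
    have hk : (k : ℚ) + 1 ≠ 0 := by positivity
    have h' : (Nat.centralBinom (k + 1) : ℚ) =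
        2 * (2 * k + 1) * (Nat.centralBinom k : ℚ) / (k + 1) := by
      rw [eq_div_iff hk]; linear_combination h
    rw [show 2 * (k + 1) = 2 * k + 2 by ring, cc, ih, h']
    push_cast
    field_simp
    ring

theorem cc_two_mul_add_one (k : ℕ) : cc (2 * k + 1) = 0 := by
  induction k with
  | zero => simp [cc]
  | succ k ih => rw [show 2 * (k + 1) + 1 = 2 * k + 1 + 2 by ring, cc, ih, mul_zero]

/-- Coefficients of `∫ -2 log(1-x) / (x √(1-x²))`. -/
def YY (b : ℕ) : ℚ := 2 / (b : ℚ) * ∑ l ∈ Icc 1 b, cc (b - l) / (l : ℚ)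

/-- Coefficients of `2 ∫ arcsin(x)/x + 2 ∫ log(1-x)/√(1-x²)`. -/
def XX (b : ℕ) : ℚ :=
  2 * cc (b - 1) / (b : ℚ) ^ 2 - 2 / (b : ℚ) * ∑ l ∈ Ico 1 b, cc (b - 1 - l) / (l : ℚ)

theorem series_coeff_mul (W : ℕ → ℚ) (k : ℕ) :
    PowerSeries.coeff k (PowerSeries.mk cc * PowerSeries.mk W) =
      ∑ b ∈ range (k + 1), cc (k - b) * W b := by
  rw [mul_comm, PowerSeries.coeff_mul, Nat.sum_antidiagonal_eq_sum_range_succ
    (fun a b => PowerSeries.coeff a (PowerSeries.mk W) * PowerSeries.coeff b (PowerSeries.mk cc))]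
  simp only [PowerSeries.coeff_mk]
  exact sum_congr rfl fun b _ => mul_comm _ _

theorem series_coeff_mul' (W : ℕ → ℚ) (hW : W 0 = 0) (k : ℕ) :
    PowerSeries.coeff k (PowerSeries.mk cc * PowerSeries.mk W) =
      ∑ b ∈ Icc 1 k, cc (k - b) * W b := by
  rw [series_coeff_mul]
  symm
  apply sum_subset
  · intro b hb; rw [Finset.mem_Icc] at hb; rw [Finset.mem_range]; omega
  · intro b hb hb'
    rw [Finset.mem_Icc] at hb'; rw [Finset.mem_range] at hb
    rw [show b = 0 by omega, hW, mul_zero]

theorem series_general (W R a : ℕ → ℚ) (hW : W 0 = 0)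
    (hd : PowerSeries.derivative ℚ (PowerSeries.mk W) = PowerSeries.mk cc * PowerSeries.mk R)
    (h0 : a 0 = 0) (h1 : a 1 = R 0)
    (h2 : ∀ k : ℕ, ((k : ℚ) + 2) * a (k + 2) = ((k : ℚ) + 1) * a k + R (k + 1)) :
    PowerSeries.mk a = PowerSeries.mk cc * PowerSeries.mk W := by
  set A := PowerSeries.mk cc * PowerSeries.mk W with hA
  have hode : (1 - PowerSeries.X ^ 2) * PowerSeries.derivative ℚ A =
      PowerSeries.X * A + PowerSeries.mk R := by
    rw [hA, Derivation.leibniz, hd]
    simp only [smul_eq_mul]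
    linear_combination PowerSeries.mk W * poly_cc_ode + PowerSeries.mk R * poly_cc_sq
  have hc : ∀ n, PowerSeries.coeff n ((1 - PowerSeries.X ^ 2) * PowerSeries.derivative ℚ A) =
      PowerSeries.coeff n (PowerSeries.X * A + PowerSeries.mk R) := fun n => by rw [hode]
  ext n
  rw [PowerSeries.coeff_mk]
  induction n using Nat.twoStepInduction with
  | zero => rw [hA, series_coeff_mul]; simp [h0, hW]
  | one =>
    have := hc 0
    rw [sub_mul, one_mul, map_sub, PowerSeries.coeff_X_pow_mul', if_neg (by omega),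
      PowerSeries.coeff_derivative, map_add, PowerSeries.coeff_zero_X_mul,
      PowerSeries.coeff_mk] at this
    rw [h1]
    simp only [zero_add, Nat.cast_zero, mul_one, sub_zero] at this
    exact this.symm
  | more k ih _ =>
    have := hc (k + 1)
    rw [sub_mul, one_mul, map_sub, PowerSeries.coeff_X_pow_mul',
      PowerSeries.coeff_derivative, map_add, PowerSeries.coeff_succ_X_mul,
      PowerSeries.coeff_mk] at this
    have hk : (k : ℚ) + 2 ≠ 0 := by positivity
    apply mul_left_cancel₀ hk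
    rw [h2, ih]
    rcases k with _ | k
    · rw [if_neg (by omega)] at this
      push_cast at this ⊢
      linear_combination -this
    · rw [if_pos (by omega), PowerSeries.coeff_derivative,
        show k + 1 + 1 - 2 = k by omega] at this
      push_cast at this ⊢
      linear_combination -this

theorem series_aa_rec (k : ℕ) : ((k : ℚ) + 2) * aa (k + 2) = ((k : ℚ) + 1) * aa k := by
  have : (k : ℚ) + 2 ≠ 0 := by positivity
  rw [aa]; field_simp

theorem series_aa : PowerSeries.mk aa =
    PowerSeries.mk cc * PowerSeries.mk fun b : ℕ => 2 * cc (b - 1) / (b : ℚ) := by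
  refine series_general _ (fun n => if n = 0 then 2 else 0) aa (by simp) ?_ rfl (by simp [aa]) ?_
  · ext n
    rw [PowerSeries.coeff_derivative, series_coeff_mul, PowerSeries.coeff_mk]
    have : (n : ℚ) + 1 ≠ 0 := by positivity
    simp only [mul_ite, mul_zero, sum_ite_eq', Finset.mem_range, Nat.zero_lt_succ, if_true,
      Nat.add_sub_cancel, Nat.sub_zero]
    push_cast
    field_simp
  · intro k
    simp [series_aa_rec]

theorem aa_eq (k : ℕ) : aa k = ∑ b ∈ Icc 1 k, cc (k - b) * (2 * cc (b - 1) / (b : ℚ)) := by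
  rw [← series_coeff_mul' (fun b : ℕ => 2 * cc (b - 1) / (b : ℚ)) (by simp), ← series_aa,
    PowerSeries.coeff_mk]

theorem series_sum_Icc (f : ℕ → ℚ) (n : ℕ) :
    ∑ l ∈ Icc 1 n, f l = ∑ l ∈ range n, f (l + 1) := by
  rw [Finset.range_eq_Ico, Finset.sum_Ico_add' f 0 n 1]
  rfl

theorem yy_eq (k : ℕ) : yy k = ∑ b ∈ Icc 1 k, cc (k - b) * YY b := by
  have : PowerSeries.mk yy = PowerSeries.mk cc * PowerSeries.mk YY := by
    refine series_general _ (fun n => 2 / ((n : ℚ) + 1)) yy (by simp [YY]) ?_ rfl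
      (by simp [yy]) ?_
    · ext n
      rw [PowerSeries.coeff_derivative, series_coeff_mul, PowerSeries.coeff_mk, YY,
        series_sum_Icc]
      have : (n : ℚ) + 1 ≠ 0 := by positivity
      push_cast
      rw [mul_right_comm, div_mul_cancel₀ _ this, mul_sum]
      refine sum_congr rfl fun b _ => ?_
      ring
    · intro k
      have : (k : ℚ) + 2 ≠ 0 := by positivity
      rw [yy, mul_div_cancel₀ _ this]
      push_cast
      rw [add_assoc (k : ℚ) 1 1, one_add_one_eq_two]
  rw [← series_coeff_mul' YY (by simp [YY]), ← this, PowerSeries.coeff_mk]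

theorem series_kappa :
    PowerSeries.mk cc * PowerSeries.mk (fun l : ℕ => if l = 0 then 2 else -aa (l + 1) / (l : ℚ)) =
      PowerSeries.mk fun n : ℕ => 2 * cc n / ((n : ℚ) + 1) := by
  set V : PowerSeries ℚ := PowerSeries.mk fun n : ℕ => 2 * cc n / ((n : ℚ) + 1) with hV
  have h1 : (PowerSeries.mk fun b : ℕ => 2 * cc (b - 1) / (b : ℚ)) = PowerSeries.X * V := by
    ext n
    rcases n with _ | n
    · simp
    · rw [PowerSeries.coeff_succ_X_mul, hV, PowerSeries.coeff_mk, PowerSeries.coeff_mk]
      simp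
  have h2 : (PowerSeries.mk fun n => aa (n + 1)) = PowerSeries.mk cc * V := by
    ext n
    have := congrArg (PowerSeries.coeff (n + 1)) series_aa
    rw [h1, mul_left_comm, PowerSeries.coeff_succ_X_mul, PowerSeries.coeff_mk] at this
    rw [PowerSeries.coeff_mk, this]
  have h3 : PowerSeries.mk (fun l : ℕ => if l = 0 then 2 else -aa (l + 1) / (l : ℚ)) =
      (1 - PowerSeries.X ^ 2) * PowerSeries.mk fun n => aa (n + 1) := by
    ext n
    rw [sub_mul, one_mul, map_sub, PowerSeries.coeff_X_pow_mul']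
    simp only [PowerSeries.coeff_mk]
    rcases n with _ | _ | n
    · simp [aa]
    · simp [aa]
    · rw [if_neg (by omega), if_pos (by omega), show n + 1 + 1 - 2 + 1 = n + 1 by omega]
      have := series_aa_rec (n + 1)
      have hn : (n : ℚ) + 1 + 1 ≠ 0 := by positivity
      push_cast at this ⊢
      rw [div_eq_iff hn, show n + 1 + 1 + 1 = n + 1 + 2 by omega]
      linear_combination -this
  rw [h3, h2]
  linear_combination V * poly_cc_sq

theorem sg_eq (k : ℕ) : sg k = ∑ b ∈ Icc 1 k, cc (k - b) * XX b := by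
  have : PowerSeries.mk sg = PowerSeries.mk cc * PowerSeries.mk XX := by
    refine series_general _
      (fun l => (if l = 0 then 2 else -aa (l + 1) / (l : ℚ)) + -2 / (l : ℚ)) sg (by simp [XX]) ?_ rfl
      (by simp [sg]) ?_
    · have hsplit : (PowerSeries.mk fun l : ℕ =>
          (if l = 0 then 2 else -aa (l + 1) / (l : ℚ)) + -2 / (l : ℚ)) =
          PowerSeries.mk (fun l : ℕ => if l = 0 then 2 else -aa (l + 1) / (l : ℚ)) +
            PowerSeries.mk (fun l : ℕ => -2 / (l : ℚ)) := by
        ext n; simp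
      rw [hsplit, mul_add, series_kappa]
      ext n
      rw [PowerSeries.coeff_derivative, map_add, series_coeff_mul' _ (by simp),
        PowerSeries.coeff_mk, PowerSeries.coeff_mk, XX]
      have : (n : ℚ) + 1 ≠ 0 := by positivity
      have hI : Ico 1 (n + 1) = Icc 1 n := rfl
      rw [hI]
      push_cast
      have hs : ∑ b ∈ Icc 1 n, cc (n - b) * (-2 / (b : ℚ)) =
          -2 * ∑ l ∈ Icc 1 n, cc (n - l) / (l : ℚ) := by
        rw [mul_sum]; exact sum_congr rfl fun b _ => by ring
      rw [hs]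
      field_simp
      ring
    · intro k
      have : (k : ℚ) + 2 ≠ 0 := by positivity
      rw [sg, mul_div_cancel₀ _ this, if_neg (by omega)]
      push_cast
      ring
  rw [← series_coeff_mul' XX (by simp [XX]), ← this, PowerSeries.coeff_mk]

end Crest.Agent.R006
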