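import Crest.Agent.R006.Poly
import Crest.Agent.R006.Series

set_option autoImplicit false

namespace Crest.Agent.R006

open Polynomial Finset Filter Topology

variable {p : ℕ} [Fact p.Prime]

/-- Reduction of integer polynomials modulo `p`. -/
noncomputable abbrev redP (p : ℕ) (P : ℤ[X]) : (ZMod p)[X] := P.map (Int.castRingHom (ZMod p))

/-- `β_e = X^(p-e) * pb e`, of degree `< p` and order exactly `p - e` for `1 ≤ e ≤ p`. -/
noncomputable def betaP (p e : ℕ) : (ZMod p)[X] := X ^ (p - e) * redP p (pb e)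

theorem frob_two_ne_zero (hp : p ≠ 2) (K : Type*) [Field K] [CharP K p] : (2 : K) ≠ 0 := by
  intro h
  have h2 : ((2 : ℕ) : K) = 0 := by exact_mod_cast h
  rw [CharP.cast_eq_zero_iff K p] at h2
  exact hp ((Nat.prime_dvd_prime_iff_eq (Fact.out) Nat.prime_two).1 h2)

theorem frob_ext (hp : p ≠ 2) (P Q : (ZMod p)[X])
    (h : ∀ w : AlgebraicClosure (ZMod p), w ≠ 0 → 1 + w ^ 2 ≠ 0 → 1 - w ^ 2 ≠ 0 →
      aeval (2 * w / (1 + w ^ 2)) P = aeval (2 * w / (1 + w ^ 2)) Q) : P = Q := by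
  let K := AlgebraicClosure (ZMod p)
  have h2 : (2 : K) ≠ 0 := frob_two_ne_zero hp K
  have key : ((P - Q) * (X * (1 - X ^ 2))).map (algebraMap (ZMod p) K) = 0 := by
    apply Polynomial.funext
    intro t
    rw [eval_map_algebraMap, eval_zero]
    simp only [map_mul, map_sub, map_pow, map_one, aeval_X]
    by_cases ht : t = 0
    · simp [ht]
    by_cases ht2 : 1 - t ^ 2 = 0
    · simp [ht2]
    obtain ⟨w, hw⟩ := IsAlgClosed.exists_root (C t * X ^ 2 + C (-2) * X + C t : K[X])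
      (by rw [degree_quadratic ht]; norm_num)
    have hw' : t * w ^ 2 - 2 * w + t = 0 := by
      have := hw.eq_zero
      simp only [eval_add, eval_mul, eval_C, eval_pow, eval_X] at this
      linear_combination this
    have hw0 : w ≠ 0 := by
      rintro rfl
      apply ht; simpa using hw'
    have hw1 : 1 + w ^ 2 ≠ 0 := by
      intro h1
      have : 2 * w = 0 := by linear_combination t * h1 - hw'
      exact mul_ne_zero h2 hw0 this
    have htw : t = 2 * w / (1 + w ^ 2) := by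
      rw [eq_div_iff hw1]; linear_combination hw'
    have hw2 : 1 - w ^ 2 ≠ 0 := by
      intro h1
      apply ht2
      have h3 : (1 + w ^ 2) ^ 2 * (1 - t ^ 2) = 0 := by
        linear_combination (1 - w ^ 2) * h1 - (t * w ^ 2 + 2 * w + t) * hw'
      exact (mul_eq_zero.1 h3).resolve_left (pow_ne_zero _ hw1)
    have := h w hw0 hw1 hw2
    rw [← htw] at this
    rw [this]; simp
  rw [Polynomial.map_eq_zero_iff (algebraMap (ZMod p) K).injective] at key
  rcases mul_eq_zero.1 key with h1 | h1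
  · exact sub_eq_zero.1 h1
  · exfalso
    have := congrArg (fun R : (ZMod p)[X] => R.coeff 1) h1
    simp [coeff_X_mul, coeff_one, coeff_X_pow] at this

theorem frob_aeval_redP {K : Type*} [Field K] [Algebra (ZMod p) K] (t : K) (P : ℤ[X]) :
    aeval t (redP p P) = aeval t P := by
  exact aeval_map_algebraMap (ZMod p) t P

theorem frob_t_pow {K : Type*} [Field K] [CharP K p] (w : K) :
    (2 * w / (1 + w ^ 2)) ^ p = 2 * w ^ p / (1 + (w ^ p) ^ 2) := by
  have h2 : (2 : K) ^ p = 2 := by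
    rw [← one_add_one_eq_two, add_pow_char, one_pow]
  rw [div_pow, mul_pow, h2, add_pow_char, one_pow, ← pow_mul, ← pow_mul, mul_comm 2 p]

theorem frob_one_add {K : Type*} [Field K] [CharP K p] (w : K) :
    (1 + w ^ 2) ^ p = 1 + (w ^ p) ^ 2 := by
  rw [add_pow_char, one_pow, ← pow_mul, ← pow_mul, mul_comm 2 p]

theorem frob_one_sub {K : Type*} [Field K] [CharP K p] (w : K) :
    (1 - w ^ 2) ^ p = 1 - (w ^ p) ^ 2 := by
  rw [sub_pow_char, one_pow, ← pow_mul, ← pow_mul, mul_comm 2 p]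

theorem frob_beta_eval {K : Type*} [Field K] [Algebra (ZMod p) K] (e : ℕ) (he : e ≤ p) (w : K)
    (hw : w ≠ 0) (h1 : 1 + w ^ 2 ≠ 0) :
    2 * ((1 - w ^ 2) / (1 + w ^ 2)) * aeval (2 * w / (1 + w ^ 2)) (betaP p e) =
      (2 * w / (1 + w ^ 2)) ^ p * ((w ^ e)⁻¹ - w ^ e) := by
  set t := 2 * w / (1 + w ^ 2) with ht
  have hs : t * w + t * w⁻¹ = 2 := by rw [ht]; field_simp; ring
  have hp : t * w * (t * w⁻¹) = t ^ 2 := by field_simp
  have hd : t * w⁻¹ - t * w = 2 * ((1 - w ^ 2) / (1 + w ^ 2)) := by rw [ht]; field_simp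
  have key := poly_pb_eval t _ _ hs hp e
  have hc : t ^ p = t ^ (p - e) * t ^ e := by rw [← pow_add]; congr 1; omega
  unfold betaP
  rw [map_mul, map_pow, aeval_X, frob_aeval_redP, ← hd, mul_left_comm, key, hc, ← inv_pow]
  ring

theorem frob_alphaP_eval {K : Type*} [Field K] [Algebra (ZMod p) K] [CharP K p]
    (hp : p ≠ 2) (c e : ℕ) (v : ℤ) (he : e < p) (hv : v.natAbs ≤ c)
    (hv' : (v + 1).natAbs ≤ c) (hu : ((e : ℤ) + p * v).natAbs ≤ c * p)
    (w : K) (hw : w ≠ 0) (h1 : 1 + w ^ 2 ≠ 0) (h2 : 1 - w ^ 2 ≠ 0) :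
    aeval (2 * w / (1 + w ^ 2)) (redP p (alphaP (c * p) (e + p * v)) * (1 - X ^ 2) ^ (p / 2)) =
      aeval (2 * w / (1 + w ^ 2)) (betaP p (p - e) * expand (ZMod p) p (redP p (alphaP c v)) +
        betaP p e * expand (ZMod p) p (redP p (alphaP c (v + 1)))) := by
  have htwo : (2 : K) ≠ 0 := frob_two_ne_zero hp K
  have hW : w ^ p ≠ 0 := pow_ne_zero _ hw
  have hW1 : 1 + (w ^ p) ^ 2 ≠ 0 := by rw [← frob_one_add]; exact pow_ne_zero _ h1
  simp only [map_mul, map_add, map_pow, map_sub, map_one, aeval_X, expand_aeval, frob_aeval_redP]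
  have hA := alphaP_eval (c * p) (e + p * v) hu w hw h1
  have hB := alphaP_eval c v hv (w ^ p) hW hW1
  have hC := alphaP_eval c (v + 1) hv' (w ^ p) hW hW1
  have hb1 := frob_beta_eval (p := p) (p - e) (by omega) w hw h1
  have hb2 := frob_beta_eval (p := p) e he.le w hw h1
  have hT := frob_t_pow (p := p) w
  rw [← hT] at hB hC
  set t := 2 * w / (1 + w ^ 2) with ht
  set f := (1 - w ^ 2) / (1 + w ^ 2) with hf
  have hf0 : f ≠ 0 := div_ne_zero h2 h1
  have hf2 : 1 - t ^ 2 = f ^ 2 := by rw [ht, hf]; field_simp; ring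
  have hodd : 2 * (p / 2) + 1 = p := by
    have := (Fact.out : p.Prime).eq_two_or_odd
    omega
  have hF : f * (1 - t ^ 2) ^ (p / 2) = (1 - (w ^ p) ^ 2) / (1 + (w ^ p) ^ 2) := by
    rw [hf2, ← pow_mul, ← pow_succ', hodd, hf, div_pow, frob_one_add, frob_one_sub]
  have hz : w ^ e ≠ 0 := pow_ne_zero _ hw
  have hV : (w ^ p) ^ v ≠ 0 := zpow_ne_zero _ hW
  have e1 : w ^ ((e : ℤ) + p * v) = w ^ e * (w ^ p) ^ v := by
    rw [zpow_add₀ hw, zpow_mul, zpow_natCast, zpow_natCast]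
  have e2 : w ^ (p - e) = w ^ p / w ^ e := by
    rw [eq_div_iff hz, ← pow_add]; congr 1; omega
  have e3 : (w ^ p) ^ (v + 1) = (w ^ p) ^ v * w ^ p := zpow_add_one₀ hW v
  rw [zpow_neg, e1, mul_comm c p, pow_mul] at hA
  rw [zpow_neg] at hB
  rw [zpow_neg, e3] at hC
  rw [e2] at hb1
  rw [mul_comm c p]
  have h4 : (4 : K) * f ≠ 0 := by
    refine mul_ne_zero ?_ hf0
    rw [show (4 : K) = 2 * 2 by norm_num]; exact mul_ne_zero htwo htwo
  apply mul_left_cancel₀ h4
  have hfin : 2 * ((1 - (w ^ p) ^ 2) / (1 + (w ^ p) ^ 2)) *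
      (w ^ e * (w ^ p) ^ v + (w ^ e * (w ^ p) ^ v)⁻¹) =
      t ^ p * (((w ^ p / w ^ e)⁻¹ - w ^ p / w ^ e) * ((w ^ p) ^ v + ((w ^ p) ^ v)⁻¹) +
        ((w ^ e)⁻¹ - w ^ e) * ((w ^ p) ^ v * w ^ p + ((w ^ p) ^ v * w ^ p)⁻¹)) := by
    rw [hT]
    generalize w ^ p = W at *
    generalize W ^ v = V at *
    generalize w ^ e = z at *
    field_simp
    ring
  calc 4 * f * (aeval t (alphaP (p * c) (e + p * v)) * (1 - t ^ 2) ^ (p / 2))
      = 2 * (f * (1 - t ^ 2) ^ (p / 2)) * (2 * aeval t (alphaP (p * c) (e + p * v))) := by ring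
    _ = (t ^ p) ^ c * (2 * ((1 - (w ^ p) ^ 2) / (1 + (w ^ p) ^ 2)) *
      (w ^ e * (w ^ p) ^ v + (w ^ e * (w ^ p) ^ v)⁻¹)) := by rw [hF, hA]; ring
    _ = (2 * f * aeval t (betaP p (p - e))) * (2 * aeval (t ^ p) (alphaP c v)) +
        (2 * f * aeval t (betaP p e)) * (2 * aeval (t ^ p) (alphaP c (v + 1))) := by
      rw [hfin, hb1, hb2, hB, hC]; ring
    _ = _ := by ring

theorem frob_deltaP_eval {K : Type*} [Field K] [Algebra (ZMod p) K] [CharP K p]
    (hp : p ≠ 2) (c e : ℕ) (v : ℤ) (he : e < p) (hv : v.natAbs ≤ c)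
    (hv' : (v + 1).natAbs ≤ c) (hu : ((e : ℤ) + p * v).natAbs ≤ c * p)
    (w : K) (hw : w ≠ 0) (h1 : 1 + w ^ 2 ≠ 0) (h2 : 1 - w ^ 2 ≠ 0) :
    aeval (2 * w / (1 + w ^ 2)) (redP p (deltaP (c * p) (e + p * v))) =
      aeval (2 * w / (1 + w ^ 2)) (betaP p (p - e) * expand (ZMod p) p (redP p (deltaP c v)) +
        betaP p e * expand (ZMod p) p (redP p (deltaP c (v + 1)))) := by
  have htwo : (2 : K) ≠ 0 := frob_two_ne_zero hp K
  have hW : w ^ p ≠ 0 := pow_ne_zero _ hw
  have hW1 : 1 + (w ^ p) ^ 2 ≠ 0 := by rw [← frob_one_add]; exact pow_ne_zero _ h1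
  have hW2 : 1 - (w ^ p) ^ 2 ≠ 0 := by rw [← frob_one_sub]; exact pow_ne_zero _ h2
  simp only [map_mul, map_add, expand_aeval, frob_aeval_redP]
  have hA := deltaP_eval (c * p) (e + p * v) hu w hw h1
  have hB := deltaP_eval c v hv (w ^ p) hW hW1
  have hC := deltaP_eval c (v + 1) hv' (w ^ p) hW hW1
  have hb1 := frob_beta_eval (p := p) (p - e) (by omega) w hw h1
  have hb2 := frob_beta_eval (p := p) e he.le w hw h1
  have hT := frob_t_pow (p := p) w
  rw [← hT] at hB hC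
  set t := 2 * w / (1 + w ^ 2) with ht
  set f := (1 - w ^ 2) / (1 + w ^ 2) with hf
  have hf0 : f ≠ 0 := div_ne_zero h2 h1
  have hz : w ^ e ≠ 0 := pow_ne_zero _ hw
  have hV : (w ^ p) ^ v ≠ 0 := zpow_ne_zero _ hW
  have e1 : w ^ ((e : ℤ) + p * v) = w ^ e * (w ^ p) ^ v := by
    rw [zpow_add₀ hw, zpow_mul, zpow_natCast, zpow_natCast]
  have e2 : w ^ (p - e) = w ^ p / w ^ e := by
    rw [eq_div_iff hz, ← pow_add]; congr 1; omega
  have e3 : (w ^ p) ^ (v + 1) = (w ^ p) ^ v * w ^ p := zpow_add_one₀ hW v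
  rw [zpow_neg, e1, mul_comm c p, pow_mul] at hA
  rw [zpow_neg] at hB
  rw [zpow_neg, e3] at hC
  rw [e2] at hb1
  rw [mul_comm c p]
  set F := (1 - (w ^ p) ^ 2) / (1 + (w ^ p) ^ 2) with hF
  have hF0 : F ≠ 0 := div_ne_zero hW2 hW1
  have h4 : (4 : K) * f * F ≠ 0 := by
    refine mul_ne_zero (mul_ne_zero ?_ hf0) hF0
    rw [show (4 : K) = 2 * 2 by norm_num]; exact mul_ne_zero htwo htwo
  apply mul_left_cancel₀ h4
  have hfin : 2 * F * ((w ^ e * (w ^ p) ^ v)⁻¹ - w ^ e * (w ^ p) ^ v) =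
      t ^ p * (((w ^ p / w ^ e)⁻¹ - w ^ p / w ^ e) * (((w ^ p) ^ v)⁻¹ - (w ^ p) ^ v) +
        ((w ^ e)⁻¹ - w ^ e) * (((w ^ p) ^ v * w ^ p)⁻¹ - (w ^ p) ^ v * w ^ p)) := by
    rw [hT, hF]
    clear_value F
    generalize w ^ p = W at *
    generalize W ^ v = V at *
    generalize w ^ e = z at *
    field_simp
    ring
  calc 4 * f * F * aeval t (deltaP (p * c) (e + p * v))
      = 2 * F * (2 * f * aeval t (deltaP (p * c) (e + p * v))) := by ring
    _ = (t ^ p) ^ c * (2 * F * ((w ^ e * (w ^ p) ^ v)⁻¹ - w ^ e * (w ^ p) ^ v)) := by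
      rw [hA]; ring
    _ = (2 * f * aeval t (betaP p (p - e))) * (2 * F * aeval (t ^ p) (deltaP c v)) +
        (2 * f * aeval t (betaP p e)) * (2 * F * aeval (t ^ p) (deltaP c (v + 1))) := by
      rw [hfin, hb1, hb2, hB, hC]; ring
    _ = _ := by ring

theorem frob_alphaP (hp : p ≠ 2) (c e : ℕ) (v : ℤ) (he : e < p) (hv : v.natAbs ≤ c)
    (hv' : (v + 1).natAbs ≤ c) (hu : ((e : ℤ) + p * v).natAbs ≤ c * p) :
    redP p (alphaP (c * p) (e + p * v)) * (1 - X ^ 2) ^ (p / 2) =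
      betaP p (p - e) * expand (ZMod p) p (redP p (alphaP c v)) +
        betaP p e * expand (ZMod p) p (redP p (alphaP c (v + 1))) :=
  frob_ext hp _ _ fun w hw h1 h2 => frob_alphaP_eval hp c e v he hv hv' hu w hw h1 h2

theorem frob_deltaP (hp : p ≠ 2) (c e : ℕ) (v : ℤ) (he : e < p) (hv : v.natAbs ≤ c)
    (hv' : (v + 1).natAbs ≤ c) (hu : ((e : ℤ) + p * v).natAbs ≤ c * p) :
    redP p (deltaP (c * p) (e + p * v)) =
      betaP p (p - e) * expand (ZMod p) p (redP p (deltaP c v)) +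
        betaP p e * expand (ZMod p) p (redP p (deltaP c (v + 1))) :=
  frob_ext hp _ _ fun w hw h1 h2 => frob_deltaP_eval hp c e v he hv hv' hu w hw h1 h2

omit [Fact p.Prime] in
theorem frob_abs_bound (e r : ℕ) (he : e < p) (hr : r < 36) :
    ((e : ℤ) + p * ((r : ℤ) - 3)).natAbs ≤ 47 * p := by
  have h1 : (p : ℤ) * r ≤ p * 36 := by
    apply mul_le_mul_of_nonneg_left <;> omega
  have h2 : (0 : ℤ) ≤ p * r := by positivity
  have h3 : (p : ℤ) * ((r : ℤ) - 3) = p * r - 3 * p := by ring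
  rw [h3]
  omega

theorem frob_expand_one_sub :
    expand (ZMod p) p ((1 - X) ^ 2 : (ZMod p)[X]) = (1 - X) ^ (2 * p) := by
  rw [ZMod.expand_card, ← pow_mul]

theorem rowP_frob (hp : p ≠ 2) (e r : ℕ) (he : e < p) (hr : r < 36) :
    redP p (rowP p (e + p * r)) * (1 - X ^ 2) ^ (p / 2) =
      betaP p (p - e) * expand (ZMod p) p (redP p (rowP 1 r)) +
        betaP p e * expand (ZMod p) p (redP p (rowP 1 (r + 1))) := by
  have h := frob_alphaP hp 47 e ((r : ℤ) - 3) he (by omega) (by omega) (frob_abs_bound e r he hr)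
  unfold rowP
  rw [show (((e + p * r : ℕ) : ℤ) - 3 * (p : ℕ)) = e + p * ((r : ℤ) - 3) by push_cast; ring,
    show (((r + 1 : ℕ) : ℤ) - 3 * (1 : ℕ)) = ((r : ℤ) - 3) + 1 by push_cast; ring,
    show (((r : ℕ) : ℤ) - 3 * (1 : ℕ)) = ((r : ℤ) - 3) by push_cast; ring]
  simp only [redP, Polynomial.map_mul, Polynomial.map_pow, Polynomial.map_sub, Polynomial.map_one,
    map_X, map_mul, mul_one, frob_expand_one_sub] at h ⊢
  linear_combination (1 - X) ^ (2 * p) * h

theorem rowD_frob (hp : p ≠ 2) (e r : ℕ) (he : e < p) (hr : r < 36) :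
    redP p (rowD p (e + p * r)) =
      betaP p (p - e) * expand (ZMod p) p (redP p (rowD 1 r)) +
        betaP p e * expand (ZMod p) p (redP p (rowD 1 (r + 1))) := by
  have h := frob_deltaP hp 47 e ((r : ℤ) - 3) he (by omega) (by omega) (frob_abs_bound e r he hr)
  unfold rowD
  rw [show (((e + p * r : ℕ) : ℤ) - 3 * (p : ℕ)) = e + p * ((r : ℤ) - 3) by push_cast; ring,
    show (((r + 1 : ℕ) : ℤ) - 3 * (1 : ℕ)) = ((r : ℤ) - 3) + 1 by push_cast; ring,
    show (((r : ℕ) : ℤ) - 3 * (1 : ℕ)) = ((r : ℤ) - 3) by push_cast; ring]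
  simp only [redP, Polynomial.map_mul, Polynomial.map_pow, Polynomial.map_sub, Polynomial.map_one,
    map_X, map_mul, mul_one, frob_expand_one_sub] at h ⊢
  linear_combination (1 - X) ^ (2 * p) * h

theorem colQ_frob (k₀ k : ℕ) :
    redP p (colQ p (k₀ + p * k)) = X ^ k₀ * expand (ZMod p) p (redP p (colQ 1 k)) := by
  unfold colQ
  simp only [redP, Polynomial.map_mul, Polynomial.map_pow, Polynomial.map_sub, Polynomial.map_one,
    map_X, ZMod.expand_card, mul_pow, ← pow_mul]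
  ring

theorem betaP_zero : betaP p 0 = 0 := by
  simp [betaP, poly_pb_zero]

theorem frob_betaP_coeff (e i : ℕ) : (betaP p e).coeff i =
    if p - e ≤ i then (((pb e).coeff (i - (p - e)) : ℤ) : ZMod p) else 0 := by
  unfold betaP
  rw [coeff_X_pow_mul', coeff_map]
  rfl

theorem betaP_natDegree_lt (e : ℕ) (he : e ≤ p) : (betaP p e).natDegree < p := by
  have hp : 0 < p := (Fact.out : p.Prime).pos
  have : (betaP p e).natDegree ≤ p - 1 := by
    rw [natDegree_le_iff_coeff_eq_zero]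
    intro i hi
    rw [frob_betaP_coeff, if_pos (by omega), poly_pb_coeff _ _ (by omega), Int.cast_zero]
  omega

theorem frob_pb_coeff_zero (e : ℕ) : (pb (e + 1)).coeff 0 = 2 ^ e := by
  induction e with
  | zero => simp [poly_pb_one]
  | succ e ih =>
    rw [poly_pb_succ_succ, coeff_sub, poly_coeff_two_mul, coeff_X_pow_mul', if_neg (by omega), ih]
    ring

theorem betaP_linearIndependent (hp : p ≠ 2) :
    LinearIndependent (ZMod p) fun e : Fin p => betaP p (e + 1) := by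
  rw [Fintype.linearIndependent_iff]
  intro g hg
  have h2 : (2 : ZMod p) ≠ 0 := frob_two_ne_zero hp _
  have key : ∀ n : ℕ, ∀ e : Fin p, p - e ≤ n → g e = 0 := by
    intro n
    induction n with
    | zero => intro e he; have := e.2; omega
    | succ n ih =>
      intro e he
      have := congrArg (fun P : (ZMod p)[X] => P.coeff (p - (e + 1))) hg
      simp only [finsetSum_coeff, coeff_smul, smul_eq_mul, coeff_zero] at this
      rw [sum_eq_single e] at this
      · rw [frob_betaP_coeff, if_pos le_rfl, Nat.sub_self, frob_pb_coeff_zero] at this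
        push_cast at this
        exact (mul_eq_zero.1 this).resolve_right (pow_ne_zero _ h2)
      · intro e' _ hne
        have hne' : (e' : ℕ) ≠ e := fun h => hne (Fin.ext h)
        have h1 := e.2
        have h1' := e'.2
        rcases lt_or_gt_of_ne hne' with h | h
        · rw [frob_betaP_coeff, if_neg (by omega), mul_zero]
        · rw [ih e' (by omega), zero_mul]
      · intro h; exact absurd (mem_univ e) h
  intro e
  exact key _ e le_rfl

theorem frob_gamma_rec (hp : p ≠ 2) (k : ℕ) :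
    ((k : ZMod p) + 2) * ((1 - X ^ 2 : (ZMod p)[X]) ^ (p / 2)).coeff (k + 2) =
      ((k : ZMod p) + 1) * ((1 - X ^ 2 : (ZMod p)[X]) ^ (p / 2)).coeff k := by
  have hodd : 2 * (p / 2) + 1 = p := by
    have := (Fact.out : p.Prime).eq_two_or_odd
    omega
  have hm : 1 ≤ p / 2 := by
    have := (Fact.out : p.Prime).two_le
    omega
  set m := p / 2 with hmdef
  have hc : (2 * (m : (ZMod p)[X]) + 1) = 0 := by
    have : ((2 * m + 1 : ℕ) : (ZMod p)[X]) = 0 := by rw [hodd]; exact CharP.cast_eq_zero _ p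
    exact_mod_cast this
  have hode : (1 - X ^ 2) * derivative ((1 - X ^ 2 : (ZMod p)[X]) ^ m) = X * (1 - X ^ 2) ^ m := by
    clear_value m
    obtain ⟨m', rfl⟩ : ∃ m', m = m' + 1 := ⟨m - 1, by omega⟩
    rw [derivative_pow]
    simp only [derivative_sub, derivative_one, derivative_X_pow, Nat.add_sub_cancel, map_natCast]
    push_cast at hc ⊢
    linear_combination (-X * (1 - X ^ 2) ^ (m' + 1)) * hc
  have := congrArg (fun P : (ZMod p)[X] => P.coeff (k + 1)) hode
  simp only [sub_mul, one_mul, coeff_sub, coeff_X_mul, coeff_X_pow_mul', coeff_derivative] at this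
  rcases k with _ | k
  · rw [if_neg (by omega)] at this
    push_cast at this ⊢
    linear_combination this
  · rw [if_pos (by omega), show k + 1 + 1 - 2 = k by omega] at this
    push_cast at this ⊢
    linear_combination this

/-- `(1 - X²)^((p-1)/2)` has coefficients `cc` modulo `p`. -/
theorem coeff_gamma (hp : p ≠ 2) (e : ℕ) (he : e < p) :
    ((1 - X ^ 2 : (ZMod p)[X]) ^ (p / 2)).coeff e = ((cc e : ℚ) : ZMod p) := by
  have key : ∀ e : ℕ, e < p → (((cc e).den : ℕ) : ZMod p) ≠ 0 ∧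
      ((1 - X ^ 2 : (ZMod p)[X]) ^ (p / 2)).coeff e = ((cc e : ℚ) : ZMod p) := by
    intro e
    induction e using Nat.twoStepInduction with
    | zero =>
      intro _
      simp [cc, coeff_zero_eq_eval_zero]
    | one =>
      intro _
      refine ⟨by simp [cc], ?_⟩
      have : ((1 - X ^ 2 : (ZMod p)[X]) ^ (p / 2)).coeff 1 =
          (derivative ((1 - X ^ 2 : (ZMod p)[X]) ^ (p / 2))).coeff 0 := by
        simp [coeff_derivative]
      rw [this, coeff_zero_eq_eval_zero, derivative_pow]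
      simp [cc]
    | more k ih _ =>
      intro hk
      obtain ⟨hden, hc⟩ := ih (by omega)
      have hk2 : ((k + 2 : ℕ) : ZMod p) ≠ 0 := by
        rw [Ne, ZMod.natCast_eq_zero_iff]
        exact Nat.not_dvd_of_pos_of_lt (by omega) hk
      have hq : ((k : ℚ) + 1) / ((k : ℚ) + 2) = Rat.divInt (k + 1 : ℕ) (k + 2 : ℕ) := by
        rw [Rat.divInt_eq_div]; push_cast; rfl
      have hden2 : (((((k : ℚ) + 1) / ((k : ℚ) + 2)).den : ℕ) : ZMod p) ≠ 0 := by
        rw [hq]
        intro h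
        apply hk2
        rw [ZMod.natCast_eq_zero_iff] at h ⊢
        exact h.trans (Int.natCast_dvd_natCast.1 (Rat.den_dvd _ _))
      have hcast : ((((k : ℚ) + 1) / ((k : ℚ) + 2) : ℚ) : ZMod p) =
          ((k : ZMod p) + 1) / ((k : ZMod p) + 2) := by
        rw [hq, Rat.cast_divInt_of_ne_zero _ (by exact_mod_cast hk2)]
        push_cast; rfl
      constructor
      · rw [cc]
        intro h
        rw [ZMod.natCast_eq_zero_iff] at h
        have := h.trans (Rat.mul_den_dvd _ _)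
        rcases (Nat.Prime.dvd_mul Fact.out).1 this with h' | h'
        · exact hden2 ((ZMod.natCast_eq_zero_iff _ _).2 h')
        · exact hden ((ZMod.natCast_eq_zero_iff _ _).2 h')
      · rw [cc, Rat.cast_mul_of_ne_zero hden2 hden, hcast, ← hc]
        have hk2' : (k : ZMod p) + 2 ≠ 0 := by exact_mod_cast hk2
        rw [div_mul_eq_mul_div, eq_div_iff hk2', mul_comm]
        exact frob_gamma_rec hp k
  exact (key e he).2

end Crest.Agent.R006
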