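import Mathlib

/-! Elementary functional calculus for a diagonal contraction (used in `Hardy.lean`). -/

set_option autoImplicit false

namespace Crest.Agent.R006

open Finset

theorem hardy_tele {R : Type*} [CommRing R] {n : ℕ} (u v : Fin n → R) :
    ∏ l, u l - ∏ l, v l =
      ∑ j, (u j - v j) * (∏ l ∈ univ.filter (· < j), v l) * ∏ l ∈ univ.filter (j < ·), u l := by
  have h := Finset.prod_sub_ordered (univ : Finset (Fin n)) u (fun i => u i - v i)
  simp only [sub_sub_cancel] at h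
  rw [h]; ring

section Bd

variable {n : ℕ} {H : Type*} [NormedAddCommGroup H] [InnerProductSpace ℂ H]
  (Φ : (Fin n → ℂ) →ₗ[ℂ] H)

/-- The multiplier `y` has norm at most `K`. -/
def HBd (y : Fin n → ℂ) (K : ℝ) : Prop := ∀ c : Fin n → ℂ, ‖Φ (fun i => y i * c i)‖ ≤ K * ‖Φ c‖

variable {Φ}

theorem HBd.mono {y : Fin n → ℂ} {K L : ℝ} (h : HBd Φ y K) (hKL : K ≤ L) : HBd Φ y L :=
  fun c => (h c).trans (mul_le_mul_of_nonneg_right hKL (norm_nonneg _))

theorem HBd.congr {y z : Fin n → ℂ} {K : ℝ} (h : HBd Φ y K) (hyz : ∀ i, z i = y i) :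
    HBd Φ z K := by
  have : z = y := funext hyz
  rw [this]; exact h

theorem HBd.mul {y z : Fin n → ℂ} {K L : ℝ} (hK : 0 ≤ K) (h : HBd Φ y K) (h' : HBd Φ z L) :
    HBd Φ (fun i => y i * z i) (K * L) := by
  intro c
  have h1 := h (fun i => z i * c i)
  have h2 := h' c
  calc ‖Φ (fun i => y i * z i * c i)‖ = ‖Φ (fun i => y i * (z i * c i))‖ := by
        simp only [mul_assoc]
    _ ≤ K * ‖Φ (fun i => z i * c i)‖ := h1
    _ ≤ K * (L * ‖Φ c‖) := mul_le_mul_of_nonneg_left h2 hK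
    _ = K * L * ‖Φ c‖ := by ring

theorem HBd.add {y z : Fin n → ℂ} {K L : ℝ} (h : HBd Φ y K) (h' : HBd Φ z L) :
    HBd Φ (fun i => y i + z i) (K + L) := by
  intro c
  have e : (fun i => (y i + z i) * c i) = (fun i => y i * c i) + (fun i => z i * c i) := by
    funext i; simp [add_mul]
  rw [e, map_add]
  calc _ ≤ ‖Φ (fun i => y i * c i)‖ + ‖Φ (fun i => z i * c i)‖ := norm_add_le _ _
    _ ≤ K * ‖Φ c‖ + L * ‖Φ c‖ := add_le_add (h c) (h' c)
    _ = (K + L) * ‖Φ c‖ := by ring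

theorem HBd.const (a : ℂ) : HBd Φ (fun _ => a) ‖a‖ := by
  intro c
  have e : (fun i => a * c i) = a • c := by funext i; simp
  rw [e, map_smul, norm_smul]

theorem HBd.one : HBd Φ (fun _ => (1 : ℂ)) 1 := by
  simpa using HBd.const (Φ := Φ) 1

theorem HBd.smul {y : Fin n → ℂ} {K : ℝ} (a : ℂ) (h : HBd Φ y K) :
    HBd Φ (fun i => a * y i) (‖a‖ * K) :=
  HBd.mul (norm_nonneg a) (HBd.const a) h

theorem HBd.sum {ι : Type*} (s : Finset ι) {y : ι → Fin n → ℂ} {K : ℝ}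
    (h : ∀ j ∈ s, HBd Φ (y j) K) : HBd Φ (fun i => ∑ j ∈ s, y j i) (s.card * K) := by
  classical
  induction s using Finset.induction_on with
  | empty => simpa using HBd.const (Φ := Φ) 0
  | insert a s ha ih =>
    have h1 := (h a (mem_insert_self _ _)).add (ih fun j hj => h j (mem_insert_of_mem hj))
    refine (h1.congr fun i => by rw [sum_insert ha]).mono (le_of_eq ?_)
    rw [card_insert_of_notMem ha]; push_cast; ring

theorem HBd.prod {ι : Type*} (s : Finset ι) {y : ι → Fin n → ℂ}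
    (h : ∀ j ∈ s, HBd Φ (y j) 1) : HBd Φ (fun i => ∏ j ∈ s, y j i) 1 := by
  classical
  induction s using Finset.induction_on with
  | empty => simpa using HBd.one (Φ := Φ)
  | insert a s ha ih =>
    have h1 := (h a (mem_insert_self _ _)).mul zero_le_one (ih fun j hj => h j (mem_insert_of_mem hj))
    refine (h1.congr fun i => by rw [prod_insert ha]).mono (le_of_eq ?_)
    ring

theorem HBd.pow {y : Fin n → ℂ} (h : HBd Φ y 1) (k : ℕ) : HBd Φ (fun i => y i ^ k) 1 := by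
  have := HBd.prod (Φ := Φ) (range k) (y := fun _ => y) (fun _ _ => h)
  exact this.congr fun i => by simp

/-- Neumann bound. -/
theorem HBd.inv_one_sub {x : Fin n → ℂ} (h : HBd Φ x 1) (a : ℂ) (ha : ‖a‖ < 1)
    (hne : ∀ i, 1 - a * x i ≠ 0) : HBd Φ (fun i => (1 - a * x i)⁻¹) (1 - ‖a‖)⁻¹ := by
  intro c
  set c' : Fin n → ℂ := fun i => (1 - a * x i)⁻¹ * c i with hc'
  have e : c = c' - a • (fun i => x i * c' i) := by
    funext i
    simp only [hc', Pi.sub_apply, Pi.smul_apply, smul_eq_mul]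
    field_simp [hne i]
  have h1 : ‖Φ c'‖ ≤ ‖Φ c‖ + ‖a‖ * ‖Φ c'‖ := by
    have e2 : Φ c' = Φ c + a • Φ (fun i => x i * c' i) := by
      conv_rhs => rw [e]
      rw [map_sub, map_smul]; simp
    calc ‖Φ c'‖ ≤ ‖Φ c‖ + ‖a • Φ (fun i => x i * c' i)‖ := by
          conv_lhs => rw [e2]
          exact norm_add_le _ _
      _ ≤ ‖Φ c‖ + ‖a‖ * ‖Φ c'‖ := by
          rw [norm_smul]
          have := h c'
          rw [one_mul] at this
          gcongr
  have hpos : 0 < 1 - ‖a‖ := by linarith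
  rw [inv_mul_eq_div, le_div_iff₀ hpos]
  nlinarith

/-- A real Blaschke factor of a contraction is a contraction. -/
theorem HBd.blaschke {x : Fin n → ℂ} (h : HBd Φ x 1) (a : ℝ) (ha : |a| < 1)
    (hne : ∀ i, 1 - (a : ℂ) * x i ≠ 0) :
    HBd Φ (fun i => (x i - a) / (1 - a * x i)) 1 := by
  intro c
  set c' : Fin n → ℂ := fun i => (1 - a * x i)⁻¹ * c i with hc'
  set u := Φ c'
  set v := Φ (fun i => x i * c' i)
  have hv : ‖v‖ ≤ ‖u‖ := by simpa using h c'
  have e1 : c = c' - (a : ℂ) • (fun i => x i * c' i) := by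
    funext i
    simp only [hc', Pi.sub_apply, Pi.smul_apply, smul_eq_mul]
    field_simp [hne i]
  have e2 : (fun i => (x i - a) / (1 - a * x i) * c i) =
      (fun i => x i * c' i) - (a : ℂ) • c' := by
    funext i
    simp only [hc', Pi.sub_apply, Pi.smul_apply, smul_eq_mul]
    field_simp [hne i]
  have f1 : Φ c = u - (a : ℂ) • v := by
    conv_lhs => rw [e1]
    rw [map_sub, map_smul]
  rw [e2, map_sub, map_smul, f1, one_mul]
  have ha2 : a ^ 2 ≤ 1 := by
    have := abs_nonneg a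
    have h3 : |a| ^ 2 ≤ 1 := by nlinarith
    rwa [sq_abs] at h3
  have key : ‖v - (a : ℂ) • u‖ ^ 2 ≤ ‖u - (a : ℂ) • v‖ ^ 2 := by
    rw [@norm_sub_sq ℂ, @norm_sub_sq ℂ, inner_smul_right, inner_smul_right, norm_smul, norm_smul]
    have hre : RCLike.re (inner ℂ v u) = RCLike.re (inner ℂ u v) := inner_re_symm _ _
    have r1 : RCLike.re ((a : ℂ) * inner ℂ v u) = a * RCLike.re (inner ℂ v u) := by simp
    have r2 : RCLike.re ((a : ℂ) * inner ℂ u v) = a * RCLike.re (inner ℂ u v) := by simp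
    rw [r1, r2, hre, Complex.norm_real, Real.norm_eq_abs, mul_pow, mul_pow, sq_abs]
    have : ‖v‖ ^ 2 ≤ ‖u‖ ^ 2 := pow_le_pow_left₀ (norm_nonneg _) hv 2
    nlinarith
  exact (pow_le_pow_iff_left₀ (norm_nonneg _) (norm_nonneg _) two_ne_zero).1 key

/-- real Blaschke factor -/
noncomputable def hbl (a : ℝ) (z : ℂ) : ℂ := (z - a) / (1 - a * z)

theorem hardy_one_sub_ne {a b : ℝ} (ha : |a| < 1) (hb : |b| < 1) : 1 - (a : ℂ) * b ≠ 0 := by
  have h : |a * b| < 1 := by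
    rw [abs_mul]
    have := abs_nonneg a
    have := abs_nonneg b
    nlinarith
  have h2 : (1 : ℝ) - a * b ≠ 0 := by
    have := le_abs_self (a * b)
    linarith
  exact_mod_cast h2

theorem hardy_norm_one_sub_I (a y : ℝ) : 1 ≤ ‖1 - (a : ℂ) * (Complex.I * y)‖ := by
  have := Complex.abs_re_le_norm (1 - (a : ℂ) * (Complex.I * y))
  simpa using this

theorem hardy_one_sub_I_ne (a y : ℝ) : 1 - (a : ℂ) * (Complex.I * y) ≠ 0 := by
  intro h
  have := hardy_norm_one_sub_I a y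
  rw [h] at this
  norm_num at this

theorem hardy_norm_hbl_sq (a y : ℝ) :
    ‖hbl a (Complex.I * y)‖ ^ 2 = (a ^ 2 + y ^ 2) / (1 + a ^ 2 * y ^ 2) := by
  rw [hbl, norm_div, div_pow, Complex.sq_norm, Complex.sq_norm, Complex.normSq_apply,
    Complex.normSq_apply]
  simp only [Complex.sub_re, Complex.mul_re, Complex.I_re, Complex.ofReal_re, Complex.I_im,
    Complex.ofReal_im, Complex.sub_im, Complex.mul_im, Complex.one_re, Complex.one_im]
  congr 1 <;> ring

theorem hardy_norm_hbl_le {a y : ℝ} (ha : |a| < 1) (hy : |y| ≤ 1) :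
    ‖hbl a (Complex.I * y)‖ ≤ 1 := by
  have h1 : a ^ 2 ≤ 1 := by
    have := abs_nonneg a
    have h3 : |a| ^ 2 ≤ 1 := by nlinarith
    rwa [sq_abs] at h3
  have h2 : y ^ 2 ≤ 1 := by
    have := abs_nonneg y
    have h3 : |y| ^ 2 ≤ 1 := by nlinarith
    rwa [sq_abs] at h3
  have h : ‖hbl a (Complex.I * y)‖ ^ 2 ≤ 1 ^ 2 := by
    rw [hardy_norm_hbl_sq, div_le_iff₀ (by positivity)]
    nlinarith
  exact (pow_le_pow_iff_left₀ (norm_nonneg _) zero_le_one two_ne_zero).1 h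

theorem hardy_norm_hbl_ge {a y : ℝ} (hy : |y| ≤ 1) :
    |y| ≤ ‖hbl a (Complex.I * y)‖ := by
  have h2 : y ^ 2 ≤ 1 := by
    have := abs_nonneg y
    have h3 : |y| ^ 2 ≤ 1 := by nlinarith
    rwa [sq_abs] at h3
  have h : |y| ^ 2 ≤ ‖hbl a (Complex.I * y)‖ ^ 2 := by
    rw [hardy_norm_hbl_sq, le_div_iff₀ (by positivity), sq_abs]
    have h4 : y ^ 2 * y ^ 2 ≤ 1 := by nlinarith [sq_nonneg y]
    nlinarith [sq_nonneg a]
  exact (pow_le_pow_iff_left₀ (abs_nonneg _) (norm_nonneg _) two_ne_zero).1 h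

variable {x : Fin n → ℝ}

theorem HBd.hbl (h : HBd Φ (fun i => (x i : ℂ)) 1) (hx : ∀ i, |x i| < 1) (l : Fin n) :
    HBd Φ (fun i => hbl (x l) (x i)) 1 :=
  HBd.blaschke h (x l) (hx l) fun i => hardy_one_sub_ne (hx l) (hx i)

theorem HBd.kern (h : HBd Φ (fun i => (x i : ℂ)) 1) (hx : ∀ i, |x i| < 1) (l : Fin n) (y : ℝ) :
    HBd Φ (fun i => (1 - (x l : ℂ) ^ 2) / ((1 - x l * x i) * (1 - x l * (Complex.I * y)))) 2 := by
  have h1 := HBd.inv_one_sub h (x l) (by simpa using hx l)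
    (fun i => hardy_one_sub_ne (hx l) (hx i))
  have h2 := h1.smul ((1 - (x l : ℂ) ^ 2) / (1 - x l * (Complex.I * y)))
  refine (h2.congr fun i => ?_).mono ?_
  · field_simp
  · have hl := hx l
    have hpos : 0 < 1 - |x l| := by linarith
    rw [norm_div, Complex.norm_real, Real.norm_eq_abs]
    have e : ‖1 - (x l : ℂ) ^ 2‖ = (1 - |x l|) * (1 + |x l|) := by
      have : (1 - (x l : ℂ) ^ 2) = (((1 - |x l|) * (1 + |x l|) : ℝ) : ℂ) := by
        have : (1 - |x l|) * (1 + |x l|) = 1 - x l ^ 2 := by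
          rw [← sq_abs (x l)]; ring
        rw [this]; push_cast; ring
      rw [this, Complex.norm_real, Real.norm_eq_abs, abs_of_nonneg (by positivity)]
    rw [e]
    have h3 := hardy_norm_one_sub_I (x l) y
    calc (1 - |x l|) * (1 + |x l|) / ‖1 - (x l : ℂ) * (Complex.I * y)‖ * (1 - |x l|)⁻¹
        = (1 + |x l|) / ‖1 - (x l : ℂ) * (Complex.I * y)‖ := by field_simp
      _ ≤ (1 + |x l|) / 1 := by gcongr
      _ ≤ 2 := by linarith

theorem hardy_alg1 (a : ℝ) (z w : ℂ) (h1 : 1 - (a : ℂ) * z ≠ 0) (h2 : 1 - (a : ℂ) * w ≠ 0) :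
    1 - hbl a w * hbl a z = (1 - (a : ℂ) ^ 2) / ((1 - a * z) * (1 - a * w)) * (1 - z * w) := by
  have h3 : 1 - z * (a : ℂ) ≠ 0 := by rwa [mul_comm]
  have h4 : 1 - w * (a : ℂ) ≠ 0 := by rwa [mul_comm]
  simp only [hbl]
  field_simp
  ring

theorem hardy_alg2 (a : ℝ) (z w : ℂ) (h1 : 1 - (a : ℂ) * z ≠ 0) (h2 : 1 - (a : ℂ) * w ≠ 0) :
    hbl a w - hbl a z = -((1 - (a : ℂ) ^ 2) / ((1 - a * z) * (1 - a * w)) * (z - w)) := by
  have h3 : 1 - z * (a : ℂ) ≠ 0 := by rwa [mul_comm]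
  have h4 : 1 - w * (a : ℂ) ≠ 0 := by rwa [mul_comm]
  simp only [hbl]
  field_simp
  ring

theorem hardy_alg3 (p z A B C E : ℂ) (hA : A ≠ 0) (hB : B ≠ 0) (hC : C ≠ 0) (hE : E ≠ 0)
    (h1 : A + B = 2) (h2 : C + E = 2 * z) :
    p * (z / (A * B) + z / (C * E)) =
      1 / 2 * (p * z * (A⁻¹ + B⁻¹) + (p * C⁻¹ + p * E⁻¹)) := by
  have e1 : A⁻¹ + B⁻¹ = 2 / (A * B) := by rw [← h1]; field_simp; ring
  have e2 : p * C⁻¹ + p * E⁻¹ = p * (2 * z / (C * E)) := by rw [← h2]; field_simp; ring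
  rw [e1, e2]; ring

theorem hardy_prod_hbl_zero (i : Fin n) : ∏ l, hbl (x l) (x i) = 0 :=
  Finset.prod_eq_zero (mem_univ i) (by simp [hbl])

/-- Resolvent outside the disc. -/
theorem HBd.res_out (h : HBd Φ (fun i => (x i : ℂ)) 1) (hx : ∀ i, |x i| < 1) (y : ℝ)
    (hy : |y| ≤ 1) : HBd Φ (fun i => (1 - (x i : ℂ) * (Complex.I * y))⁻¹) (2 * n) := by
  have hs := HBd.sum (Φ := Φ) (univ : Finset (Fin n)) (K := 2)
    (y := fun j i => (1 - (x j : ℂ) ^ 2) / ((1 - x j * x i) * (1 - x j * (Complex.I * y))) *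
      ∏ l ∈ univ.filter (· < j), (R006.hbl (x l) (Complex.I * y) * R006.hbl (x l) (x i)))
    (fun j _ => by
      have := (h.kern hx j y).mul (by norm_num) (HBd.prod (Φ := Φ) (univ.filter (· < j))
        (y := fun l i => R006.hbl (x l) (Complex.I * y) * R006.hbl (x l) (x i))
        (fun l _ => ((h.hbl hx l).smul (R006.hbl (x l) (Complex.I * y))).mono
          (by simpa using hardy_norm_hbl_le (hx l) hy)))
      simpa using this)
  refine (hs.congr fun i => ?_).mono (by simp [mul_comm])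
  have ht := hardy_tele (fun _ : Fin n => (1 : ℂ))
    (fun l => R006.hbl (x l) (Complex.I * y) * R006.hbl (x l) (x i))
  rw [prod_mul_distrib, hardy_prod_hbl_zero i] at ht
  simp only [prod_const_one, mul_zero, sub_zero, mul_one] at ht
  have hne := hardy_one_sub_I_ne (x i) y
  rw [inv_eq_one_div, div_eq_iff hne, sum_mul]
  refine ht.trans (sum_congr rfl fun j _ => ?_)
  rw [hardy_alg1 _ _ _ (hardy_one_sub_ne (hx j) (hx i)) (hardy_one_sub_I_ne (x j) y)]
  ring

theorem hardy_sub_I_ne {a y : ℝ} (hy : y ≠ 0) : (a : ℂ) - Complex.I * y ≠ 0 := by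
  intro h
  have := congrArg Complex.im h
  simp at this
  exact hy this

/-- Resolvent inside the disc. -/
theorem HBd.res_in (h : HBd Φ (fun i => (x i : ℂ)) 1) (hx : ∀ i, |x i| < 1) (y : ℝ)
    (hy : |y| ≤ 1) (hy0 : y ≠ 0) :
    HBd Φ (fun i => (∏ l, R006.hbl (x l) (Complex.I * y)) * ((x i : ℂ) - Complex.I * y)⁻¹) (2 * n) := by
  have hs := HBd.sum (Φ := Φ) (univ : Finset (Fin n)) (K := 2)
    (y := fun j i => (-∏ l ∈ univ.filter (j < ·), R006.hbl (x l) (Complex.I * y)) *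
      ((1 - (x j : ℂ) ^ 2) / ((1 - x j * x i) * (1 - x j * (Complex.I * y))) *
      ∏ l ∈ univ.filter (· < j), R006.hbl (x l) (x i)))
    (fun j _ => by
      have := ((h.kern hx j y).mul (by norm_num) (HBd.prod (Φ := Φ) (univ.filter (· < j))
        (y := fun l i => R006.hbl (x l) (x i))
        (fun l _ => h.hbl hx l))).smul (-∏ l ∈ univ.filter (j < ·), R006.hbl (x l) (Complex.I * y))
      refine this.mono ?_
      rw [norm_neg, norm_prod]
      have : ∏ l ∈ univ.filter (j < ·), ‖R006.hbl (x l) (Complex.I * y)‖ ≤ 1 :=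
        prod_le_one (fun _ _ => norm_nonneg _) fun l _ => hardy_norm_hbl_le (hx l) hy
      linarith)
  refine (hs.congr fun i => ?_).mono (by simp [mul_comm])
  have ht := hardy_tele (fun l => R006.hbl (x l) (Complex.I * y))
    (fun l => R006.hbl (x l) (x i))
  rw [hardy_prod_hbl_zero i, sub_zero] at ht
  have hne : (x i : ℂ) - Complex.I * y ≠ 0 := hardy_sub_I_ne hy0
  rw [← div_eq_mul_inv, div_eq_iff hne, sum_mul, ht]
  refine sum_congr rfl fun j _ => ?_
  rw [hardy_alg2 _ _ _ (hardy_one_sub_ne (hx j) (hx i)) (hardy_one_sub_I_ne (x j) y)]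
  ring

theorem HBd.geom (h : HBd Φ (fun i => (x i : ℂ)) 1) (w : ℂ) (hw : ‖w‖ < 1)
    (hne : ∀ i, (x i : ℂ) - w ≠ 0) (D : ℕ) :
    HBd Φ (fun i => ((x i : ℂ) ^ D - w ^ D) * ((x i : ℂ) - w)⁻¹) (1 - ‖w‖)⁻¹ := by
  have hpos : 0 < 1 - ‖w‖ := by linarith
  induction D with
  | zero =>
    refine ((HBd.const (Φ := Φ) 0).congr fun i => by simp).mono ?_
    simp [hw.le]
  | succ D ih =>
    refine (((h.pow D).add (ih.smul w)).congr fun i => ?_).mono (le_of_eq ?_)
    · have := hne i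
      field_simp
      ring
    · field_simp
      ring

theorem HBd.main_in (hn : 1 ≤ n) (h : HBd Φ (fun i => (x i : ℂ)) 1) (hx : ∀ i, |x i| < 1)
    (D : ℕ) (Θ : ℝ) (hΘ1 : 1 ≤ Θ)
    (hΘ : ∀ y ∈ Set.Ioo (0 : ℝ) 1,
      y ^ (2 * D) * ∏ i, (1 + x i ^ 2 * y ^ 2) ≤ Θ ^ 2 * ∏ i, (x i ^ 2 + y ^ 2))
    (y : ℝ) (hy : |y| ≤ 1) (hy0 : y ≠ 0) :
    HBd Φ (fun i => (x i : ℂ) ^ D * ((x i : ℂ) - Complex.I * y)⁻¹) (4 * n * Θ) := by
  set B : ℂ := ∏ l, R006.hbl (x l) (Complex.I * y) with hB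
  have hn' : (1 : ℝ) ≤ n := by exact_mod_cast hn
  have hBge : |y| ^ n ≤ ‖B‖ := by
    rw [hB, norm_prod]
    calc |y| ^ n = ∏ _l : Fin n, |y| := by simp
      _ ≤ _ := prod_le_prod (fun _ _ => abs_nonneg _) fun l _ => hardy_norm_hbl_ge hy
  have hypos : 0 < |y| := abs_pos.2 hy0
  have hBpos : 0 < ‖B‖ := lt_of_lt_of_le (pow_pos hypos n) hBge
  have hBne : B ≠ 0 := norm_pos_iff.1 hBpos
  have hres := h.res_in hx y hy hy0
  rw [← hB] at hres
  by_cases hc : 1 - 1 / (2 * (n : ℝ)) ≤ |y|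
  · have hhalf : 1 / 2 ≤ ‖B‖ := by
      have h1 : 1 + (n : ℝ) * (-(1 / (2 * (n : ℝ)))) ≤ (1 + -(1 / (2 * (n : ℝ)))) ^ n := by
        apply one_add_mul_le_pow
        have : 1 / (2 * (n : ℝ)) ≤ 1 := by
          rw [div_le_one (by positivity)]; linarith
        linarith
      have h2 : 1 + (n : ℝ) * (-(1 / (2 * (n : ℝ)))) = 1 / 2 := by field_simp; ring
      have h3 : (1 + -(1 / (2 * (n : ℝ)))) ^ n ≤ |y| ^ n := by
        apply pow_le_pow_left₀ _ (by linarith)
        have : 1 / (2 * (n : ℝ)) ≤ 1 := by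
          rw [div_le_one (by positivity)]; linarith
        linarith
      linarith
    refine (((h.pow D).mul zero_le_one (hres.smul B⁻¹)).congr fun i => ?_).mono ?_
    · field_simp
    · rw [one_mul, norm_inv]
      have : ‖B‖⁻¹ ≤ 2 := by
        rw [inv_le_comm₀ hBpos (by norm_num)]; linarith
      calc ‖B‖⁻¹ * (2 * n) ≤ 2 * (2 * n) := by gcongr
        _ ≤ 4 * n * Θ := by nlinarith
  · push Not at hc
    have hlt : |y| < 1 := by
      have : 0 < 1 / (2 * (n : ℝ)) := by positivity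
      linarith
    have hnw : ‖Complex.I * y‖ = |y| := by simp
    have hg := h.geom (Complex.I * y) (by rw [hnw]; exact hlt) (fun i => hardy_sub_I_ne hy0) D
    have hc2 : ‖(Complex.I * y) ^ D / B‖ ≤ Θ := by
      have h1 := hΘ |y| ⟨hypos, hlt⟩
      simp only [sq_abs] at h1
      have hB2 : ‖B‖ ^ 2 = (∏ i, (x i ^ 2 + y ^ 2)) / ∏ i, (1 + x i ^ 2 * y ^ 2) := by
        rw [hB, norm_prod, ← prod_pow, ← prod_div_distrib]
        exact prod_congr rfl fun l _ => hardy_norm_hbl_sq _ _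
      have hP : 0 < ∏ i, (1 + x i ^ 2 * y ^ 2) := prod_pos fun _ _ => by positivity
      have h2 : ‖(Complex.I * y) ^ D / B‖ ^ 2 ≤ Θ ^ 2 := by
        rw [norm_div, norm_pow, hnw, div_pow, div_le_iff₀ (by positivity), hB2, ← pow_mul,
          mul_comm D 2, ← mul_div_assoc, le_div_iff₀ hP]
        exact h1
      exact (pow_le_pow_iff_left₀ (norm_nonneg _) (by linarith) two_ne_zero).1 h2
    refine ((hg.add (hres.smul ((Complex.I * y) ^ D / B))).congr fun i => ?_).mono ?_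
    · field_simp
      ring
    · rw [hnw]
      have h1 : (1 - |y|)⁻¹ ≤ 2 * n := by
        rw [inv_le_comm₀ (by linarith) (by positivity)]
        rw [one_div] at hc; linarith
      have h2 : ‖(Complex.I * y) ^ D / B‖ * (2 * n) ≤ Θ * (2 * n) := by gcongr
      nlinarith

/-- Integration of a family of multipliers. -/
theorem HBd.integral {f : Fin n → ℝ → ℝ} {K : ℝ}
    (hf : ∀ i, IntervalIntegrable (f i) MeasureTheory.volume 0 1)
    (h : ∀ t ∈ Set.Ioc (0 : ℝ) 1, HBd Φ (fun i => (f i t : ℂ)) K) [CompleteSpace H] :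
    HBd Φ (fun i => ((∫ t in (0 : ℝ)..1, f i t : ℝ) : ℂ)) K := by
  classical
  intro c
  have e : ∀ y : Fin n → ℝ, Φ (fun i => (y i : ℂ) * c i) =
      ∑ i, y i • Φ (Pi.single i (c i)) := by
    intro y
    have : (fun i => (y i : ℂ) * c i) = ∑ i, (y i : ℂ) • Pi.single i (c i) := by
      funext j
      simp [Finset.sum_apply, Pi.single_apply]
    rw [this, map_sum]
    refine sum_congr rfl fun i _ => ?_
    rw [map_smul, Complex.coe_smul]
  rw [e]
  have e2 : ∑ i, (∫ t in (0 : ℝ)..1, f i t) • Φ (Pi.single i (c i)) =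
      ∫ t in (0 : ℝ)..1, ∑ i, f i t • Φ (Pi.single i (c i)) := by
    rw [intervalIntegral.integral_finsetSum
      (fun i _ => ⟨(hf i).1.smul_const _, (hf i).2.smul_const _⟩)]
    exact sum_congr rfl fun i _ => (intervalIntegral.integral_smul_const _ _).symm
  rw [e2]
  have := intervalIntegral.norm_integral_le_of_norm_le_const (a := 0) (b := 1)
    (f := fun t => ∑ i, f i t • Φ (Pi.single i (c i))) (C := K * ‖Φ c‖) (fun t ht => by
      rw [Set.uIoc_of_le zero_le_one] at ht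
      rw [← e (fun i => f i t)]
      exact h t ht c)
  simpa using this

theorem hardy_sign_integral {a : ℝ} (ha : a ≠ 0) :
    ∫ t in (0 : ℝ)..1, (a / (1 + a ^ 2 * t ^ 2) + a / (a ^ 2 + t ^ 2)) =
      Real.pi / 2 * (if 0 < a then 1 else -1) := by
  have h1 : ∀ t : ℝ, a / (1 + a ^ 2 * t ^ 2) = a⁻¹ / (a⁻¹ ^ 2 + t ^ 2) := by
    intro t
    have : 0 < 1 + a ^ 2 * t ^ 2 := by positivity
    field_simp
  simp only [h1]
  have hc : ∀ b : ℝ, b ≠ 0 → Continuous fun t : ℝ => b / (b ^ 2 + t ^ 2) := by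
    intro b hb
    refine continuous_const.div (by fun_prop) fun t => ?_
    positivity
  rw [intervalIntegral.integral_add ((hc _ (inv_ne_zero ha)).intervalIntegrable _ _)
    ((hc _ ha).intervalIntegrable _ _), integral_div_sq_add_sq, integral_div_sq_add_sq]
  simp only [zero_div, Real.arctan_zero, sub_zero, one_div, inv_inv]
  split_ifs with h
  · rw [Real.arctan_inv_of_pos h]; ring
  · rw [Real.arctan_inv_of_neg (lt_of_le_of_ne (not_lt.1 h) ha)]; ring

theorem HBd.final [CompleteSpace H] (hn : 1 ≤ n) (h : HBd Φ (fun i => (x i : ℂ)) 1)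
    (hx : ∀ i, |x i| < 1) (hx0 : ∀ i, x i ≠ 0)
    (D : ℕ) (Θ : ℝ) (hΘ1 : 1 ≤ Θ)
    (hΘ : ∀ y ∈ Set.Ioo (0 : ℝ) 1,
      y ^ (2 * D) * ∏ i, (1 + x i ^ 2 * y ^ 2) ≤ Θ ^ 2 * ∏ i, (x i ^ 2 + y ^ 2)) :
    HBd Φ (fun i => (((if 0 < x i then -5 else 1) * x i ^ D : ℝ) : ℂ)) (14 * n * Θ) := by
  have hn' : (1 : ℝ) ≤ n := by exact_mod_cast hn
  have hI := HBd.integral (Φ := Φ) (K := 6 * n * Θ)
    (f := fun i t => x i ^ D * (x i / (1 + x i ^ 2 * t ^ 2) + x i / (x i ^ 2 + t ^ 2)))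
    (fun i => by
      apply Continuous.intervalIntegrable
      have := hx0 i
      refine continuous_const.mul (Continuous.add ?_ ?_)
      · exact continuous_const.div (by fun_prop) fun t => by positivity
      · exact continuous_const.div (by fun_prop) fun t => by positivity)
    (fun t ht => by
      have ht1 : |t| ≤ 1 := by rw [abs_of_pos ht.1]; exact ht.2
      have ht1' : |-t| ≤ 1 := by rwa [abs_neg]
      have a1 := h.res_out hx t ht1
      have a2 := h.res_out hx (-t) ht1'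
      have b1 := h.main_in hn hx D Θ hΘ1 hΘ t ht1 ht.1.ne'
      have b2 := h.main_in hn hx D Θ hΘ1 hΘ (-t) ht1' (neg_ne_zero.2 ht.1.ne')
      have := (((h.pow (D + 1)).mul zero_le_one (a1.add a2)).add (b1.add b2)).smul (1 / 2)
      refine (this.congr fun i => ?_).mono ?_
      · have e1 := hardy_one_sub_I_ne (x i) t
        have e2 := hardy_one_sub_I_ne (x i) (-t)
        have e3 : (x i : ℂ) - Complex.I * t ≠ 0 := hardy_sub_I_ne ht.1.ne'
        have e4 : (x i : ℂ) - Complex.I * (-t : ℝ) ≠ 0 := hardy_sub_I_ne (neg_ne_zero.2 ht.1.ne')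
        have f1 : (1 + (x i : ℂ) ^ 2 * t ^ 2) =
            (1 - (x i : ℂ) * (Complex.I * t)) * (1 - (x i : ℂ) * (Complex.I * (-t : ℝ))) := by
          push_cast
          linear_combination ((x i : ℂ) ^ 2 * t ^ 2) * Complex.I_sq
        have f2 : ((x i : ℂ) ^ 2 + t ^ 2) =
            ((x i : ℂ) - Complex.I * t) * ((x i : ℂ) - Complex.I * (-t : ℝ)) := by
          push_cast
          linear_combination ((t : ℂ) ^ 2) * Complex.I_sq
        rw [Complex.ofReal_mul, Complex.ofReal_add, Complex.ofReal_div, Complex.ofReal_div,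
          Complex.ofReal_add, Complex.ofReal_add, Complex.ofReal_mul, Complex.ofReal_pow,
          Complex.ofReal_pow, Complex.ofReal_pow, Complex.ofReal_one, f1, f2, pow_succ]
        exact hardy_alg3 _ _ _ _ _ _ e1 e2 e3 e4 (by push_cast; ring) (by push_cast; ring)
      · have : ‖(1 / 2 : ℂ)‖ = 1 / 2 := by simp
        rw [this]
        nlinarith)
  have hpi := Real.pi_gt_three
  have := ((h.pow D).smul (-2)).add (hI.smul ((-6 / Real.pi : ℝ) : ℂ))
  refine (this.congr fun i => ?_).mono ?_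
  · rw [intervalIntegral.integral_const_mul, hardy_sign_integral (hx0 i)]
    have : (Real.pi : ℂ) ≠ 0 := by exact_mod_cast Real.pi_ne_zero
    split_ifs <;> (push_cast; field_simp; ring)
  · have e1 : ‖(-2 : ℂ)‖ = 2 := by simp
    have e2 : ‖((-6 / Real.pi : ℝ) : ℂ)‖ ≤ 2 := by
      rw [Complex.norm_real, Real.norm_eq_abs, abs_div, abs_of_pos Real.pi_pos,
        div_le_iff₀ Real.pi_pos]
      norm_num; linarith
    rw [e1]
    have : ‖((-6 / Real.pi : ℝ) : ℂ)‖ * (6 * n * Θ) ≤ 2 * (6 * n * Θ) := by gcongr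
    nlinarith

end Bd

end Crest.Agent.R006
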