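import Crest.Agent.R006.Defs
import Crest.Agent.R006.HardyBd

set_option autoImplicit false

namespace Crest.Agent.R006

open Polynomial Finset Filter Topology

/-- The linear map `c ↦ cᵀ E` into Euclidean space. -/
noncomputable def hPhi {n : ℕ} (E : Matrix (Fin n) (Fin n) ℝ) :
    (Fin n → ℂ) →ₗ[ℂ] EuclideanSpace ℂ (Fin n) where
  toFun c := WithLp.toLp 2 fun j => ∑ i, c i * (E i j : ℂ)
  map_add' c d := by
    ext j
    simp [add_mul, sum_add_distrib]
  map_smul' a c := by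
    ext j
    simp [mul_sum, mul_assoc]

theorem hPhi_apply {n : ℕ} (E : Matrix (Fin n) (Fin n) ℝ) (c : Fin n → ℂ) (j : Fin n) :
    hPhi E c j = ∑ i, c i * (E i j : ℂ) := rfl

theorem hardy_normsq_sum {n : ℕ} (c : Fin n → ℂ) (g : Fin n → ℝ) :
    ((‖∑ i, c i * (g i : ℂ)‖ ^ 2 : ℝ) : ℂ) =
      ∑ i, ∑ k, c i * (starRingEnd ℂ) (c k) * ((g i * g k : ℝ) : ℂ) := by
  rw [Complex.ofReal_pow, ← Complex.mul_conj', map_sum, sum_mul_sum]
  refine sum_congr rfl fun i _ => sum_congr rfl fun k _ => ?_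
  rw [map_mul, Complex.conj_ofReal]
  push_cast
  ring

theorem hPhi_normsq {n : ℕ} (E : Matrix (Fin n) (Fin n) ℝ) (c : Fin n → ℂ) :
    ((‖hPhi E c‖ ^ 2 : ℝ) : ℂ) =
      ∑ i, ∑ k, c i * (starRingEnd ℂ) (c k) * ((∑ j, E i j * E k j : ℝ) : ℂ) := by
  rw [EuclideanSpace.norm_sq_eq, Complex.ofReal_sum]
  simp only [hPhi_apply]
  rw [sum_congr rfl fun j _ => hardy_normsq_sum c (fun i => E i j), sum_comm]
  refine sum_congr rfl fun i _ => ?_
  rw [sum_comm]
  refine sum_congr rfl fun k _ => ?_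
  rw [Complex.ofReal_sum, mul_sum]

theorem hPhi_norm_eq {n : ℕ} (E E' : Matrix (Fin n) (Fin n) ℝ)
    (h : ∀ i k, ∑ j, E i j * E k j = ∑ j, E' i j * E' k j) (c : Fin n → ℂ) :
    ‖hPhi E c‖ = ‖hPhi E' c‖ := by
  have h1 : ((‖hPhi E c‖ ^ 2 : ℝ) : ℂ) = ((‖hPhi E' c‖ ^ 2 : ℝ) : ℂ) := by
    rw [hPhi_normsq, hPhi_normsq]
    simp only [h]
  have h2 : ‖hPhi E c‖ ^ 2 = ‖hPhi E' c‖ ^ 2 := by exact_mod_cast h1
  exact (pow_left_inj₀ (norm_nonneg _) (norm_nonneg _) two_ne_zero).1 h2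

theorem hPhi_contr {n : ℕ} (E : Matrix (Fin n) (Fin n) ℝ) (x g : Fin n → ℝ)
    (h : ∀ i k, (1 - x i * x k) * ∑ j, E i j * E k j = g i * g k) :
    HBd (hPhi E) (fun i => (x i : ℂ)) 1 := by
  intro c
  have h1 : ((‖hPhi E c‖ ^ 2 : ℝ) : ℂ) = ((‖hPhi E (fun i => (x i : ℂ) * c i)‖ ^ 2 : ℝ) : ℂ) +
      ((‖∑ i, c i * (g i : ℂ)‖ ^ 2 : ℝ) : ℂ) := by
    rw [hPhi_normsq, hPhi_normsq, hardy_normsq_sum, ← sum_add_distrib]
    refine sum_congr rfl fun i _ => ?_
    rw [← sum_add_distrib]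
    refine sum_congr rfl fun k _ => ?_
    rw [← h i k, map_mul, Complex.conj_ofReal]
    generalize (∑ j, E i j * E k j) = S
    push_cast
    ring
  have h2 : ‖hPhi E c‖ ^ 2 = ‖hPhi E (fun i => (x i : ℂ) * c i)‖ ^ 2 +
      ‖∑ i, c i * (g i : ℂ)‖ ^ 2 := by exact_mod_cast h1
  rw [one_mul]
  refine (pow_le_pow_iff_left₀ (norm_nonneg _) (norm_nonneg _) two_ne_zero).1 ?_
  rw [h2]
  nlinarith [sq_nonneg ‖∑ i, c i * (g i : ℂ)‖]

/-- Takenaka-Malmquist polynomials. -/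
noncomputable def tmP {n : ℕ} (x : Fin n → ℝ) (j : Fin n) : ℝ[X] :=
  C (Real.sqrt (1 - x j ^ 2)) * ((∏ l ∈ univ.filter (· < j), (X - C (x l))) *
    ∏ l ∈ univ.filter (j < ·), (1 - C (x l) * X))

theorem tm_card {n : ℕ} (j : Fin n) :
    (univ.filter (· < j)).card + (univ.filter (j < ·)).card = n - 1 := by
  have h1 : univ.filter (· < j) = Iio j := by ext; simp
  have h2 : univ.filter (j < ·) = Ioi j := by ext; simp
  rw [h1, h2, Fin.card_Iio, Fin.card_Ioi]
  have := j.2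
  omega

theorem tmP_natDegree {n : ℕ} (x : Fin n → ℝ) (j : Fin n) : (tmP x j).natDegree < n := by
  have hj := j.2
  have h1 : (∏ l ∈ univ.filter (· < j), (X - C (x l))).natDegree ≤ (univ.filter (· < j)).card := by
    refine (natDegree_prod_le _ _).trans ?_
    rw [card_eq_sum_ones]
    exact sum_le_sum fun l _ => (natDegree_X_sub_C _).le
  have h2 : (∏ l ∈ univ.filter (j < ·), (1 - C (x l) * X)).natDegree ≤
      (univ.filter (j < ·)).card := by
    refine (natDegree_prod_le _ _).trans ?_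
    rw [card_eq_sum_ones]
    refine sum_le_sum fun l _ => ?_
    compute_degree
  have h3 := tm_card j
  have h4 : (tmP x j).natDegree ≤ n - 1 := by
    refine (natDegree_C_mul_le _ _).trans (natDegree_mul_le.trans ?_)
    omega
  omega

theorem tmP_eval {n : ℕ} (x : Fin n → ℝ) (j : Fin n) (a : ℝ) :
    (tmP x j).eval a = Real.sqrt (1 - x j ^ 2) * ((∏ l ∈ univ.filter (· < j), (a - x l)) *
      ∏ l ∈ univ.filter (j < ·), (1 - x l * a)) := by
  simp [tmP, eval_prod]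

theorem tmP_sum {n : ℕ} (x : Fin n → ℝ) (j : Fin n) (a : ℝ) :
    ∑ k : Fin n, a ^ (k : ℕ) * (tmP x j).coeff k = (tmP x j).eval a := by
  rw [eval_eq_sum_range' (tmP_natDegree x j), ← Fin.sum_univ_eq_sum_range
    (fun k => (tmP x j).coeff k * a ^ k)]
  exact sum_congr rfl fun k _ => mul_comm _ _

theorem tmP_sum_rev {n : ℕ} (x : Fin n → ℝ) (j : Fin n) (a : ℝ) (ha : a ≠ 0) :
    ∑ k : Fin n, a ^ (n - 1 - k) * (tmP x j).coeff k =
      Real.sqrt (1 - x j ^ 2) * ((∏ l ∈ univ.filter (· < j), (1 - x l * a)) *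
        ∏ l ∈ univ.filter (j < ·), (a - x l)) := by
  have h1 : ∑ k : Fin n, a ^ (n - 1 - k) * (tmP x j).coeff k =
      a ^ (n - 1) * ∑ k : Fin n, a⁻¹ ^ (k : ℕ) * (tmP x j).coeff k := by
    rw [mul_sum]
    refine sum_congr rfl fun k _ => ?_
    have hk : (k : ℕ) ≤ n - 1 := by have := k.2; omega
    rw [pow_sub₀ a ha hk, inv_pow, mul_assoc]
  rw [h1, tmP_sum, tmP_eval, ← tm_card j, pow_add]
  have h2 : ∏ l ∈ univ.filter (· < j), (1 - x l * a) =
      a ^ (univ.filter (· < j)).card * ∏ l ∈ univ.filter (· < j), (a⁻¹ - x l) := by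
    rw [← prod_const, ← prod_mul_distrib]
    exact prod_congr rfl fun l _ => by field_simp
  have h3 : ∏ l ∈ univ.filter (j < ·), (a - x l) =
      a ^ (univ.filter (j < ·)).card * ∏ l ∈ univ.filter (j < ·), (1 - x l * a⁻¹) := by
    rw [← prod_const, ← prod_mul_distrib]
    exact prod_congr rfl fun l _ => by field_simp
  rw [h2, h3]; ring

theorem tm_gram {n : ℕ} (x : Fin n → ℝ) (hx : ∀ i, |x i| < 1) (a b : ℝ) :
    (1 - a * b) * ∑ j, (Real.sqrt (1 - x j ^ 2) * ((∏ l ∈ univ.filter (· < j), (a - x l)) *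
      ∏ l ∈ univ.filter (j < ·), (1 - x l * a))) *
      (Real.sqrt (1 - x j ^ 2) * ((∏ l ∈ univ.filter (· < j), (b - x l)) *
      ∏ l ∈ univ.filter (j < ·), (1 - x l * b))) =
    (∏ l, (1 - x l * a)) * (∏ l, (1 - x l * b)) - (∏ l, (a - x l)) * ∏ l, (b - x l) := by
  rw [← prod_mul_distrib, ← prod_mul_distrib, hardy_tele, mul_sum]
  refine sum_congr rfl fun j _ => ?_
  have h : Real.sqrt (1 - x j ^ 2) * Real.sqrt (1 - x j ^ 2) = 1 - x j ^ 2 := by
    apply Real.mul_self_sqrt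
    have := (sq_lt_one_iff_abs_lt_one (x j)).2 (hx j)
    linarith
  rw [prod_mul_distrib, prod_mul_distrib]
  linear_combination ((1 - a * b) * (∏ l ∈ univ.filter (· < j), (a - x l)) *
    (∏ l ∈ univ.filter (j < ·), (1 - x l * a)) * (∏ l ∈ univ.filter (· < j), (b - x l)) *
      ∏ l ∈ univ.filter (j < ·), (1 - x l * b)) * h

theorem tm_gram_rev {n : ℕ} (x : Fin n → ℝ) (hx : ∀ i, |x i| < 1) (a b : ℝ) :
    (1 - a * b) * ∑ j, (Real.sqrt (1 - x j ^ 2) * ((∏ l ∈ univ.filter (· < j), (1 - x l * a)) *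
      ∏ l ∈ univ.filter (j < ·), (a - x l))) *
      (Real.sqrt (1 - x j ^ 2) * ((∏ l ∈ univ.filter (· < j), (1 - x l * b)) *
      ∏ l ∈ univ.filter (j < ·), (b - x l))) =
    (∏ l, (1 - x l * a)) * (∏ l, (1 - x l * b)) - (∏ l, (a - x l)) * ∏ l, (b - x l) := by
  rw [← prod_mul_distrib, ← prod_mul_distrib, ← neg_sub (∏ l, (a - x l) * (b - x l)), hardy_tele,
    mul_sum, ← sum_neg_distrib]
  refine sum_congr rfl fun j _ => ?_
  have h : Real.sqrt (1 - x j ^ 2) * Real.sqrt (1 - x j ^ 2) = 1 - x j ^ 2 := by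
    apply Real.mul_self_sqrt
    have := (sq_lt_one_iff_abs_lt_one (x j)).2 (hx j)
    linarith
  rw [prod_mul_distrib, prod_mul_distrib]
  linear_combination ((1 - a * b) * (∏ l ∈ univ.filter (· < j), (1 - x l * a)) *
    (∏ l ∈ univ.filter (j < ·), (a - x l)) * (∏ l ∈ univ.filter (· < j), (1 - x l * b)) *
      ∏ l ∈ univ.filter (j < ·), (b - x l)) * h

/-- Model-space bound for the mixed Vandermonde determinant. -/
theorem hardy_bound {n : ℕ} (hn : 1 ≤ n) (D : ℕ) (x : Fin n → ℝ) (hx : ∀ i, x i ∈ Set.Ioo (-1 : ℝ) 1)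
    (hx0 : ∀ i, x i ≠ 0) (Θ : ℝ) (hΘ1 : 1 ≤ Θ)
    (hΘ : ∀ y ∈ Set.Ioo (0 : ℝ) 1,
      y ^ (2 * D) * ∏ i, (1 + x i ^ 2 * y ^ 2) ≤ Θ ^ 2 * ∏ i, (x i ^ 2 + y ^ 2)) :
    |(Matrix.of fun (i k : Fin n) =>
        x i ^ (k : ℕ) + (if 0 < x i then -5 else 1) * x i ^ (D + (n - 1 - k))).det| ≤
      (100 * (n : ℝ) ^ 2 * Θ) ^ n * |∏ i, ∏ j ∈ Ioi i, (x j - x i)| := by
  set M : Matrix (Fin n) (Fin n) ℝ := Matrix.of fun (i k : Fin n) =>
        x i ^ (k : ℕ) + (if 0 < x i then -5 else 1) * x i ^ (D + (n - 1 - k)) with hM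
  have hn' : (1 : ℝ) ≤ n := by exact_mod_cast hn
  by_cases hinj : Function.Injective x
  swap
  · have : M.det = 0 := by
      simp only [Function.Injective, not_forall] at hinj
      obtain ⟨i, j, hij, hne⟩ := hinj
      refine Matrix.det_zero_of_row_eq hne ?_
      funext k
      simp [hM, hij]
    rw [this, abs_zero]
    positivity
  have hxa : ∀ i, |x i| < 1 := fun i => abs_lt.2 (hx i)
  have hne1 : ∀ i k, 1 - x i * x k ≠ 0 := fun i k => by
    have := hardy_one_sub_ne (hxa i) (hxa k)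
    exact_mod_cast this
  set y : Fin n → ℝ := fun i => (if 0 < x i then -5 else 1) * x i ^ D with hy
  set Cm : Matrix (Fin n) (Fin n) ℝ := Matrix.of fun k j => (tmP x j).coeff k with hCm
  set E : Matrix (Fin n) (Fin n) ℝ := Matrix.of fun i j =>
    Real.sqrt (1 - x j ^ 2) * ((∏ l ∈ univ.filter (· < j), (x i - x l)) *
      ∏ l ∈ univ.filter (j < ·), (1 - x l * x i)) with hE
  set E' : Matrix (Fin n) (Fin n) ℝ := Matrix.of fun i j =>
    Real.sqrt (1 - x j ^ 2) * ((∏ l ∈ univ.filter (· < j), (1 - x l * x i)) *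
      ∏ l ∈ univ.filter (j < ·), (x i - x l)) with hE'
  have hVC : Matrix.vandermonde x * Cm = E := by
    ext i j
    simp only [Matrix.mul_apply, Matrix.vandermonde_apply, hCm, hE, Matrix.of_apply]
    rw [tmP_sum, tmP_eval]
  have hMC : M * Cm = E + Matrix.diagonal y * E' := by
    ext i j
    rw [Matrix.add_apply, Matrix.diagonal_mul]
    simp only [Matrix.mul_apply, hM, hCm, hE, hE', Matrix.of_apply, hy]
    rw [← tmP_eval, ← tmP_sum, ← tmP_sum_rev x j (x i) (hx0 i), mul_sum, ← sum_add_distrib]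
    refine sum_congr rfl fun k _ => ?_
    rw [pow_add]; ring
  have hEdet : E.det ≠ 0 := by
    have htri : E.BlockTriangular OrderDual.toDual := by
      intro i j hij
      have hij' : i < j := hij
      simp only [hE, Matrix.of_apply]
      rw [Finset.prod_eq_zero (i := i) (by simpa using hij') (sub_self _)]
      simp
    rw [Matrix.det_of_isLowerTriangular E htri]
    refine prod_ne_zero_iff.2 fun j _ => ?_
    simp only [hE, Matrix.of_apply]
    refine mul_ne_zero ?_ (mul_ne_zero (prod_ne_zero_iff.2 fun l hl => ?_)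
      (prod_ne_zero_iff.2 fun l _ => hne1 _ _))
    · have := (sq_lt_one_iff_abs_lt_one (x j)).2 (hxa j)
      exact (Real.sqrt_pos.2 (by linarith)).ne'
    · have hl' : l < j := by simpa using hl
      exact sub_ne_zero.2 fun h => hl'.ne' (hinj h)
  have hz : ∀ i, ∏ l, (x i - x l) = 0 := fun i => Finset.prod_eq_zero (mem_univ i) (sub_self _)
  have hG : ∀ i k, (1 - x i * x k) * ∑ j, E i j * E k j =
      (∏ l, (1 - x l * x i)) * ∏ l, (1 - x l * x k) := fun i k => by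
    simp only [hE, Matrix.of_apply]
    rw [tm_gram x hxa, hz i, zero_mul, sub_zero]
  have hG' : ∀ i k, ∑ j, E i j * E k j = ∑ j, E' i j * E' k j := fun i k => by
    apply mul_left_cancel₀ (hne1 i k)
    rw [hG]
    simp only [hE', Matrix.of_apply]
    rw [tm_gram_rev x hxa, hz i, zero_mul, sub_zero]
  have hbd := HBd.final hn (hPhi_contr E x _ hG) hxa hx0 D Θ hΘ1 hΘ
  set W : Matrix (Fin n) (Fin n) ℝ := E⁻¹ * (Matrix.diagonal y * E') with hW
  have hEu : IsUnit E.det := isUnit_iff_ne_zero.2 hEdet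
  have hWb : ∀ j k, |W j k| ≤ 14 * n * Θ := by
    intro j k
    set c : Fin n → ℂ := fun i => ((E⁻¹ j i : ℝ) : ℂ) with hc
    have h1 : hPhi E c = EuclideanSpace.single j (1 : ℂ) := by
      ext l
      rw [hPhi_apply]
      have := congrFun (congrFun (Matrix.nonsing_inv_mul E hEu) j) l
      rw [Matrix.mul_apply, Matrix.one_apply] at this
      simp only [hc]
      rw [show ∑ i, ((E⁻¹ j i : ℝ) : ℂ) * (E i l : ℂ) = ((∑ i, E⁻¹ j i * E i l : ℝ) : ℂ) by
        push_cast; rfl, this]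
      by_cases hjl : j = l
      · subst hjl; simp
      · simp [hjl, Ne.symm hjl]
    have h2 := hbd c
    rw [h1, hPhi_norm_eq E E' hG'] at h2
    have h3 := PiLp.norm_apply_le (hPhi E' fun i => (y i : ℂ) * c i) k
    have h4 : hPhi E' (fun i => (y i : ℂ) * c i) k = ((W j k : ℝ) : ℂ) := by
      rw [hPhi_apply, hW, Matrix.mul_apply]
      push_cast
      refine sum_congr rfl fun i _ => ?_
      rw [Matrix.diagonal_mul]
      simp only [hc]
      push_cast; ring
    rw [h4, Complex.norm_real, Real.norm_eq_abs] at h3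
    simp only [PiLp.norm_single, norm_one, mul_one] at h2
    exact h3.trans h2
  have hdet1 : |(1 + W).det| ≤ (100 * (n : ℝ) ^ 2 * Θ) ^ n := by
    have h1 := Matrix.det_le (A := 1 + W) (abv := AbsoluteValue.abs) (x := 15 * n * Θ)
      (fun j k => by
        have h2 : |(1 : Matrix (Fin n) (Fin n) ℝ) j k| ≤ 1 := by
          rw [Matrix.one_apply]; split_ifs <;> simp
        have h3 := hWb j k
        have h4 := abs_add_le ((1 : Matrix (Fin n) (Fin n) ℝ) j k) (W j k)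
        simp only [AbsoluteValue.abs_apply, Matrix.add_apply]
        nlinarith)
    simp only [AbsoluteValue.abs_apply, Fintype.card_fin, nsmul_eq_mul] at h1
    refine h1.trans ?_
    have h5 : ((n.factorial : ℕ) : ℝ) ≤ (n : ℝ) ^ n := by exact_mod_cast Nat.factorial_le_pow n
    calc ((n.factorial : ℕ) : ℝ) * (15 * n * Θ) ^ n ≤ (n : ℝ) ^ n * (15 * n * Θ) ^ n := by gcongr
      _ = (15 * (n : ℝ) ^ 2 * Θ) ^ n := by rw [← mul_pow]; congr 1; ring
      _ ≤ _ := by gcongr; norm_num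
  have hEW : E + Matrix.diagonal y * E' = E * (1 + W) := by
    rw [Matrix.mul_add, Matrix.mul_one, hW, ← Matrix.mul_assoc, Matrix.mul_nonsing_inv E hEu,
      Matrix.one_mul]
  have hC0 : Cm.det ≠ 0 := by
    intro h0
    apply hEdet
    rw [← hVC, Matrix.det_mul, h0, mul_zero]
  have hfin : M.det = (1 + W).det * (Matrix.vandermonde x).det := by
    apply mul_right_cancel₀ hC0
    rw [← Matrix.det_mul, hMC, hEW, Matrix.det_mul, ← hVC, Matrix.det_mul]; ring
  rw [hfin, abs_mul, Matrix.det_vandermonde]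
  gcongr

end Crest.Agent.R006
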