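import Crest.Agent.R006.Defs
import Crest.Agent.R006.Level1Tab

set_option autoImplicit false

namespace Crest.Agent.R006

open Polynomial Finset Filter Topology

instance l1prime : Fact (Nat.Prime 101) := ⟨by norm_num⟩

/-- The rational `q` has denominator prime to 101 and reduces to `z`. -/
def L1R (q : ℚ) (z : ZMod 101) : Prop :=
  ∃ a b : ℤ, (b : ZMod 101) ≠ 0 ∧ q * b = a ∧ z * b = a

theorem L1R.int (n : ℤ) : L1R n n := ⟨n, 1, by simp, by simp, by simp⟩

theorem L1R.zero : L1R 0 0 := by simpa using L1R.int 0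

theorem L1R.one : L1R 1 1 := by simpa using L1R.int 1

theorem L1R.add {q r : ℚ} {z w : ZMod 101} (h : L1R q z) (k : L1R r w) : L1R (q + r) (z + w) := by
  obtain ⟨a, b, hb, h1, h2⟩ := h
  obtain ⟨c, d, hd, k1, k2⟩ := k
  refine ⟨a * d + c * b, b * d, by push_cast; exact mul_ne_zero hb hd, ?_, ?_⟩
  · push_cast; rw [← h1, ← k1]; ring
  · push_cast; rw [← h2, ← k2]; ring

theorem L1R.mul {q r : ℚ} {z w : ZMod 101} (h : L1R q z) (k : L1R r w) : L1R (q * r) (z * w) := by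
  obtain ⟨a, b, hb, h1, h2⟩ := h
  obtain ⟨c, d, hd, k1, k2⟩ := k
  refine ⟨a * c, b * d, by push_cast; exact mul_ne_zero hb hd, ?_, ?_⟩
  · push_cast; rw [← h1, ← k1]; ring
  · push_cast; rw [← h2, ← k2]; ring

theorem L1R.neg {q : ℚ} {z : ZMod 101} (h : L1R q z) : L1R (-q) (-z) := by
  simpa using (L1R.int (-1)).mul h

theorem L1R.sub {q r : ℚ} {z w : ZMod 101} (h : L1R q z) (k : L1R r w) : L1R (q - r) (z - w) := by
  simpa [sub_eq_add_neg] using h.add k.neg

theorem L1R.sum {ι : Type*} (s : Finset ι) {f : ι → ℚ} {g : ι → ZMod 101}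
    (h : ∀ i ∈ s, L1R (f i) (g i)) : L1R (∑ i ∈ s, f i) (∑ i ∈ s, g i) := by
  classical
  induction s using Finset.induction_on with
  | empty => simpa using L1R.zero
  | insert a s ha ih =>
    rw [Finset.sum_insert ha, Finset.sum_insert ha]
    exact (h a (by simp)).add (ih fun i hi => h i (by simp [hi]))

theorem L1R.prod {ι : Type*} (s : Finset ι) {f : ι → ℚ} {g : ι → ZMod 101}
    (h : ∀ i ∈ s, L1R (f i) (g i)) : L1R (∏ i ∈ s, f i) (∏ i ∈ s, g i) := by
  classical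
  induction s using Finset.induction_on with
  | empty => simpa using L1R.one
  | insert a s ha ih =>
    rw [Finset.prod_insert ha, Finset.prod_insert ha]
    exact (h a (by simp)).mul (ih fun i hi => h i (by simp [hi]))

theorem L1R.det {n : ℕ} {M : Matrix (Fin n) (Fin n) ℚ} {N : Matrix (Fin n) (Fin n) (ZMod 101)}
    (h : ∀ i j, L1R (M i j) (N i j)) : L1R M.det N.det := by
  rw [Matrix.det_apply', Matrix.det_apply']
  exact L1R.sum _ fun σ _ => (L1R.int _).mul (L1R.prod _ fun i _ => h _ _)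

theorem L1R.ne_zero {q : ℚ} {z : ZMod 101} (h : L1R q z) (hz : z ≠ 0) : q ≠ 0 := by
  rintro rfl
  obtain ⟨a, b, hb, h1, h2⟩ := h
  have ha : a = 0 := by exact_mod_cast (by simpa using h1.symm : (a : ℚ) = 0)
  rw [ha] at h2
  exact mul_ne_zero hz hb (by simpa using h2)

theorem L1R.congr {q q' : ℚ} {z z' : ZMod 101} (h : L1R q z) (hq : q' = q) (hz : z' = z) :
    L1R q' z' := hq ▸ hz ▸ h

theorem L1R.of_chk {q : ℚ} {t : ℕ} (h : l1chk q t = true) : L1R q t := by
  simp only [l1chk, Bool.and_eq_true, bne_iff_ne, ne_eq, beq_iff_eq] at h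
  refine ⟨q.num, q.den, ?_, by simp, ?_⟩
  · intro h0
    apply h.1
    have : ((q.den : ℕ) : ZMod 101) = 0 := by exact_mod_cast h0
    exact Nat.mod_eq_zero_of_dvd ((ZMod.natCast_eq_zero_iff _ _).1 this)
  · have h2 : ((q.num - t * q.den : ℤ) : ZMod 101) = 0 :=
      (ZMod.intCast_zmod_eq_zero_iff_dvd _ 101).2 (Int.dvd_of_emod_eq_zero h.2)
    push_cast at h2 ⊢
    linear_combination -h2

theorem l1eq_imp {a b : ℕ} (h : l1eq a b = true) : (a : ZMod 101) = b :=
  (ZMod.natCast_eq_natCast_iff' a b 101).2 (Nat.eq_of_beq_eq_true h)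

theorem l1_100 : (100 : ZMod 101) = -1 := by decide

theorem l1_99 : (99 : ZMod 101) = -2 := by decide

theorem l1R_A {k : ℕ} (hk : k < 50) : L1R (aa k) (l1A k) := L1R.of_chk (l1all_imp l1chk_A k hk)

theorem l1R_H1 {k : ℕ} (hk : k < 50) : L1R (H1 k) (l1H1 k) := L1R.of_chk (l1all_imp l1chk_H1 k hk)

theorem l1R_H2 {k : ℕ} (hk : k < 50) : L1R (H2 k) (l1H2 k) := L1R.of_chk (l1all_imp l1chk_H2 k hk)

theorem l1R_S {k : ℕ} (hk : k < 94) : L1R (Sh ((k : ℤ) - 49)) (l1S k) :=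
  L1R.of_chk (l1all_imp l1chk_S k hk)

theorem l1R_Inv {k : ℕ} (hk : k < 143) : L1R ((k : ℚ) - 49)⁻¹ (l1Inv k) :=
  L1R.of_chk (l1all_imp l1chk_Inv k hk)

theorem l1R_M {i j : ℕ} (hi : i < 50) (hj : j < 44) : L1R (Mh i j) (l1M i j) := by
  have h := l1eq_imp (l1all_imp (l1all_imp l1chk_M i hi) j hj)
  rw [l1sum_eq] at h
  push_cast at h
  rw [l1_100] at h
  have h1 : L1R (Sh ((j : ℤ) - i + 1)) (l1S (j + 50 - i)) :=
    (l1R_S (k := j + 50 - i) (by omega)).congr (by congr 1; omega) rfl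
  have h2 : L1R (∑ k ∈ range i, aa k / ((k : ℚ) + j + 1 - i))
      (∑ k ∈ range i, (l1A k : ZMod 101) * l1Inv (k + j + 50 - i)) := by
    refine L1R.sum _ fun k hk => ?_
    have hk' := Finset.mem_range.1 hk
    refine ((l1R_A (by omega)).mul (l1R_Inv (k := k + j + 50 - i) (by omega))).congr ?_ rfl
    rw [div_eq_mul_inv, Nat.cast_sub (by omega)]
    push_cast
    congr 2
    ring
  exact (h1.sub h2).congr rfl (by rw [h]; ring)

theorem l1R_Z {i j : ℕ} (hi : i < 50) (hj : j < 44) : L1R (Z0 i j) (l1Z i j) := by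
  have h := l1eq_imp (l1all_imp (l1all_imp l1chk_Z i hi) j hj)
  unfold Z0
  by_cases hij : i = j
  · rw [if_pos hij] at h ⊢
    push_cast at h
    rw [l1_100] at h
    exact (l1R_H2 hi).neg.congr rfl (by rw [h]; ring)
  · rw [if_neg hij] at h ⊢
    push_cast at h
    rw [l1_100] at h
    refine (((l1R_H1 hi).sub (l1R_H1 (k := j) (by omega))).mul
      (l1R_Inv (k := i + 49 - j) (by omega))).congr ?_ (by rw [h]; ring)
    rw [div_eq_mul_inv, Nat.cast_sub (by omega)]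
    push_cast
    congr 2
    ring

theorem l1sh_coeff (p : ℤ[X]) (f : ℕ → ℕ) (hf : ∀ i < 50, ((p.coeff i : ℤ) : ZMod 101) = f i)
    (m i : ℕ) (hi : i < 50) : (((X ^ m * p).coeff i : ℤ) : ZMod 101) = l1sh f m i := by
  rw [coeff_X_pow_mul', l1sh]
  split_ifs with h
  · exact hf _ (by omega)
  · simp

theorem l1tri_coeff (p : ℤ[X]) (f : ℕ → ℕ) (hf : ∀ i < 50, ((p.coeff i : ℤ) : ZMod 101) = f i)
    (m i : ℕ) (hi : i < 50) :
    ((((1 - X) ^ (2 * 1) * (X ^ m * p)).coeff i : ℤ) : ZMod 101) = l1tri f m i := by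
  have e : (1 - X) ^ (2 * 1) * (X ^ m * p) =
      X ^ m * p - C 2 * (X ^ (m + 1) * p) + X ^ (m + 2) * p := by
    have : (C 2 : ℤ[X]) = 2 := rfl
    rw [this]; ring
  rw [e, coeff_add, coeff_sub, coeff_C_mul, l1tri]
  push_cast
  rw [l1sh_coeff p f hf _ _ hi, l1sh_coeff p f hf _ _ hi, l1sh_coeff p f hf _ _ hi, l1_99]
  ring

theorem l1rec_coeff (p : ℕ → ℤ[X]) (T : ℕ → ℕ → ℕ)
    (hp : ∀ u, p (u + 2) = 2 * p (u + 1) - X ^ 2 * p u)
    (h0 : ∀ i < 50, (((p 0).coeff i : ℤ) : ZMod 101) = T 0 i)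
    (h1 : ∀ i < 50, (((p 1).coeff i : ℤ) : ZMod 101) = T 1 i)
    (hT : l1all (fun u => l1all (fun i => l1eq (T (u + 2) i)
      (2 * T (u + 1) i + 100 * l1sh (T u) 2 i)) 50) 32 = true) :
    ∀ u < 34, ∀ i < 50, (((p u).coeff i : ℤ) : ZMod 101) = T u i := by
  intro u
  induction u using Nat.strong_induction_on with
  | _ u ih =>
    match u with
    | 0 => exact fun _ => h0
    | 1 => exact fun _ => h1
    | u + 2 =>
      intro hu i hi
      have h := l1eq_imp (l1all_imp (l1all_imp hT u (by omega)) i hi)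
      have e : (2 : ℤ[X]) = C 2 := rfl
      rw [hp, e, coeff_sub, coeff_C_mul, h]
      push_cast
      rw [l1sh_coeff _ _ (ih u (by omega) (by omega)) _ _ hi,
        ih (u + 1) (by omega) (by omega) i hi, l1_100]
      ring

theorem l1Pa_coeff : ∀ u < 34, ∀ i < 50, (((pa u).coeff i : ℤ) : ZMod 101) = l1Pa u i := by
  refine l1rec_coeff pa l1Pa (fun u => rfl) (fun i hi => ?_) (fun i hi => ?_) l1chk_Pa
  · have h := l1all_imp l1chk_P01 i hi
    simp only [Bool.and_eq_true] at h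
    rw [l1eq_imp h.1.1.1, pa, coeff_one]
    split_ifs <;> simp
  · have h := l1all_imp l1chk_P01 i hi
    simp only [Bool.and_eq_true] at h
    rw [l1eq_imp h.1.1.2, pa, coeff_one]
    split_ifs <;> simp

theorem l1Pb_coeff : ∀ u < 34, ∀ i < 50, (((pb u).coeff i : ℤ) : ZMod 101) = l1Pb u i := by
  refine l1rec_coeff pb l1Pb (fun u => rfl) (fun i hi => ?_) (fun i hi => ?_) l1chk_Pb
  · have h := l1all_imp l1chk_P01 i hi
    simp only [Bool.and_eq_true] at h
    rw [l1eq_imp h.1.2, pb]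
    simp
  · have h := l1all_imp l1chk_P01 i hi
    simp only [Bool.and_eq_true] at h
    rw [l1eq_imp h.2, pb, coeff_one]
    split_ifs <;> simp

theorem l1_natAbs (r : ℕ) : ((r : ℤ) - 3 * (1 : ℕ)).natAbs = r - 3 + (3 - r) := by omega

theorem l1P_coeff {r i : ℕ} (hr : r < 37) (hi : i < 50) :
    (((rowP 1 r).coeff i : ℤ) : ZMod 101) = l1P r i := by
  rw [l1eq_imp (l1all_imp (l1all_imp l1chk_P r hr) i hi), rowP, alphaP, l1_natAbs]
  exact l1tri_coeff _ _ (l1Pa_coeff _ (by omega)) _ _ hi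

theorem l1D_coeff {r i : ℕ} (hr : r < 37) (hi : i < 50) :
    (((rowD 1 r).coeff i : ℤ) : ZMod 101) = l1D r i := by
  rw [l1eq_imp (l1all_imp (l1all_imp l1chk_D r hr) i hi), rowD, deltaP, l1_natAbs, mul_assoc,
    mul_left_comm, coeff_C_mul]
  push_cast
  rw [l1tri_coeff _ _ (l1Pb_coeff _ (by omega)) _ _ hi]
  congr 1
  split_ifs with h1 h2
  · rw [Int.sign_eq_neg_one_of_neg (by omega), l1_100]; simp
  · subst h2; simp
  · rw [Int.sign_eq_one_of_pos (by omega)]; simp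

theorem l1R_E {r j : ℕ} (hr : r < 37) (hj : j < 44) : L1R (E0m 1 r j) (l1E r j) := by
  have h := l1eq_imp (l1all_imp (l1all_imp l1chk_E r hr) j hj)
  rw [l1sum_eq] at h
  push_cast at h
  rw [h, E0m]
  refine L1R.sum _ fun i hi => ?_
  have hi' : i < 50 := Finset.mem_range.1 hi
  have h32 : L1R (3 / 2) (52 : ℕ) := L1R.of_chk (by decide +kernel)
  refine (((L1R.int ((rowP 1 r).coeff i)).mul (l1R_M hi' hj)).sub
    ((h32.mul (L1R.int ((rowD 1 r).coeff i))).mul (l1R_Z hi' hj))).congr rfl ?_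
  rw [l1P_coeff hr hi', l1D_coeff hr hi']
  have : (49 : ZMod 101) = -((52 : ℕ) : ZMod 101) := by decide
  rw [this]
  ring

theorem l1E0_eq (r : ℕ) {k : ℕ} (hk : k < 36) :
    E0 1 r k = E0m 1 r (6 + k) - 2 * E0m 1 r (7 + k) + E0m 1 r (8 + k) := by
  have e : colQ 1 k = X ^ (6 + k) - C 2 * X ^ (7 + k) + X ^ (8 + k) := by
    have : (C 2 : ℤ[X]) = 2 := rfl
    rw [this, colQ]; ring
  rw [E0, e]
  simp only [coeff_add, coeff_sub, coeff_C_mul, coeff_X_pow]
  push_cast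
  simp only [add_mul, sub_mul, mul_assoc, Finset.sum_add_distrib, Finset.sum_sub_distrib,
    ← Finset.mul_sum, ite_mul, one_mul, zero_mul, Finset.sum_ite_eq', Finset.mem_range]
  rw [if_pos (by omega), if_pos (by omega), if_pos (by omega)]

theorem l1R_F {r k : ℕ} (hr : r < 37) (hk : k < 36) : L1R (E0 1 r k) (l1F r k) := by
  have h := l1eq_imp (l1all_imp (l1all_imp l1chk_F r hr) k hk)
  push_cast at h
  rw [l1_99] at h
  refine (((l1R_E hr (j := 6 + k) (by omega)).sub ((L1R.int 2).mul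
    (l1R_E hr (j := 7 + k) (by omega)))).add (l1R_E hr (j := 8 + k) (by omega))).congr ?_ ?_
  · rw [l1E0_eq r hk]; push_cast; ring
  · rw [h]; push_cast; ring

theorem l1_main (c : ℤ) (c' N : ℕ) (hc : (c : ZMod 101) = c') (h : l1inv c' N = true) :
    (Matrix.of fun r k : Fin 36 => E0 1 r k + c * E0 1 (r + 1) k).det ≠ 0 := by
  refine (L1R.det (N := Matrix.of fun r k : Fin 36 =>
    (l1F r k : ZMod 101) + c' * l1F (r + 1) k) fun r k => ?_).ne_zero ?_
  · simp only [Matrix.of_apply]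
    rw [← hc]
    exact (l1R_F (by omega) k.2).add ((L1R.int c).mul (l1R_F (by omega) k.2))
  · refine Matrix.det_ne_zero_of_right_inverse
      (B := Matrix.of fun k s : Fin 36 => (l1g N (36 * k + s) : ZMod 101)) ?_
    ext r s
    have h1 := l1eq_imp (l1all_imp (l1all_imp h r r.2) s s.2)
    rw [l1sum_eq, ← Fin.sum_univ_eq_sum_range
      (fun k => (l1F r k + c' * l1F (r + 1) k) * l1g N (36 * k + s)) 36] at h1
    push_cast at h1
    rw [Matrix.mul_apply, Matrix.one_apply]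
    simp only [Matrix.of_apply]
    rw [h1]
    simp only [Fin.ext_iff]

theorem level1_det_zero : (Matrix.of fun r k : Fin 36 => E0 1 r k).det ≠ 0 := by
  simpa using l1_main 0 0 _ (by simp) l1chk_I0

theorem level1_det_add : (Matrix.of fun r k : Fin 36 => E0 1 r k + E0 1 (r + 1) k).det ≠ 0 := by
  simpa using l1_main 1 1 _ (by simp) l1chk_I1

theorem level1_det_sub : (Matrix.of fun r k : Fin 36 => E0 1 r k - E0 1 (r + 1) k).det ≠ 0 := by
  simpa [sub_eq_add_neg] using l1_main (-1) 100 _ (by decide) l1chk_I2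

end Crest.Agent.R006
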