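import Crest.Agent.R006.FrobPoly
import Crest.Agent.R006.PadicBasic
import Crest.Agent.R006.Level1

set_option autoImplicit false
set_option linter.unusedSectionVars false

namespace Crest.Agent.R006

open Polynomial Finset Filter Topology

/-- `a` is `p`-integral with residue `x`. -/
def Rd (p : ℕ) [Fact p.Prime] (a : ℚ) (x : ZMod p) : Prop :=
  padicNorm p a ≤ 1 ∧ (a : ZMod p) = x

variable {p : ℕ} [hp : Fact p.Prime]

theorem nv_not_dvd_den {a : ℚ} (h : padicNorm p a ≤ 1) : ¬ p ∣ a.den := by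
  intro hd
  have h1 : ¬ (p : ℤ) ∣ a.num := by
    intro hn
    have h2 : p ∣ a.num.natAbs := Int.natCast_dvd.1 hn
    have := Nat.dvd_gcd h2 hd
    rw [a.reduced.gcd_eq_one] at this
    exact hp.out.one_lt.ne' (Nat.dvd_one.1 this)
  have h2 := (padicNorm.int_eq_one_iff a.num).2 h1
  have h3 := (padicNorm.nat_lt_one_iff a.den).2 hd
  have h4 : (a.num : ℚ) = a * a.den := (Rat.mul_den_eq_num a).symm
  rw [h4, padicNorm.mul] at h2
  have := mul_lt_one_of_nonneg_of_lt_one_right h (padicNorm.nonneg _) h3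
  linarith

theorem nv_den_ne {a : ℚ} (h : padicNorm p a ≤ 1) : (a.den : ZMod p) ≠ 0 := by
  rw [Ne, ZMod.natCast_eq_zero_iff]; exact nv_not_dvd_den h

theorem nv_norm_le_of_den {a : ℚ} (h : ¬ p ∣ a.den) : padicNorm p a ≤ 1 := by
  rw [← Rat.num_div_den a, div_eq_mul_inv]
  have := pn_inv_int_of_not_dvd (p := p) (m := (a.den : ℤ)) (by exact_mod_cast h)
  simpa using pn_mul_le (pn_int_le (p := p) a.num) this

theorem nv_cast_eq_zero {a : ℚ} (h : padicNorm p a < 1) : (a : ZMod p) = 0 := by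
  have h4 : (a.num : ℚ) = a * a.den := (Rat.mul_den_eq_num a).symm
  have h1 : padicNorm p (a.num : ℚ) < 1 := by
    rw [h4, padicNorm.mul]
    exact mul_lt_one_of_nonneg_of_lt_one_left (padicNorm.nonneg _) h (pn_nat_le _)
  rw [Rat.cast_def, (ZMod.intCast_zmod_eq_zero_iff_dvd _ _).2 ((padicNorm.int_lt_one_iff _).1 h1),
    zero_div]

namespace Rd

theorem refl' {a : ℚ} (h : padicNorm p a ≤ 1) : Rd p a (a : ZMod p) := ⟨h, rfl⟩

theorem of_eq {a : ℚ} {x y : ZMod p} (h : Rd p a x) (e : x = y) : Rd p a y := e ▸ h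

theorem of_eq' {a b : ℚ} {x : ZMod p} (e : a = b) (h : Rd p b x) : Rd p a x := e ▸ h

theorem add {a b : ℚ} {x y : ZMod p} (h : Rd p a x) (h' : Rd p b y) : Rd p (a + b) (x + y) :=
  ⟨pn_add_le h.1 h'.1, by
    rw [Rat.cast_add_of_ne_zero (nv_den_ne h.1) (nv_den_ne h'.1), h.2, h'.2]⟩

theorem mul {a b : ℚ} {x y : ZMod p} (h : Rd p a x) (h' : Rd p b y) : Rd p (a * b) (x * y) :=
  ⟨by simpa using pn_mul_le h.1 h'.1, by
    rw [Rat.cast_mul_of_ne_zero (nv_den_ne h.1) (nv_den_ne h'.1), h.2, h'.2]⟩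

theorem neg {a : ℚ} {x : ZMod p} (h : Rd p a x) : Rd p (-a) (-x) :=
  ⟨by rw [padicNorm.neg]; exact h.1, by rw [Rat.cast_neg, h.2]⟩

theorem sub {a b : ℚ} {x y : ZMod p} (h : Rd p a x) (h' : Rd p b y) : Rd p (a - b) (x - y) := by
  simpa [sub_eq_add_neg] using h.add h'.neg

theorem int (m : ℤ) : Rd p (m : ℚ) (m : ZMod p) := ⟨pn_int_le m, by simp⟩

theorem zero : Rd p 0 0 := ⟨by simp, by simp⟩

theorem one : Rd p 1 1 := ⟨padicNorm.one.le, by simp⟩

theorem sum {ι : Type*} (s : Finset ι) {f : ι → ℚ} {g : ι → ZMod p}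
    (h : ∀ i ∈ s, Rd p (f i) (g i)) : Rd p (∑ i ∈ s, f i) (∑ i ∈ s, g i) := by
  classical
  induction s using Finset.induction_on with
  | empty => exact zero
  | insert a s ha ih =>
    rw [sum_insert ha, sum_insert ha]
    exact (h a (mem_insert_self _ _)).add (ih fun i hi => h i (mem_insert_of_mem hi))

theorem prod {ι : Type*} (s : Finset ι) {f : ι → ℚ} {g : ι → ZMod p}
    (h : ∀ i ∈ s, Rd p (f i) (g i)) : Rd p (∏ i ∈ s, f i) (∏ i ∈ s, g i) := by
  classical
  induction s using Finset.induction_on with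
  | empty => exact one
  | insert a s ha ih =>
    rw [prod_insert ha, prod_insert ha]
    exact (h a (mem_insert_self _ _)).mul (ih fun i hi => h i (mem_insert_of_mem hi))

theorem of_cg {a b : ℚ} {x : ZMod p} (h : Cg p a b) (h' : Rd p b x) : Rd p a x := by
  have h1 : Rd p (a - b) 0 := ⟨h.2.le, nv_cast_eq_zero h.2⟩
  simpa using h1.add h'

theorem unique {a : ℚ} {x y : ZMod p} (h : Rd p a x) (h' : Rd p a y) : x = y :=
  h.2.symm.trans h'.2

theorem det {n : Type*} [Fintype n] [DecidableEq n] {A : Matrix n n ℚ} {B : Matrix n n (ZMod p)}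
    (h : ∀ r k, Rd p (A r k) (B r k)) : Rd p A.det B.det := by
  rw [Matrix.det_apply', Matrix.det_apply']
  exact sum _ fun σ _ => (int _).mul (prod _ fun i _ => h _ _)

end Rd

theorem nv_coeff_mul_expand {R : Type*} [CommRing R] (β Q : R[X]) (hβ : β.natDegree < p)
    (j₀ K : ℕ) (hj : j₀ < p) :
    (β * expand R p Q).coeff (j₀ + p * K) = β.coeff j₀ * Q.coeff K := by
  induction Q using Polynomial.induction_on' with
  | add a b ha hb => rw [map_add, mul_add, coeff_add, coeff_add, ha, hb, mul_add]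
  | monomial n a =>
    rw [expand_monomial, ← C_mul_X_pow_eq_monomial, ← mul_assoc, coeff_mul_X_pow', coeff_mul_C,
      coeff_monomial]
    rcases lt_trichotomy n K with h | rfl | h
    · have : (n + 1) * p ≤ K * p := Nat.mul_le_mul_right _ h
      rw [add_mul, one_mul, mul_comm K p] at this
      rw [if_pos (by omega), if_neg h.ne, coeff_eq_zero_of_natDegree_lt (by omega)]
      simp
    · rw [mul_comm n p, if_pos (by omega), if_pos rfl, Nat.add_sub_cancel]
    · have : (K + 1) * p ≤ n * p := Nat.mul_le_mul_right _ h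
      rw [add_mul, one_mul, mul_comm K p] at this
      rw [if_neg (by omega), if_neg h.ne']
      simp

theorem nv_sum_range_mul {R : Type*} [AddCommMonoid R] (m : ℕ) (F : ℕ → R) :
    ∑ j ∈ range (m * p), F j = ∑ e ∈ range p, ∑ K ∈ range m, F (e + p * K) := by
  induction m with
  | zero => simp
  | succ m ih =>
    rw [add_mul, one_mul, sum_range_add, ih, ← sum_add_distrib]
    refine sum_congr rfl fun e _ => ?_
    rw [sum_range_succ, mul_comm m p, add_comm e]

theorem nv_lam {R : Type*} [CommRing R] (Q γ : R[X]) (hγ : γ.natDegree < p)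
    (hQ : ∀ i, 49 * p < i → Q.coeff i = 0) (j₀ : ℕ) (hj : j₀ < p) (M : ℕ → R) :
    ∑ K ∈ range 50, (Q * γ).coeff (j₀ + p * K) * M K =
      ∑ i ∈ range (49 * p + 1), Q.coeff i *
        (γ.coeff (j₀ + p * ((i + p - 1 - j₀) / p) - i) * M ((i + p - 1 - j₀) / p)) := by
  have hp0 : 0 < p := hp.out.pos
  have hd : Q.natDegree < 49 * p + 1 :=
    Nat.lt_succ_of_le (natDegree_le_iff_coeff_eq_zero.2 hQ)
  conv_lhs => rw [Q.as_sum_range' _ hd]
  simp only [sum_mul, finset_sum_coeff]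
  rw [sum_comm]
  refine sum_congr rfl fun i hi => ?_
  have hi := mem_range.1 hi
  have h2 := Nat.mod_add_div (i + p - 1 - j₀) p
  have h3 := Nat.mod_lt (i + p - 1 - j₀) hp0
  have key : ∀ K, ((monomial i) (Q.coeff i) * γ).coeff (j₀ + p * K) =
      if i ≤ j₀ + p * K then Q.coeff i * γ.coeff (j₀ + p * K - i) else 0 := fun K => by
    rw [← C_mul_X_pow_eq_monomial, mul_assoc, coeff_C_mul, coeff_X_pow_mul']
    split_ifs <;> simp
  rw [sum_eq_single ((i + p - 1 - j₀) / p)]
  · rw [key, if_pos (by omega), mul_assoc]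
  · intro K _ hK
    rw [key]
    rcases lt_or_gt_of_ne hK with h | h
    · have : p * (K + 1) ≤ p * ((i + p - 1 - j₀) / p) := Nat.mul_le_mul_left _ h
      rw [mul_add] at this
      rw [if_neg (by omega), zero_mul]
    · have : p * ((i + p - 1 - j₀) / p + 1) ≤ p * K := Nat.mul_le_mul_left _ h
      rw [mul_add] at this
      rw [if_pos (by omega), coeff_eq_zero_of_natDegree_lt (p := γ) (by omega)]
      simp
  · intro h
    exfalso
    apply h
    rw [mem_range, Nat.div_lt_iff_lt_mul hp0]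
    omega

theorem nv_gamma_deg (hp2 : p ≠ 2) : ((1 - X ^ 2 : (ZMod p)[X]) ^ (p / 2)).natDegree < p := by
  obtain ⟨m, hm⟩ := hp.out.odd_of_ne_two hp2
  have h1 : (1 - X ^ 2 : (ZMod p)[X]).natDegree ≤ 2 := by compute_degree
  have h2 := natDegree_pow_le_of_le (p / 2) h1
  omega

theorem nv_Mh_int (hp50 : 50 ≤ p) {K j : ℕ} (hK : K ≤ 49) (hj : j ≤ 49) :
    padicNorm p (Mh K j) ≤ 1 := by
  have := Mh_norm_le (p := p) (by omega) 49 K j hK hj
  rwa [Nat.log_of_lt (by omega), mul_zero, pow_zero] at this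

theorem nv_Z0_int (hp50 : 50 ≤ p) {K j : ℕ} (hK : K ≤ 49) (hj : j ≤ 49) :
    padicNorm p (Z0 K j) ≤ 1 := by
  have := Z0_norm_le (p := p) 49 K j hK hj
  rwa [Nat.log_of_lt (by omega), mul_zero, pow_zero] at this

theorem nv_32_int (hp50 : 50 ≤ p) : padicNorm p (3 / 2 : ℚ) ≤ 1 := by
  have h1 := pn_nat_le (p := p) 3
  have h2 := (pb_inv_small (p := p) (m := 2) (by omega)).1
  rw [div_eq_mul_inv]
  simpa using pn_mul_le h1 h2

theorem nv_coeff (P : ℤ[X]) (i : ℕ) : Rd p (P.coeff i : ℚ) ((redP p P).coeff i) :=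
  (Rd.int _).of_eq (by simp [redP])

theorem nv_E0m_one (hp50 : 50 ≤ p) (r j : ℕ) (hj : j ≤ 49) :
    Rd p (E0m 1 r j) (∑ K ∈ range 50, ((redP p (rowP 1 r)).coeff K * (Mh K j : ZMod p) -
      ((3 / 2 : ℚ) : ZMod p) * (redP p (rowD 1 r)).coeff K * (Z0 K j : ZMod p))) := by
  unfold E0m
  apply Rd.sum
  intro K hK
  have hK : K ≤ 49 := by have := mem_range.1 hK; omega
  exact ((nv_coeff _ _).mul (Rd.refl' (nv_Mh_int hp50 hK hj))).sub
    (((Rd.refl' (nv_32_int hp50)).mul (nv_coeff _ _)).mul (Rd.refl' (nv_Z0_int hp50 hK hj)))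

theorem nv_E0m (hp50 : 50 ≤ p) (e r j₀ j₁ : ℕ) (he : e < p) (hr : r < 36) (hj₀ : j₀ < p)
    (hj₁ : j₁ < 44) :
    Rd p ((p : ℚ) ^ 2 * E0m p (e + p * r) (j₀ + p * j₁))
      ((betaP p (p - e)).coeff j₀ * (E0m 1 r j₁ : ZMod p) +
        (betaP p e).coeff j₀ * (E0m 1 (r + 1) j₁ : ZMod p)) := by
  have hp0 : 0 < p := hp.out.pos
  have hp2 : p ≠ 2 := by omega
  have hsq : 50 * p ≤ p ^ 2 := by rw [sq]; exact Nat.mul_le_mul_right _ hp50
  have hj1 : p * (j₁ + 1) ≤ p * 44 := Nat.mul_le_mul_left _ hj₁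
  have hr1 : p * (r + 1) ≤ p * 36 := Nat.mul_le_mul_left _ hr
  rw [mul_add] at hj1 hr1
  have hmod : (j₀ + p * j₁) % p = j₀ := by rw [Nat.add_mul_mod_self_left, Nat.mod_eq_of_lt hj₀]
  have hdiv : (j₀ + p * j₁) / p = j₁ := by
    rw [Nat.add_mul_div_left _ _ hp0, Nat.div_eq_of_lt hj₀, zero_add]
  have hP := nv_lam (redP p (rowP p (e + p * r))) _ (nv_gamma_deg hp2)
    (fun i hi => by simp [redP, rowP_coeff_of_gt p (e + p * r) i (by omega) hi]) j₀ hj₀
    (fun K => (Mh K j₁ : ZMod p))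
  have hD := nv_lam (redP p (rowD p (e + p * r))) 1 (by simpa using hp0)
    (fun i hi => by simp [redP, rowD_coeff_of_ge p (e + p * r) i (by omega) hi.le]) j₀ hj₀
    (fun K => (Z0 K j₁ : ZMod p))
  rw [rowP_frob hp2 e r he hr] at hP
  rw [mul_one] at hD
  conv_lhs at hD => rw [rowD_frob hp2 e r he hr]
  simp only [coeff_add, nv_coeff_mul_expand _ _ (betaP_natDegree_lt _ (Nat.sub_le p e)) _ _ hj₀,
    nv_coeff_mul_expand _ _ (betaP_natDegree_lt _ he.le) _ _ hj₀] at hP hD
  have h1 : Rd p ((p : ℚ) ^ 2 * E0m p (e + p * r) (j₀ + p * j₁))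
      (∑ i ∈ range (49 * p + 1), ((redP p (rowP p (e + p * r))).coeff i *
        (((1 - X ^ 2 : (ZMod p)[X]) ^ (p / 2)).coeff (j₀ + p * ((i + p - 1 - j₀) / p) - i) *
          (Mh ((i + p - 1 - j₀) / p) j₁ : ZMod p)) -
        ((3 / 2 : ℚ) : ZMod p) * ((redP p (rowD p (e + p * r))).coeff i *
        ((1 : (ZMod p)[X]).coeff (j₀ + p * ((i + p - 1 - j₀) / p) - i) *
          (Z0 ((i + p - 1 - j₀) / p) j₁ : ZMod p))))) := by
    unfold E0m
    rw [mul_sum]
    apply Rd.sum
    intro i hi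
    have hi := mem_range.1 hi
    have h2 := Nat.mod_add_div (i + p - 1 - j₀) p
    have h3 := Nat.mod_lt (i + p - 1 - j₀) hp0
    have hK : (i + p - 1 - j₀) / p ≤ 49 := by
      apply Nat.le_of_lt_succ
      rw [Nat.div_lt_iff_lt_mul hp0]; omega
    set K := (i + p - 1 - j₀) / p with hKdef
    have c1 := cg_frob_Mh hp2 i j₀ j₁ K (j₀ + p * K - i) (by omega) (by omega) hj₀ (by omega)
      (by omega)
    have c2 := cg_frob_Z0 (p := p) i (j₀ + p * j₁) (by omega) (by omega)
    rw [hmod, hdiv] at c2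
    have d1 := Rd.of_cg c1 ((Rd.refl' (cc_norm_le hp2 _)).mul
      (Rd.refl' (nv_Mh_int hp50 hK (by omega))))
    rw [← coeff_gamma hp2 _ (by omega)] at d1
    have d2 : Rd p (if i % p = j₀ then Z0 (i / p) j₁ else 0)
        ((1 : (ZMod p)[X]).coeff (j₀ + p * K - i) * (Z0 K j₁ : ZMod p)) := by
      have h4 := Nat.mod_add_div i p
      rw [coeff_one]
      by_cases h : i % p = j₀
      · have h5 : K = i / p := by
          rw [hKdef]
          have : i + p - 1 - j₀ = (p - 1) + p * (i / p) := by omega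
          rw [this, Nat.add_mul_div_left _ _ hp0, Nat.div_eq_of_lt (by omega), zero_add]
        rw [if_pos h, if_pos (by rw [h5]; omega), one_mul, ← h5]
        exact Rd.refl' (nv_Z0_int hp50 hK (by omega))
      · rw [if_neg h, if_neg, zero_mul]
        · exact Rd.zero
        · intro h5
          apply h
          have : i = j₀ + p * K := by omega
          rw [this, Nat.add_mul_mod_self_left, Nat.mod_eq_of_lt hj₀]
    have d3 := ((nv_coeff (rowP p (e + p * r)) i).mul d1).sub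
      ((Rd.refl' (nv_32_int hp50)).mul ((nv_coeff (rowD p (e + p * r)) i).mul (Rd.of_cg c2 d2)))
    exact Rd.of_eq' (by ring) d3
  refine h1.of_eq ?_
  rw [sum_sub_distrib, ← mul_sum, ← hP, ← hD, (nv_E0m_one hp50 r j₁ (by omega)).2,
    (nv_E0m_one hp50 (r + 1) j₁ (by omega)).2]
  simp only [mul_sum, ← sum_sub_distrib, ← sum_add_distrib]
  exact sum_congr rfl fun K _ => by ring

theorem nv_E0_one (hp50 : 50 ≤ p) (r k : ℕ) :
    Rd p (E0 1 r k) (∑ j ∈ range 44, (redP p (colQ 1 k)).coeff j * (E0m 1 r j : ZMod p)) := by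
  unfold E0
  apply Rd.sum
  intro j hj
  have hj := mem_range.1 hj
  exact (nv_coeff _ _).mul (Rd.refl' (nv_E0m_one hp50 r j (by omega)).1)

theorem nv_E0 (hp50 : 50 ≤ p) (e r k₀ k₁ : ℕ) (he : e < p) (hr : r < 36) (hk₀ : k₀ < p) :
    Rd p ((p : ℚ) ^ 2 * E0 p (e + p * r) (k₀ + p * k₁))
      ((betaP p (p - e)).coeff k₀ * (E0 1 r k₁ : ZMod p) +
        (betaP p e).coeff k₀ * (E0 1 (r + 1) k₁ : ZMod p)) := by
  have h1 : Rd p ((p : ℚ) ^ 2 * E0 p (e + p * r) (k₀ + p * k₁))
      (∑ j₀ ∈ range p, ∑ j₁ ∈ range 44, (redP p (colQ p (k₀ + p * k₁))).coeff (j₀ + p * j₁) *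
        ((betaP p (p - e)).coeff j₀ * (E0m 1 r j₁ : ZMod p) +
        (betaP p e).coeff j₀ * (E0m 1 (r + 1) j₁ : ZMod p))) := by
    unfold E0
    rw [nv_sum_range_mul, mul_sum]
    apply Rd.sum
    intro j₀ hj₀
    rw [mul_sum]
    apply Rd.sum
    intro j₁ hj₁
    exact Rd.of_eq' (by ring) ((nv_coeff _ _).mul
      (nv_E0m hp50 e r j₀ j₁ he hr (mem_range.1 hj₀) (mem_range.1 hj₁)))
  refine h1.of_eq ?_
  rw [colQ_frob, sum_eq_single k₀]
  · simp only [nv_coeff_mul_expand _ _ (by simpa using hk₀ : (X ^ k₀ : (ZMod p)[X]).natDegree < p)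
      _ _ hk₀]
    rw [(nv_E0_one hp50 r k₁).2, (nv_E0_one hp50 (r + 1) k₁).2]
    simp only [mul_sum, ← sum_add_distrib, coeff_X_pow_self]
    exact sum_congr rfl fun K _ => by ring
  · intro j₀ hj₀ hne
    simp only [nv_coeff_mul_expand _ _ (by simpa using hk₀ : (X ^ k₀ : (ZMod p)[X]).natDegree < p)
      _ _ (mem_range.1 hj₀)]
    simp [coeff_X_pow, hne]
  · intro h; exact absurd (mem_range.2 hk₀) h

theorem nv_EB_int (hp2 : p ≠ 2) (N r k : ℕ) : padicNorm p (EB N r k) ≤ 1 := by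
  unfold EB EBm
  apply pn_sum_le _ _ zero_le_one
  intro j _
  rw [← one_mul (1 : ℚ)]
  apply pn_mul_le (pn_int_le _)
  apply pn_sum_le _ _ zero_le_one
  intro i _
  rw [← one_mul (1 : ℚ)]
  apply pn_mul_le (pn_int_le _)
  unfold ccz
  split_ifs
  · exact cc_norm_le hp2 _
  · simp

/-- The linear algebra over the residue field. -/
theorem nv_lin (hp2 : p ≠ 2) (E : ℕ → ℕ → ZMod p)
    (h0 : (Matrix.of fun r k : Fin 36 => E r k).det ≠ 0)
    (h1 : (Matrix.of fun r k : Fin 36 => E r k + E (r + 1) k).det ≠ 0)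
    (h2 : (Matrix.of fun r k : Fin 36 => E r k - E (r + 1) k).det ≠ 0) :
    (Matrix.of fun r k : Fin (36 * p) =>
      (betaP p (p - r % p)).coeff (k % p) * E (r / p) (k / p) +
        (betaP p (r % p)).coeff (k % p) * E (r / p + 1) (k / p)).det ≠ 0 := by
  have hp0 : 0 < p := hp.out.pos
  intro hdet
  obtain ⟨v, hv0, hv⟩ := Matrix.exists_vecMul_eq_zero_iff.2 hdet
  apply hv0
  let w : ℕ → ZMod p := fun n => if h : n < 36 * p then v ⟨n, h⟩ else 0
  let A : ℕ → ℕ → ZMod p := fun e k => ∑ r ∈ range 36, w (e + p * r) * E r k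
  let B : ℕ → ℕ → ZMod p := fun e k => ∑ r ∈ range 36, w (e + p * r) * E (r + 1) k
  have hc : ∀ k₀ < p, ∀ k₁ < 36, ∑ e ∈ range p, (A e k₁ * (betaP p (p - e)).coeff k₀ +
      B e k₁ * (betaP p e).coeff k₀) = 0 := by
    intro k₀ hk₀ k₁ hk₁
    have hk1 : p * (k₁ + 1) ≤ p * 36 := Nat.mul_le_mul_left _ hk₁
    rw [mul_add] at hk1
    have := congrFun hv ⟨k₀ + p * k₁, by omega⟩
    simp only [Matrix.vecMul, dotProduct, Matrix.of_apply, Pi.zero_apply] at this
    rw [Nat.add_mul_mod_self_left, Nat.mod_eq_of_lt hk₀, Nat.add_mul_div_left _ _ hp0,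
      Nat.div_eq_of_lt hk₀, zero_add] at this
    have e1 : ∑ x : Fin (36 * p), v x * ((betaP p (p - x % p)).coeff k₀ * E (x / p) k₁ +
        (betaP p (x % p)).coeff k₀ * E (x / p + 1) k₁) =
        ∑ x ∈ range (36 * p), w x * ((betaP p (p - x % p)).coeff k₀ * E (x / p) k₁ +
        (betaP p (x % p)).coeff k₀ * E (x / p + 1) k₁) := by
      rw [← Fin.sum_univ_eq_sum_range (fun x => w x * ((betaP p (p - x % p)).coeff k₀ *
        E (x / p) k₁ + (betaP p (x % p)).coeff k₀ * E (x / p + 1) k₁))]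
      exact sum_congr rfl fun x _ => by simp [w]
    rw [e1, nv_sum_range_mul] at this
    rw [← this]
    refine sum_congr rfl fun e he => ?_
    have he := mem_range.1 he
    simp only [A, B, sum_mul, ← sum_add_distrib]
    refine sum_congr rfl fun r _ => ?_
    rw [Nat.add_mul_mod_self_left, Nat.mod_eq_of_lt he, Nat.add_mul_div_left _ _ hp0,
      Nat.div_eq_of_lt he, zero_add]
    ring
  have hind : ∀ k₁ < 36, ∀ f < p, A (p - 1 - f) k₁ + (if f + 1 < p then B (f + 1) k₁ else 0) = 0 := by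
    intro k₁ hk₁ f hf
    have hli := Fintype.linearIndependent_iff.1 (betaP_linearIndependent (p := p) hp2)
      (fun f : Fin p => A (p - 1 - f) k₁ + (if (f : ℕ) + 1 < p then B (f + 1) k₁ else 0)) ?_
      ⟨f, hf⟩
    · exact hli
    rw [Fin.sum_univ_eq_sum_range (fun f => (A (p - 1 - f) k₁ +
      (if f + 1 < p then B (f + 1) k₁ else 0)) • betaP p (f + 1))]
    ext k₀
    simp only [finset_sum_coeff, coeff_smul, smul_eq_mul, coeff_zero]
    rcases lt_or_ge k₀ p with hk₀ | hk₀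
    · refine Eq.trans ?_ (hc k₀ hk₀ k₁ hk₁)
      simp only [add_mul, sum_add_distrib]
      congr 1
      · rw [← sum_range_reflect]
        refine sum_congr rfl fun e he => ?_
        have he := mem_range.1 he
        rw [show p - 1 - (p - 1 - e) = e by omega, show p - 1 - e + 1 = p - e by omega]
      · obtain ⟨q, hq⟩ : ∃ q, p = q + 1 := ⟨p - 1, by omega⟩
        have hr : range p = range (q + 1) := by rw [← hq]
        rw [hr, sum_range_succ, sum_range_succ' _ q, if_neg (by omega), betaP_zero]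
        simp only [zero_mul, add_zero, coeff_zero, mul_zero]
        refine sum_congr rfl fun e he => ?_
        have he := mem_range.1 he
        rw [if_pos (by omega)]
    · refine sum_eq_zero fun f hf => ?_
      have hf := mem_range.1 hf
      rw [coeff_eq_zero_of_natDegree_lt ((betaP_natDegree_lt _ hf).trans_le hk₀), mul_zero]
  have hz : ∀ (M : ℕ → ℕ → ZMod p), (Matrix.of fun r k : Fin 36 => M r k).det ≠ 0 →
      ∀ u : ℕ → ZMod p, (∀ k < 36, ∑ r ∈ range 36, u r * M r k = 0) → ∀ r < 36, u r = 0 := by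
    intro M hM u hu r hr
    have := Matrix.eq_zero_of_vecMul_eq_zero hM (v := fun r : Fin 36 => u r) (by
      funext k
      simp only [Matrix.vecMul, dotProduct, Matrix.of_apply, Pi.zero_apply]
      rw [Fin.sum_univ_eq_sum_range (fun r => u r * M r k)]
      exact hu k k.2)
    exact congrFun this ⟨r, hr⟩
  have hw : ∀ e < p, ∀ r < 36, w (e + p * r) = 0 := by
    intro e he
    rcases Nat.eq_zero_or_pos e with rfl | he0
    · refine hz E h0 (fun r => w (0 + p * r)) fun k hk => ?_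
      have := hind k hk (p - 1) (by omega)
      rw [if_neg (by omega), Nat.sub_self, add_zero] at this
      exact this
    · have k1 : ∀ k < 36, A (p - e) k + B e k = 0 := fun k hk => by
        have := hind k hk (e - 1) (by omega)
        rwa [if_pos (by omega), show p - 1 - (e - 1) = p - e by omega,
          show e - 1 + 1 = e by omega] at this
      have k2 : ∀ k < 36, A e k + B (p - e) k = 0 := fun k hk => by
        have := hind k hk (p - e - 1) (by omega)
        rwa [if_pos (by omega), show p - 1 - (p - e - 1) = e by omega,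
          show p - e - 1 + 1 = p - e by omega] at this
      have k3 := hz (fun r k => E r k + E (r + 1) k) h1
        (fun r => w (e + p * r) + w (p - e + p * r)) fun k hk => by
          have := congrArg₂ (· + ·) (k1 k hk) (k2 k hk)
          simp only [A, B, ← sum_add_distrib, add_zero] at this
          rw [← this]
          exact sum_congr rfl fun r _ => by ring
      have k4 := hz (fun r k => E r k - E (r + 1) k) h2
        (fun r => w (e + p * r) - w (p - e + p * r)) fun k hk => by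
          have := congrArg₂ (· - ·) (k2 k hk) (k1 k hk)
          simp only [A, B, ← sum_add_distrib, ← sum_sub_distrib, sub_zero] at this
          rw [← this]
          exact sum_congr rfl fun r _ => by ring
      intro r hr
      have h2ne : (2 : ZMod p) ≠ 0 := by
        intro h
        have : p ∣ 2 := (ZMod.natCast_eq_zero_iff 2 p).1 (by exact_mod_cast h)
        exact hp2 ((Nat.prime_dvd_prime_iff_eq hp.out Nat.prime_two).1 this)
      apply mul_left_cancel₀ h2ne
      have a3 := k3 r hr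
      have a4 := k4 r hr
      linear_combination a3 + a4
  funext x
  have := hw (x % p) (Nat.mod_lt _ hp0) (x / p) ((Nat.div_lt_iff_lt_mul hp0).2 x.2)
  rw [Nat.mod_add_div] at this
  simpa [w] using this

theorem nv_cast_ne {a : ℚ} (ha : a ≠ 0) (h : a.num.natAbs < p) {x : ZMod p} (hx : Rd p a x) :
    x ≠ 0 := by
  rw [← hx.2, Rat.cast_def]
  apply div_ne_zero _ (nv_den_ne hx.1)
  rw [Ne, ZMod.intCast_zmod_eq_zero_iff_dvd, Int.natCast_dvd]
  exact Nat.not_dvd_of_pos_of_lt (Int.natAbs_pos.2 (Rat.num_ne_zero.2 ha)) h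

omit hp in
theorem det_ne_zero (G : ℚ) : ∀ᶠ p : ℕ in atTop, p.Prime → (Emat G p).det ≠ 0 := by
  filter_upwards [eventually_ge_atTop 50, eventually_gt_atTop G.den,
    eventually_gt_atTop (Matrix.of fun r k : Fin 36 => E0 1 r k).det.num.natAbs,
    eventually_gt_atTop (Matrix.of fun r k : Fin 36 => E0 1 r k + E0 1 (r + 1) k).det.num.natAbs,
    eventually_gt_atTop (Matrix.of fun r k : Fin 36 => E0 1 r k - E0 1 (r + 1) k).det.num.natAbs]
    with p hp50 hG h0 h1 h2 hpr
  haveI : Fact p.Prime := ⟨hpr⟩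
  have hp0 : 0 < p := hpr.pos
  have hp2 : p ≠ 2 := by omega
  have hE : ∀ r k, Rd p (E0 1 r k) (E0 1 r k : ZMod p) := fun r k =>
    Rd.refl' (nv_E0_one hp50 r k).1
  have hl := nv_lin hp2 (fun r k => (E0 1 r k : ZMod p))
    (nv_cast_ne level1_det_zero h0 (Rd.det fun r k => hE _ _))
    (nv_cast_ne level1_det_add h1 (Rd.det fun r k => (hE _ _).add (hE _ _)))
    (nv_cast_ne level1_det_sub h2 (Rd.det fun r k => (hE _ _).sub (hE _ _)))
  intro hdet
  apply hl
  have hGi : padicNorm p G ≤ 1 := nv_norm_le_of_den (Nat.not_dvd_of_pos_of_lt G.pos hG)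
  have hd : Rd p (((p : ℚ) ^ 2) • Emat G p).det (Matrix.of fun r k : Fin (36 * p) =>
      (betaP p (p - r % p)).coeff (k % p) * (E0 1 (r / p) (k / p) : ZMod p) +
        (betaP p (r % p)).coeff (k % p) * (E0 1 (r / p + 1) (k / p) : ZMod p)).det := by
    apply Rd.det
    intro r k
    have a1 := nv_E0 hp50 (r % p) (r / p) (k % p) (k / p) (Nat.mod_lt _ hp0)
      ((Nat.div_lt_iff_lt_mul hp0).2 r.2) (Nat.mod_lt _ hp0)
    rw [Nat.mod_add_div, Nat.mod_add_div] at a1
    have a2 : Rd p (p : ℚ) 0 := ⟨pn_p_lt.le, nv_cast_eq_zero pn_p_lt⟩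
    have a3 := (a2.mul a2).mul (((Rd.int 4).mul (Rd.refl' hGi)).mul
      (Rd.refl' (nv_EB_int hp2 p r k)))
    refine Rd.of_eq' ?_ ((a1.add a3).of_eq (by simp))
    simp only [Emat, Matrix.smul_apply, Matrix.of_apply, smul_eq_mul, Rat.cast_id]
    push_cast
    ring
  rw [Matrix.det_smul, hdet, mul_zero] at hd
  exact hd.unique Rd.zero

end Crest.Agent.R006
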