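import Crest.Agent.R006.Poly
import Crest.Agent.R006.Andreief
import Crest.Agent.R006.Hardy

set_option autoImplicit false

namespace Crest.Agent.R006

open Polynomial Finset Filter Topology

theorem rb_sq_lt {x : ℝ} (hx : x ∈ Set.Ioo (-1 : ℝ) 1) : x ^ 2 < 1 := by
  nlinarith [hx.1, hx.2]

theorem rb_pt1 (x y : ℝ) (hx : x ∈ Set.Ioo (-1 : ℝ) 1) (hx0 : x ≠ 0)
    (hy : y ∈ Set.Ioo (0 : ℝ) 1) :
    2 * ff x * Real.log y ≤ Real.log (x ^ 2 + y ^ 2) - Real.log (1 + x ^ 2 * y ^ 2) := by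
  set g : ℝ → ℝ := fun v => Real.log (x ^ 2 + v ^ 2) - Real.log (1 + x ^ 2 * v ^ 2)
    - 2 * ff x * Real.log v with hg
  have hx2 : 0 < x ^ 2 := by positivity
  have hx1 : 0 < 1 - x ^ 2 := sub_pos.2 (rb_sq_lt hx)
  have hd : ∀ v ∈ Set.Icc y 1, HasDerivAt g
      (2 * v / (x ^ 2 + v ^ 2) - x ^ 2 * (2 * v) / (1 + x ^ 2 * v ^ 2) - 2 * ff x * v⁻¹) v := by
    intro v hv
    have hv0 : 0 < v := hy.1.trans_le hv.1
    have h1 : HasDerivAt (fun v : ℝ => x ^ 2 + v ^ 2) (2 * v) v := by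
      simpa using (hasDerivAt_pow 2 v).const_add (x ^ 2)
    have h2 : HasDerivAt (fun v : ℝ => 1 + x ^ 2 * v ^ 2) (x ^ 2 * (2 * v)) v := by
      simpa using ((hasDerivAt_pow 2 v).const_mul (x ^ 2)).const_add 1
    exact ((h1.log (by positivity)).sub (h2.log (by positivity))).sub
      ((Real.hasDerivAt_log hv0.ne').const_mul (2 * ff x))
  have hanti : AntitoneOn g (Set.Icc y 1) := by
    refine antitoneOn_of_deriv_nonpos (convex_Icc _ _)
      (fun v hv => (hd v hv).continuousAt.continuousWithinAt)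
      (fun v hv => (hd v (interior_subset hv)).differentiableAt.differentiableWithinAt) ?_
    intro v hv
    have hv' := interior_subset hv
    have hv0 : 0 < v := hy.1.trans_le hv'.1
    rw [(hd v hv').deriv]
    have : 2 * v / (x ^ 2 + v ^ 2) - x ^ 2 * (2 * v) / (1 + x ^ 2 * v ^ 2) - 2 * ff x * v⁻¹ =
        -((2 * (1 - x ^ 2) * (x ^ 2 * (1 - v ^ 2) ^ 2)) /
          (v * (x ^ 2 + v ^ 2) * (1 + x ^ 2 * v ^ 2) * (1 + x ^ 2))) := by
      unfold ff; field_simp; ring
    rw [this, neg_nonpos]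
    positivity
  have := hanti ⟨le_rfl, hy.2.le⟩ ⟨hy.2.le, le_rfl⟩ hy.2.le
  simp only [hg, one_pow, mul_one, Real.log_one, mul_zero, add_comm (x ^ 2) 1, sub_self] at this
  linarith

theorem rb_ff_le (x : ℝ) (hx : x ∈ Set.Ioo (-1 : ℝ) 1) :
    ff x ≤ 1 - 7 / 5 * Real.log (1 + x ^ 2) := by
  have hu0 : 0 ≤ x ^ 2 := sq_nonneg x
  have hu1 := (rb_sq_lt hx).le
  set u := x ^ 2 with hu
  have hc := Real.convexOn_mul_log.2 (show (1 : ℝ) ∈ Set.Ici (0 : ℝ) by simp)
    (show (2 : ℝ) ∈ Set.Ici (0 : ℝ) by simp) (show 0 ≤ 1 - u by linarith) hu0 (by ring)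
  simp only [smul_eq_mul, Real.log_one, mul_zero, mul_one, zero_add] at hc
  have e : 1 - u + u * 2 = 1 + u := by ring
  rw [e] at hc
  have hl := Real.log_two_lt_d9
  have h1 : 0 < 1 + u := by linarith
  have : ff x = 1 - 2 * u / (1 + u) := by unfold ff; rw [← hu]; field_simp; ring
  rw [this]
  have : 7 / 5 * Real.log (1 + u) ≤ 2 * u / (1 + u) := by
    rw [le_div_iff₀ h1]; nlinarith
  linarith

/-- Logarithmic form of the model-space bound. -/
theorem rb_hardy_log {n : ℕ} (hn : 1 ≤ n) (D : ℕ) (x : Fin n → ℝ)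
    (hx : ∀ i, x i ∈ Set.Ioo (-1 : ℝ) 1) (hx0 : ∀ i, x i ≠ 0) (τ : ℝ) (hτ : 0 ≤ τ)
    (h : ∀ y ∈ Set.Ioo (0 : ℝ) 1, 2 * D * Real.log y + ∑ i, Real.log (1 + x i ^ 2 * y ^ 2) ≤
      2 * τ + ∑ i, Real.log (x i ^ 2 + y ^ 2)) :
    |(Matrix.of fun (i k : Fin n) =>
        x i ^ (k : ℕ) + (if 0 < x i then -5 else 1) * x i ^ (D + (n - 1 - k))).det| ≤
      (100 * (n : ℝ) ^ 2 * Real.exp τ) ^ n * |∏ i, ∏ j ∈ Ioi i, (x j - x i)| := by
  refine hardy_bound hn D x hx hx0 _ (Real.one_le_exp hτ) fun y hy => ?_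
  have hy0 := hy.1
  have p1 : ∀ i, 0 < 1 + x i ^ 2 * y ^ 2 := fun i => by positivity
  have p2 : ∀ i, 0 < x i ^ 2 + y ^ 2 := fun i => by positivity
  have q1 : 0 < ∏ i, (1 + x i ^ 2 * y ^ 2) := prod_pos fun i _ => p1 i
  have q2 : 0 < ∏ i, (x i ^ 2 + y ^ 2) := prod_pos fun i _ => p2 i
  rw [← Real.log_le_log_iff (by positivity) (by positivity), Real.log_mul (by positivity) q1.ne',
    Real.log_mul (by positivity) q2.ne', Real.log_pow, Real.log_pow, Real.log_exp,
    Real.log_prod (fun i _ => (p1 i).ne'), Real.log_prod (fun i _ => (p2 i).ne')]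
  have := h y hy
  push_cast
  linarith

theorem rb_Frow_eq (N r : ℕ) (hr : r < 36 * N) (x : ℝ) (hx0 : x ≠ 0) :
    Frow N r x = ((if 0 < x then -1 / 4 else -1 / 2) * (1 - tt x) ^ (2 * N) * tt x ^ (47 * N) *
      (2 / (1 + x ^ 2)) / x ^ (33 * N - 1)) *
      (x ^ (36 * N - 1 - r) + (if 0 < x then -5 else 1) * x ^ (30 * N - 1 + r)) := by
  have h1 : (1 : ℝ) + x ^ 2 ≠ 0 := by positivity
  have hu : ((r : ℤ) - 3 * N).natAbs ≤ 47 * N := by omega
  have ha := alphaP_eval (47 * N) _ hu x hx0 h1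
  have hd := deltaP_eval (47 * N) _ hu x hx0 h1
  have e1 : x ^ ((r : ℤ) - 3 * N) = x ^ (30 * N - 1 + r) / x ^ (33 * N - 1) := by
    rw [← zpow_natCast, ← zpow_natCast, ← zpow_sub₀ hx0]; congr 1; omega
  have e2 : x ^ (-((r : ℤ) - 3 * N)) = x ^ (36 * N - 1 - r) / x ^ (33 * N - 1) := by
    rw [← zpow_natCast, ← zpow_natCast, ← zpow_sub₀ hx0]; congr 1; omega
  rw [e1, e2] at ha hd
  change 2 * aeval (tt x) _ = tt x ^ _ * _ at ha
  change 2 * ff x * aeval (tt x) _ = tt x ^ _ * _ at hd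
  unfold Frow rowP rowD
  simp only [map_mul, map_pow, map_sub, map_one, aeval_X]
  set a := aeval (tt x) (alphaP (47 * N) ((r : ℤ) - 3 * N))
  set d := aeval (tt x) (deltaP (47 * N) ((r : ℤ) - 3 * N))
  set P := x ^ (30 * N - 1 + r)
  set Q := x ^ (36 * N - 1 - r)
  set R := x ^ (33 * N - 1)
  set T := tt x ^ (47 * N)
  set U := (1 - tt x) ^ (2 * N)
  set V := 2 / (1 + x ^ 2)
  split_ifs
  · have : U * a - 3 / 2 * ff x * (U * d) = U * ((2 * a) / 2 - 3 / 4 * (2 * ff x * d)) := by ring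
    rw [this, ha, hd]; ring
  · have : -(U * a) = -U * ((2 * a) / 2) := by ring
    rw [this, ha]; ring

theorem rb_Frow_zero (N r : ℕ) (hr : r < 36 * N) : Frow N r 0 = 0 := by
  have h := rowP_coeff_of_le N r 0 hr (Nat.zero_le _)
  have : tt 0 = 0 := by simp [tt]
  simp [Frow, this, ← coeff_zero_eq_aeval_zero', h]

theorem rb_one_sub_tt (x : ℝ) : 1 - tt x = (1 - x) ^ 2 / (1 + x ^ 2) := by
  unfold tt; field_simp; ring

theorem rb_log_prod_prod {n : ℕ} (F : Fin n → Fin n → ℝ) (hF : ∀ i j, i < j → F i j ≠ 0) :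
    Real.log |∏ i, ∏ j ∈ Ioi i, F i j| = pairSum fun i j => Real.log |F i j| := by
  rw [Real.log_abs, Real.log_prod (fun i _ => prod_ne_zero_iff.2 fun j hj => hF i j (mem_Ioi.1 hj))]
  refine sum_congr rfl fun i _ => ?_
  rw [Real.log_prod (fun j hj => hF i j (mem_Ioi.1 hj))]
  simp [Real.log_abs]

theorem rb_pairSum_add {n : ℕ} (F G : Fin n → Fin n → ℝ) :
    pairSum (fun i j => F i j + G i j) = pairSum F + pairSum G := by
  simp [pairSum, sum_add_distrib]

theorem rb_pairSum_congr {n : ℕ} {F G : Fin n → Fin n → ℝ} (h : ∀ i j, i < j → F i j = G i j) :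
    pairSum F = pairSum G :=
  sum_congr rfl fun i _ => sum_congr rfl fun j hj => h i j (mem_Ioi.1 hj)

theorem rb_pairSum_single {n : ℕ} (a : Fin n → ℝ) :
    pairSum (fun i j => a i + a j) = (n - 1) * ∑ i, a i := by
  have h1 : ∑ i, ∑ j ∈ Ioi i, a j = ∑ j : Fin n, ∑ _i ∈ Iio j, a j := by
    rw [Finset.sum_sigma', Finset.sum_sigma']
    refine Finset.sum_bij' (fun p _ => ⟨p.2, p.1⟩) (fun p _ => ⟨p.2, p.1⟩) ?_ ?_ ?_ ?_ ?_ <;> simp
  simp only [pairSum, sum_add_distrib, h1, sum_const, nsmul_eq_mul, Fin.card_Ioi, Fin.card_Iio]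
  rw [← sum_add_distrib, mul_sum]
  refine sum_congr rfl fun i _ => ?_
  have hi := i.2
  have : ((n - 1 - i : ℕ) : ℝ) = n - 1 - i := by
    rw [Nat.cast_sub (by omega), Nat.cast_sub (by omega)]; simp
  rw [this]; ring

theorem rb_pairSum_const {n : ℕ} (c : ℝ) :
    pairSum (fun _ _ : Fin n => c) = (n - 1) * n * c / 2 := by
  have := rb_pairSum_single (fun _ : Fin n => c / 2)
  simp only [add_halves, sum_const, card_univ, Fintype.card_fin, nsmul_eq_mul] at this
  rw [this]; ring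

/-- The Cauchy determinant in the variables `x`, `s`. -/
theorem rb_log_cauchy {n : ℕ} (x s : Fin n → ℝ) (hx : ∀ i, x i ∈ Set.Ioo (-1 : ℝ) 1)
    (hs : ∀ j, s j ∈ Set.Ioo (0 : ℝ) 1) (hxi : Function.Injective x) (hsi : Function.Injective s) :
    Real.log |(Matrix.of fun i j => 1 / (1 - tt (x i) * s j)).det| =
      (n - 1) * n * Real.log 2 / 2 + pairSum (fun i j => Real.log |x j - x i|)
        + pairSum (fun i j => Real.log (1 - x i * x j)) + pairSum (fun i j => Real.log |s j - s i|)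
        - ∑ i, ∑ j, Real.log (1 - 2 * x i * s j + x i ^ 2) + ∑ i, Real.log (1 + x i ^ 2) := by
  have hq : ∀ i j, 0 < 1 - 2 * x i * s j + x i ^ 2 := fun i j => by
    have h1 := hx i; have h2 := hs j
    nlinarith [sq_nonneg (x i - s j), h2.1, h2.2]
  have hp : ∀ i, 0 < 1 + x i ^ 2 := fun i => by positivity
  have he : ∀ i j, 1 - tt (x i) * s j = (1 - 2 * x i * s j + x i ^ 2) / (1 + x i ^ 2) := by
    intro i j; unfold tt; have := hp i; field_simp; ring
  have hne : ∀ i j, 1 - tt (x i) * s j ≠ 0 := fun i j => by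
    rw [he]; exact (div_pos (hq i j) (hp i)).ne'
  have hxx : ∀ i j, 0 < 1 - x i * x j := fun i j => by
    have h1 := rb_sq_lt (hx i); have h2 := rb_sq_lt (hx j)
    nlinarith [sq_nonneg (x i - x j)]
  have ht : ∀ i j, tt (x j) - tt (x i) =
      2 * (x j - x i) * (1 - x i * x j) / ((1 + x i ^ 2) * (1 + x j ^ 2)) := by
    intro i j; unfold tt; have := hp i; have := hp j; field_simp; ring
  have hx' : ∀ i j, i < j → x j - x i ≠ 0 := fun i j h => sub_ne_zero.2 (hxi.ne h.ne')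
  have hs' : ∀ i j, i < j → s j - s i ≠ 0 := fun i j h => sub_ne_zero.2 (hsi.ne h.ne')
  have hF : ∀ i j, i < j → (tt (x j) - tt (x i)) * (s j - s i) ≠ 0 := fun i j h => by
    rw [ht]; have := hx' i j h; have := hs' i j h; have := (hxx i j).ne'
    have := (hp i).ne'; have := (hp j).ne'
    positivity
  rw [cauchy_det _ _ hne, abs_div, Real.log_div, rb_log_prod_prod _ hF]
  · have e1 : (pairSum fun i j => Real.log |(tt (x j) - tt (x i)) * (s j - s i)|) =
        pairSum fun i j => (((Real.log 2 + Real.log |x j - x i|) + Real.log (1 - x i * x j))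
          + Real.log |s j - s i|) + (-Real.log (1 + x i ^ 2) + -Real.log (1 + x j ^ 2)) := by
      refine rb_pairSum_congr fun i j h => ?_
      have a1 := hx' i j h; have a2 := hs' i j h; have a3 := (hxx i j).ne'
      have a4 := (hp i).ne'; have a5 := (hp j).ne'
      rw [Real.log_abs, Real.log_abs, Real.log_abs, ht, Real.log_mul (by positivity) a2,
        Real.log_div (by positivity) (by positivity), Real.log_mul (by positivity) a3,
        Real.log_mul (by positivity) a1, Real.log_mul a4 a5]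
      ring
    rw [e1, rb_pairSum_add, rb_pairSum_add, rb_pairSum_add, rb_pairSum_add, rb_pairSum_const,
      rb_pairSum_single (fun i => -Real.log (1 + x i ^ 2)), Real.log_abs,
      Real.log_prod (fun i _ => prod_ne_zero_iff.2 fun j _ => hne i j)]
    have e2 : ∑ i, Real.log (∏ j, (1 - tt (x i) * s j)) =
        ∑ i, ∑ j, Real.log (1 - 2 * x i * s j + x i ^ 2) - n * ∑ i, Real.log (1 + x i ^ 2) := by
      rw [mul_sum, ← sum_sub_distrib]
      refine sum_congr rfl fun i _ => ?_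
      rw [Real.log_prod (fun j _ => hne i j)]
      simp only [he, Real.log_div (hq i _).ne' (hp i).ne', sum_sub_distrib, sum_const, card_univ,
        Fintype.card_fin, nsmul_eq_mul]
    rw [e2, sum_neg_distrib]
    ring
  · exact abs_ne_zero.2 (prod_ne_zero_iff.2 fun i _ => prod_ne_zero_iff.2 fun j hj =>
      hF i j (mem_Ioi.1 hj))
  · exact abs_ne_zero.2 (prod_ne_zero_iff.2 fun i _ => prod_ne_zero_iff.2 fun j _ => hne i j)

theorem rb_detQ (N : ℕ) (s : Fin (36 * N) → ℝ) :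
    (Matrix.of fun (j k : Fin (36 * N)) => aeval (s j) (colQ N k)).det =
      (∏ j, s j ^ (6 * N) * (1 - s j) ^ (2 * N)) * ∏ i, ∏ j ∈ Ioi i, (s j - s i) := by
  rw [← Matrix.det_vandermonde, ← Matrix.det_mul_column]
  congr 1
  ext j k
  simp only [colQ, map_mul, map_pow, aeval_X, map_sub, map_one, Matrix.of_apply,
    Matrix.vandermonde_apply, pow_add]
  ring

theorem rb_log_detQ (N : ℕ) (s : Fin (36 * N) → ℝ) (hs : ∀ j, s j ∈ Set.Ioo (0 : ℝ) 1)
    (hsi : Function.Injective s) :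
    Real.log |(Matrix.of fun (j k : Fin (36 * N)) => aeval (s j) (colQ N k)).det| =
      6 * N * ∑ j, Real.log (s j) + 2 * N * ∑ j, Real.log (1 - s j)
        + pairSum (fun i j => Real.log |s j - s i|) := by
  have hs' : ∀ i j, i < j → s j - s i ≠ 0 := fun i j h => sub_ne_zero.2 (hsi.ne h.ne')
  have h1 : ∀ j, s j ^ (6 * N) * (1 - s j) ^ (2 * N) ≠ 0 := fun j => by
    have := (hs j).1; have := sub_pos.2 (hs j).2; positivity
  rw [rb_detQ, abs_mul, Real.log_mul, rb_log_prod_prod _ hs', Real.log_abs,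
    Real.log_prod fun j _ => h1 j, mul_sum, mul_sum, ← sum_add_distrib]
  · congr 1
    refine sum_congr rfl fun j _ => ?_
    have := (hs j).1; have := sub_pos.2 (hs j).2
    rw [Real.log_mul (by positivity) (by positivity), Real.log_pow, Real.log_pow]
    push_cast; ring
  · exact abs_ne_zero.2 (prod_ne_zero_iff.2 fun j _ => h1 j)
  · exact abs_ne_zero.2 (prod_ne_zero_iff.2 fun i _ => prod_ne_zero_iff.2 fun j hj =>
      hs' i j (mem_Ioi.1 hj))

/-- Bound for the row determinant. -/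
theorem rb_detF_le (N : ℕ) (hN : 1 ≤ N) (x : Fin (36 * N) → ℝ)
    (hx : ∀ i, x i ∈ Set.Ioo (-1 : ℝ) 1) (hx0 : ∀ i, x i ≠ 0) (hxi : Function.Injective x)
    (τ : ℝ) (hτ : 0 ≤ τ)
    (h : ∀ y ∈ Set.Ioo (0 : ℝ) 1,
      2 * (30 * N - 1 : ℕ) * Real.log y + ∑ i, Real.log (1 + x i ^ 2 * y ^ 2) ≤
      2 * τ + ∑ i, Real.log (x i ^ 2 + y ^ 2)) :
    |(Matrix.of fun (r i : Fin (36 * N)) => Frow N r (x i)).det| ≤ Real.exp
      (36 * N * Real.log (100 * (36 * N) ^ 2) + 36 * N * τ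
        + pairSum (fun i j => Real.log |x j - x i|) + 36 * N * (47 * N) * Real.log 2
        + (14 * N + 1) * ∑ i, Real.log |x i| + 4 * N * ∑ i, Real.log (1 - x i)
        - (49 * N + 1) * ∑ i, Real.log (1 + x i ^ 2)) := by
  have hH := rb_hardy_log (n := 36 * N) (by omega) (30 * N - 1) x hx hx0 τ hτ h
  set w : Fin (36 * N) → ℝ := fun i => (if 0 < x i then -1 / 4 else -1 / 2) *
    (1 - tt (x i)) ^ (2 * N) * tt (x i) ^ (47 * N) * (2 / (1 + x i ^ 2)) / x i ^ (33 * N - 1)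
    with hw
  set M := (Matrix.of fun (i k : Fin (36 * N)) =>
    x i ^ (k : ℕ) + (if 0 < x i then -5 else 1) * x i ^ (30 * N - 1 + (36 * N - 1 - k))) with hM
  have e1 : (Matrix.of fun (r i : Fin (36 * N)) => Frow N r (x i)) =
      (Matrix.of fun i k => w i * (M.submatrix id Fin.revPerm) i k).transpose := by
    ext r i
    have hr := r.2
    simp only [Matrix.of_apply, Matrix.transpose_apply, Matrix.submatrix_apply, id, hM,
      Fin.revPerm_apply, Fin.val_rev, hw]
    rw [rb_Frow_eq N r hr _ (hx0 i)]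
    have a1 : 36 * N - (r + 1) = 36 * N - 1 - r := by omega
    have a2 : 36 * N - 1 - (36 * N - 1 - r) = r := by omega
    rw [a1, a2]
  rw [e1, Matrix.det_transpose, Matrix.det_mul_column, Matrix.det_permute', abs_mul, abs_mul]
  have hsgn : |((Equiv.Perm.sign (Fin.revPerm : Equiv.Perm (Fin (36 * N))) : ℤ) : ℝ)| = 1 := by
    rcases Int.units_eq_one_or (Equiv.Perm.sign (Fin.revPerm : Equiv.Perm (Fin (36 * N)))) with
      h | h <;> simp [h]
  rw [hsgn, one_mul]
  have hx' : ∀ i j, i < j → x j - x i ≠ 0 := fun i j h => sub_ne_zero.2 (hxi.ne h.ne')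
  have hV : |∏ i, ∏ j ∈ Ioi i, (x j - x i)| =
      Real.exp (pairSum fun i j => Real.log |x j - x i|) := by
    rw [← rb_log_prod_prod _ hx', Real.exp_log]
    exact abs_pos.2 (prod_ne_zero_iff.2 fun i _ => prod_ne_zero_iff.2 fun j hj =>
      hx' i j (mem_Ioi.1 hj))
  have hNpos : (0 : ℝ) < N := by exact_mod_cast hN
  have hwi : ∀ i, |w i| ≤ Real.exp (47 * N * Real.log 2 + (14 * N + 1) * Real.log |x i|
      + 4 * N * Real.log (1 - x i) - (49 * N + 1) * Real.log (1 + x i ^ 2)) := by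
    intro i
    have a0 : 0 < |x i| := abs_pos.2 (hx0 i)
    have a1 : 0 < 1 - x i := sub_pos.2 (hx i).2
    have a2 : 0 < 1 + x i ^ 2 := by positivity
    have b1 : Real.exp (47 * N * Real.log 2 + (14 * N + 1) * Real.log |x i|
        + 4 * N * Real.log (1 - x i) - (49 * N + 1) * Real.log (1 + x i ^ 2)) =
        2 ^ (47 * N) * |x i| ^ (14 * N + 1) * (1 - x i) ^ (4 * N) / (1 + x i ^ 2) ^ (49 * N + 1) := by
      rw [← Real.exp_log (show 0 < 2 ^ (47 * N) * |x i| ^ (14 * N + 1) * (1 - x i) ^ (4 * N) /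
        (1 + x i ^ 2) ^ (49 * N + 1) by positivity)]
      congr 1
      rw [Real.log_div (by positivity) (by positivity), Real.log_mul (by positivity) (by positivity),
        Real.log_mul (by positivity) (by positivity)]
      simp only [Real.log_pow]
      push_cast; ring
    have b2 : |w i| = |(if 0 < x i then -1 / 4 else -1 / 2 : ℝ)| * 2 *
        (2 ^ (47 * N) * |x i| ^ (14 * N + 1) * (1 - x i) ^ (4 * N) /
          (1 + x i ^ 2) ^ (49 * N + 1)) := by
      simp only [hw, rb_one_sub_tt]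
      simp only [tt, abs_div, abs_mul, abs_pow, abs_of_pos a1, abs_of_pos a2,
        abs_two, div_pow, mul_pow]
      have c1 : |x i| ^ (47 * N) = |x i| ^ (14 * N + 1) * |x i| ^ (33 * N - 1) := by
        rw [← pow_add]; congr 1; omega
      have c2 : (1 + x i ^ 2) ^ (49 * N + 1) =
          (1 + x i ^ 2) ^ (2 * N) * (1 + x i ^ 2) ^ (47 * N) * (1 + x i ^ 2) := by
        rw [← pow_add, ← pow_succ]; congr 1; omega
      have c3 : ((1 - x i) ^ 2) ^ (2 * N) = (1 - x i) ^ (4 * N) := by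
        rw [← pow_mul]; congr 1; omega
      rw [c1, c2, c3]
      field_simp
    rw [b1, b2]
    refine mul_le_of_le_one_left (by positivity) ?_
    split_ifs <;> norm_num [abs_div]
  calc |∏ i, w i| * |M.det|
      ≤ (∏ i, Real.exp (47 * N * Real.log 2 + (14 * N + 1) * Real.log |x i|
          + 4 * N * Real.log (1 - x i) - (49 * N + 1) * Real.log (1 + x i ^ 2))) *
        ((100 * ((36 * N : ℕ) : ℝ) ^ 2 * Real.exp τ) ^ (36 * N) *
          |∏ i, ∏ j ∈ Ioi i, (x j - x i)|) := by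
        rw [abs_prod]
        exact mul_le_mul (prod_le_prod (fun i _ => abs_nonneg _) fun i _ => hwi i) hH
          (abs_nonneg _) (prod_nonneg fun i _ => (Real.exp_pos _).le)
    _ = _ := by
        have : (100 * ((36 * N : ℕ) : ℝ) ^ 2 * Real.exp τ) ^ (36 * N) =
            Real.exp (36 * N * Real.log (100 * (36 * N) ^ 2) + 36 * N * τ) := by
          rw [← Real.exp_log (show (0 : ℝ) < 100 * ((36 * N : ℕ) : ℝ) ^ 2 by positivity),
            ← Real.exp_add, ← Real.exp_nat_mul]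
          congr 1; push_cast; ring
        rw [this, hV, ← Real.exp_sum, ← Real.exp_add, ← Real.exp_add]
        congr 1
        simp only [sum_sub_distrib, sum_add_distrib, ← mul_sum, sum_const, card_univ,
          Fintype.card_fin, nsmul_eq_mul]
        push_cast; ring

end Crest.Agent.R006
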