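import Crest.Agent.R006.RealInt
import Crest.Agent.R006.Andreief
import Crest.Agent.R006.Hardy
import Crest.Agent.R006.Energy
import Crest.Agent.R006.Cert
import Crest.Agent.R006.RealAux

set_option autoImplicit false

namespace Crest.Agent.R006

open Polynomial Finset Filter Topology

/-- The three determinants whose product is the integrand. -/
noncomputable def rbInt (N : ℕ) (x s : Fin (36 * N) → ℝ) : ℝ :=
  |(Matrix.of fun (r i : Fin (36 * N)) => Frow N r (x i)).det| *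
    (|(Matrix.of fun i j => 1 / (1 - tt (x i) * s j)).det| *
      |(Matrix.of fun (j k : Fin (36 * N)) => aeval (s j) (colQ N k)).det|)

/-- Generic form of the pointwise bound. -/
theorem rb_generic (lX lS : List (ℚ × ℚ × ℚ)) (hX : ∀ c ∈ lX, ‖zc c‖ < 1)
    (hS : ∀ c ∈ lS, ‖zc c‖ < 1) (M₂ M₃ : ℝ)
    (h2 : ∀ s ∈ Set.Ioo (0 : ℝ) 1, 6 / 36 * Real.log s + (2 / 36 - 1 / 100000) * Real.log (1 - s)
      + potC lS s ≤ M₂)
    (h3 : -(quadQ lX + quadQ lS) / 2 ≤ M₃) :
    ∃ C₀ : ℝ, ∀ N : ℕ, 100000 ≤ N → ∀ x s : Fin (36 * N) → ℝ,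
      (∀ i, x i ∈ Set.Ioo (-1 : ℝ) 1) → (∀ j, s j ∈ Set.Ioo (0 : ℝ) 1) → (∀ i, x i ≠ 0) →
      Function.Injective x → Function.Injective s → ∀ τ : ℝ, 0 ≤ τ →
      (∀ y ∈ Set.Ioo (0 : ℝ) 1,
        2 * (30 * N - 1 : ℕ) * Real.log y + ∑ i, Real.log (1 + x i ^ 2 * y ^ 2) ≤
        2 * τ + ∑ i, Real.log (x i ^ 2 + y ^ 2)) →
      rbInt N x s ≤ Real.exp (36 * N * (Real.log (100 * (36 * N) ^ 2) + C₀) + 36 * N * τ +
        (36 * N) ^ 2 * ((47 / 36 - 3 / 2 + 1 / 100000) * Real.log 2 + M₂ + M₃ + 1 / 100000) +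
        ((14 * N + 1) * ∑ i, Real.log |x i|
          + 36 * N * ((4 / 36 - 1 / 100000) * ∑ i, Real.log (1 - x i))
          - 49 * N * ∑ i, Real.log (1 + x i ^ 2)
          + 36 * N * ∑ i, (potC lX (x i) - potL lS (x i)))) := by
  obtain ⟨C₀, hC⟩ := energy_le lX lS hX hS (1 / 100000) (by norm_num)
  refine ⟨C₀, fun N hN x s hx hs hx0 hxi hsi τ hτ hy => ?_⟩
  have hE := hC (36 * N) x s hx hs hxi hsi
  have hF := rb_detF_le N (by omega) x hx hx0 hxi τ hτ hy
  have hc := rb_log_cauchy x s hx hs hxi hsi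
  have hq := rb_log_detQ N s hs hsi
  have hNr : (100000 : ℝ) ≤ N := by exact_mod_cast hN
  have hl2 : 0 < Real.log 2 := Real.log_pos (by norm_num)
  have hs1 : ∑ j, (6 / 36 * Real.log (s j) + (2 / 36 - 1 / 100000) * Real.log (1 - s j)
      + potC lS (s j)) ≤ (36 * N) * M₂ := by
    have := sum_le_card_nsmul univ _ M₂ fun j _ => h2 (s j) (hs j)
    simpa using this
  have hs2 : ∑ j, Real.log (1 - s j) ≤ 0 :=
    sum_nonpos fun j _ => Real.log_nonpos (sub_pos.2 (hs j).2).le (by linarith [(hs j).1])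
  have hx2 : ∑ i, Real.log (1 - x i) ≤ (36 * N) * Real.log 2 := by
    have := sum_le_card_nsmul univ (fun i => Real.log (1 - x i)) (Real.log 2) fun i _ =>
      Real.log_le_log (sub_pos.2 (hx i).2) (by linarith [(hx i).1])
    simpa using this
  simp only [sum_add_distrib, ← mul_sum] at hs1
  unfold rbInt
  refine (mul_le_mul hF (mul_le_mul (Real.le_exp_log _) (Real.le_exp_log _) (abs_nonneg _)
    (Real.exp_pos _).le) (by positivity) (Real.exp_pos _).le).trans ?_
  rw [← Real.exp_add, ← Real.exp_add, Real.exp_le_exp, hc, hq]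
  push_cast at hE ⊢
  set L1 := ∑ i, Real.log (1 - x i)
  set Ls1 := ∑ j, Real.log (1 - s j)
  set l2 := Real.log 2
  set Nr : ℝ := (N : ℝ)
  have k1 : (36 * Nr / 100000 - 1 / 2) * L1 ≤ (36 * Nr / 100000 - 1 / 2) * (36 * Nr * l2) :=
    mul_le_mul_of_nonneg_left hx2 (by linarith)
  have k2 : (36 * Nr / 100000 - 1) * Ls1 ≤ 0 :=
    mul_nonpos_of_nonneg_of_nonpos (by linarith) hs2
  have k3 := mul_le_mul_of_nonneg_left hs1 (show 0 ≤ 36 * Nr by linarith)
  have k4 := mul_le_mul_of_nonneg_left h3 (show 0 ≤ (36 * Nr) ^ 2 by positivity)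
  have k5 : 0 ≤ Nr * l2 := by positivity
  nlinarith

theorem rb_pointwise : ∃ C₀ : ℝ, ∀ N : ℕ, 100000 ≤ N → ∀ x s : Fin (36 * N) → ℝ,
    (∀ i, x i ∈ Set.Ioo (-1 : ℝ) 1) → (∀ j, s j ∈ Set.Ioo (0 : ℝ) 1) →
    rbInt N x s ≤ Real.exp (36 * N * (Real.log (100 * (36 * N) ^ 2) + C₀)
      - 25055 / 10 * (N : ℝ) ^ 2) := by
  obtain ⟨hX1, hS1, hX2, hS2⟩ := cert_norm
  obtain ⟨C₁, h1⟩ := rb_generic lX1 lS1 hX1 hS1 _ _ cert1_s cert1_q
  obtain ⟨C₂, h2⟩ := rb_generic lX2 lS2 hX2 hS2 _ _ cert2_s cert2_q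
  refine ⟨max C₁ (C₂ + 3), fun N hN x s hx hs => ?_⟩
  by_cases hx0 : ∀ i, x i ≠ 0
  swap
  · push Not at hx0
    obtain ⟨i, hi⟩ := hx0
    have : (Matrix.of fun (r i : Fin (36 * N)) => Frow N r (x i)).det = 0 :=
      Matrix.det_eq_zero_of_column_eq_zero i fun r => by
        simp [hi, rb_Frow_zero N r r.2]
    simp only [rbInt, this, abs_zero, zero_mul]; positivity
  by_cases hxi : Function.Injective x
  swap
  · obtain ⟨i, j, hij, hne⟩ := Function.not_injective_iff.1 hxi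
    have : (Matrix.of fun (r i : Fin (36 * N)) => Frow N r (x i)).det = 0 :=
      Matrix.det_zero_of_column_eq hne fun r => by simp [hij]
    simp only [rbInt, this, abs_zero, zero_mul]; positivity
  by_cases hsi : Function.Injective s
  swap
  · obtain ⟨i, j, hij, hne⟩ := Function.not_injective_iff.1 hsi
    have : (Matrix.of fun (j k : Fin (36 * N)) => aeval (s j) (colQ N k)).det = 0 :=
      Matrix.det_zero_of_row_eq hne (by funext k; simp [hij])
    simp only [rbInt, this, abs_zero, mul_zero]; positivity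
  have hNr : (100000 : ℝ) ≤ N := by exact_mod_cast hN
  have hD : ((30 * N - 1 : ℕ) : ℝ) = 30 * N - 1 := by
    rw [Nat.cast_sub (by omega)]; push_cast; ring
  have hl2 := Real.log_two_gt_d9
  have hlx : ∀ i, Real.log |x i| ≤ 0 := fun i =>
    Real.log_nonpos (abs_nonneg _) (abs_le.2 ⟨(hx i).1.le, (hx i).2.le⟩)
  have hLx : ∑ i, Real.log |x i| ≤ 0 := sum_nonpos fun i _ => hlx i
  have hL2 : 0 ≤ ∑ i, Real.log (1 + x i ^ 2) :=
    sum_nonneg fun i _ => Real.log_nonneg (by nlinarith [sq_nonneg (x i)])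
  by_cases hcase : 36 * N - 7 / 5 * ∑ i, Real.log (1 + x i ^ 2) ≤ 30 * N - 1
  · have hy : ∀ y ∈ Set.Ioo (0 : ℝ) 1,
        2 * (30 * N - 1 : ℕ) * Real.log y + ∑ i, Real.log (1 + x i ^ 2 * y ^ 2) ≤
        2 * 0 + ∑ i, Real.log (x i ^ 2 + y ^ 2) := by
      intro y hy
      have a1 := sum_le_sum fun i (_ : i ∈ univ) => rb_pt1 (x i) y (hx i) (hx0 i) hy
      have a2 := sum_le_sum fun i (_ : i ∈ univ) => rb_ff_le (x i) (hx i)
      have a3 : Real.log y ≤ 0 := Real.log_nonpos hy.1.le hy.2.le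
      simp only [sum_sub_distrib, ← sum_mul, ← mul_sum, sum_const, card_univ, Fintype.card_fin,
        nsmul_eq_mul] at a1 a2
      push_cast at a2
      rw [hD]
      nlinarith
    refine (h1 N hN x s hx hs hx0 hxi hsi 0 le_rfl hy).trans (Real.exp_le_exp.2 ?_)
    have b1 := sum_le_card_nsmul univ _ _ fun i (_ : i ∈ univ) => cert1_x (x i) (hx i) (hx0 i)
    simp only [sum_add_distrib, sum_sub_distrib, ← mul_sum, card_univ, Fintype.card_fin,
      nsmul_eq_mul] at b1 ⊢
    push_cast at b1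
    have b2 := mul_le_mul_of_nonneg_left b1 (show (0 : ℝ) ≤ 36 * N by linarith)
    have b3 := mul_le_mul_of_nonneg_left (le_max_left C₁ (C₂ + 3)) (show (0 : ℝ) ≤ 36 * N by linarith)
    have b4 : 0 ≤ (N : ℝ) ^ 2 * (Real.log 2 - 0.6931471803) := by
      have := sub_pos.2 hl2; positivity
    nlinarith
  · push Not at hcase
    have hn0 : (0 : ℝ) < 36 * N := by linarith
    set τ : ℝ := 1 / 2 * ∑ i, Real.log (1 + x i ^ 2)
      - (6 * N + 1) / (36 * N) * ∑ i, Real.log |x i| with hτ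
    have hco : (0 : ℝ) ≤ (6 * N + 1) / (36 * N) := by positivity
    have hτ0 : 0 ≤ τ := by nlinarith
    have hy : ∀ y ∈ Set.Ioo (0 : ℝ) 1,
        2 * (30 * N - 1 : ℕ) * Real.log y + ∑ i, Real.log (1 + x i ^ 2 * y ^ 2) ≤
        2 * τ + ∑ i, Real.log (x i ^ 2 + y ^ 2) := by
      intro y hy
      have hy0 := hy.1
      have a1 : ∀ i, (1 - (6 * N + 1) / (36 * N)) * (2 * Real.log y) +
          Real.log (1 + x i ^ 2 * y ^ 2) ≤ Real.log (1 + x i ^ 2)
            - (6 * N + 1) / (36 * N) * (2 * Real.log |x i|) + Real.log (x i ^ 2 + y ^ 2) := by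
        intro i
        have c0 : 0 < x i ^ 2 := by have := hx0 i; positivity
        have c1 : 2 * Real.log y ≤ Real.log (x i ^ 2 + y ^ 2) := by
          have := Real.log_le_log (show 0 < y ^ 2 by positivity)
            (show y ^ 2 ≤ x i ^ 2 + y ^ 2 by linarith)
          simpa using this
        have c2 : 2 * Real.log |x i| ≤ Real.log (x i ^ 2 + y ^ 2) := by
          have := Real.log_le_log c0 (show x i ^ 2 ≤ x i ^ 2 + y ^ 2 by nlinarith)
          simpa using this
        have c3 : Real.log (1 + x i ^ 2 * y ^ 2) ≤ Real.log (1 + x i ^ 2) := by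
          refine Real.log_le_log (by positivity) ?_
          have : y ^ 2 ≤ 1 := by nlinarith [hy.2]
          nlinarith
        have c4 : (6 * N + 1 : ℝ) / (36 * N) ≤ 1 := by rw [div_le_one hn0]; linarith
        nlinarith [mul_le_mul_of_nonneg_left c1 (sub_nonneg.2 c4), mul_le_mul_of_nonneg_left c2 hco]
      have a2 := sum_le_sum fun i (_ : i ∈ univ) => a1 i
      simp only [sum_add_distrib, sum_sub_distrib, ← mul_sum, sum_const, card_univ,
        Fintype.card_fin, nsmul_eq_mul] at a2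
      push_cast at a2
      have a3 : 36 * (N : ℝ) * ((1 - (6 * N + 1) / (36 * N)) * (2 * Real.log y)) =
          2 * (30 * N - 1) * Real.log y := by field_simp; ring
      rw [hD, hτ]
      linarith
    refine (h2 N hN x s hx hs hx0 hxi hsi τ hτ0 hy).trans (Real.exp_le_exp.2 ?_)
    have b1 := sum_le_card_nsmul univ _ _ fun i (_ : i ∈ univ) => cert2_x (x i) (hx i) (hx0 i)
    have b0 : 36 * (N : ℝ) * τ = 18 * N * ∑ i, Real.log (1 + x i ^ 2)
        - (6 * N + 1) * ∑ i, Real.log |x i| := by rw [hτ]; field_simp; ring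
    rw [b0]
    simp only [sum_add_distrib, sum_sub_distrib, ← mul_sum, card_univ, Fintype.card_fin,
      nsmul_eq_mul] at b1 ⊢
    push_cast at b1
    have b2 := mul_le_mul_of_nonneg_left b1 hn0.le
    have b3 := mul_le_mul_of_nonneg_left (le_max_right C₁ (C₂ + 3)) hn0.le
    have b4 : 0 ≤ (N : ℝ) ^ 2 * (Real.log 2 - 0.6931471803) := by
      have := sub_pos.2 hl2; positivity
    have b5 := mul_le_mul_of_nonneg_left hcase.le hn0.le
    nlinarith

theorem rb_tt_lt {x : ℝ} (hx : x ∈ Set.Ioo (-1 : ℝ) 1) : tt x < 1 := by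
  have := rb_one_sub_tt x
  have h1 : 0 < 1 - x := sub_pos.2 hx.2
  have : 0 < 1 - tt x := by rw [this]; positivity
  linarith

theorem rb_det_le (N : ℕ) (B : ℝ) (hB0 : 0 ≤ B)
    (hB : ∀ x s : Fin (36 * N) → ℝ, (∀ i, x i ∈ Set.Ioo (-1 : ℝ) 1) →
      (∀ j, s j ∈ Set.Ioo (0 : ℝ) 1) → rbInt N x s ≤ B) :
    |(Emat catG N).det| ≤ 2 ^ (36 * N) * B := by
  have e : Emat catG N = Matrix.of fun (r k : Fin (36 * N)) =>
      ∫ x in (-1 : ℝ)..1, Frow N r x * Gam N k x := by
    ext r k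
    exact Emat_eq_integral N r k r.2 k.2
  rw [e]
  have := abs_det_integral_le (n := 36 * N) (-1) 1 (by norm_num) (fun r => Frow N r)
    (fun k => Gam N k) (fun r k => integrableOn_Frow_mul_Gam N r k k.2) B ?_
  · norm_num at this ⊢; exact this
  intro x hx
  set A := |(Matrix.of fun (r i : Fin (36 * N)) => Frow N r (x i)).det| with hA
  have hA0 : 0 ≤ A := abs_nonneg _
  rcases hA0.eq_or_lt with h0 | h0
  · rw [← h0, zero_mul]; exact hB0
  have hne : ∀ i, ∀ s ∈ Set.Icc (0 : ℝ) 1, 1 - tt (x i) * s ≠ 0 := fun i s hs => by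
    have := rb_tt_lt (hx i)
    have : tt (x i) * s < 1 := by
      rcases le_total (tt (x i)) 0 with h | h
      · nlinarith [hs.1]
      · nlinarith [hs.2]
    linarith
  have h2 := abs_det_integral_le (n := 36 * N) 0 1 (by norm_num)
    (fun i s => 1 / (1 - tt (x i) * s)) (fun k s => aeval s (colQ N k)) ?_ (B / A) ?_
  · have e2 : (Matrix.of fun (i k : Fin (36 * N)) => Gam N k (x i)) =
        Matrix.of fun (i k : Fin (36 * N)) =>
          ∫ s in (0 : ℝ)..1, 1 / (1 - tt (x i) * s) * aeval s (colQ N k) := by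
      ext i k
      simp only [Matrix.of_apply, Gam]
      congr 1; funext s; ring
    rw [e2, mul_comm, ← le_div_iff₀ h0]
    simpa using h2
  · intro i k
    refine (ContinuousOn.integrableOn_Icc ?_).mono_set Set.Ioo_subset_Icc_self
    refine ContinuousOn.mul (continuousOn_const.div (by fun_prop) (hne i)) ?_
    exact (Polynomial.continuous_aeval _).continuousOn
  · intro s hs
    rw [le_div_iff₀ h0, mul_comm]
    exact hB x s hx hs

theorem real_bound : ∀ᶠ N : ℕ in atTop,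
    |(Emat catG N).det| ≤ Real.exp (-2505 * (N : ℝ) ^ 2) := by
  obtain ⟨C₀, hC⟩ := rb_pointwise
  have hlog : Tendsto (fun N : ℕ => (36 * (Real.log (100 * 36 ^ 2) + C₀ + Real.log 2)) / (N : ℝ)
      + 72 * (Real.log N / N)) atTop (𝓝 (0 + 72 * 0)) := by
    refine (tendsto_const_div_atTop_nhds_zero_nat _).add (Tendsto.const_mul _ ?_)
    have := Real.isLittleO_log_id_atTop.tendsto_div_nhds_zero.comp tendsto_natCast_atTop_atTop
    simpa [Function.comp_def] using this
  have hev := hlog.eventually (gt_mem_nhds (show (0 : ℝ) + 72 * 0 < 1 / 2 by norm_num))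
  filter_upwards [hev, eventually_ge_atTop 100000] with N h1 hN
  refine (rb_det_le N _ (Real.exp_pos _).le (hC N hN)).trans ?_
  have hNr : (0 : ℝ) < N := by exact_mod_cast (by omega : 0 < N)
  rw [← Real.exp_log (show (0 : ℝ) < 2 ^ (36 * N) by positivity), ← Real.exp_add, Real.exp_le_exp,
    Real.log_pow, mul_pow, ← mul_assoc, Real.log_mul (by norm_num) (by positivity), Real.log_pow]
  have h2 := mul_lt_mul_of_pos_left h1 (show 0 < (N : ℝ) ^ 2 by positivity)
  have h3 : (N : ℝ) ^ 2 * (36 * (Real.log (100 * 36 ^ 2) + C₀ + Real.log 2) / N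
      + 72 * (Real.log N / N)) =
      N * (36 * (Real.log (100 * 36 ^ 2) + C₀ + Real.log 2) + 72 * Real.log N) := by
    field_simp
  rw [h3] at h2
  push_cast
  nlinarith

end Crest.Agent.R006
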