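import Crest.Agent.R006.Arith
import Crest.Agent.R006.NonVanish
import Crest.Agent.R006.RealBound

set_option autoImplicit false

namespace Crest.Agent.R006

open Polynomial Finset Filter Topology

theorem irrational_catG : Irrational catG := by
  rintro ⟨G, hG⟩
  have hcast : ∀ N : ℕ, (((Emat G N).det : ℚ) : ℝ) = (Emat catG N).det := by
    intro N
    have h := RingHom.map_det (Rat.castHom ℝ) (Emat G N)
    simp only [Rat.coe_castHom] at h
    rw [h]
    congr 1
    ext r k
    simp [Emat, hG]
  obtain ⟨N₀, hN₀⟩ := eventually_atTop.1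
    ((arith_bound G).and ((det_ne_zero G).and (real_bound.and (eventually_ge_atTop 1))))
  obtain ⟨p, hp, hpp⟩ := Nat.exists_infinite_primes N₀
  obtain ⟨h1, h2, h3, h4⟩ := hN₀ p hp
  have h5 := h1 (h2 hpp)
  rw [hcast] at h5
  have h6 := Real.exp_le_exp.1 (h5.trans h3)
  have h7 : (1 : ℝ) ≤ p := by exact_mod_cast h4
  nlinarith

end Crest.Agent.R006
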