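import Crest.Agent.R006.Defs

set_option autoImplicit false

namespace Crest.Agent.R006

open Polynomial Finset Filter Topology

theorem poly_pa_succ_succ (u : ℕ) : pa (u + 2) = 2 * pa (u + 1) - X ^ 2 * pa u := rfl

theorem poly_pb_succ_succ (u : ℕ) : pb (u + 2) = 2 * pb (u + 1) - X ^ 2 * pb u := rfl

theorem poly_pa_zero : pa 0 = 1 := rfl
theorem poly_pa_one : pa 1 = 1 := rfl
theorem poly_pb_zero : pb 0 = 0 := rfl
theorem poly_pb_one : pb 1 = 1 := rfl

theorem poly_aeval_two {R : Type*} [CommRing R] [Algebra ℤ R] (t : R) : aeval t (2 : ℤ[X]) = 2 := by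
  have : (2 : ℤ[X]) = 1 + 1 := by norm_num
  rw [this, map_add, map_one]; norm_num

/-- `(1 - f)^u = pa u - f pb u` whenever `f² = 1 - t²`. -/
theorem poly_one_sub_pow {R : Type*} [CommRing R] [Algebra ℤ R] (t f : R) (hf : f ^ 2 = 1 - t ^ 2) (u : ℕ) :
    (1 - f) ^ u = aeval t (pa u) - f * aeval t (pb u) := by
  induction u using Nat.twoStepInduction with
  | zero => simp [poly_pa_zero, poly_pb_zero]
  | one => simp [poly_pa_one, poly_pb_one]
  | more u h0 h1 =>
    rw [poly_pa_succ_succ, poly_pb_succ_succ]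
    simp only [map_sub, map_mul, map_pow, aeval_X, poly_aeval_two]
    have : (1 - f) ^ (u + 2) = 2 * (1 - f) ^ (u + 1) - t ^ 2 * (1 - f) ^ u := by
      have h : t ^ 2 = 1 - f ^ 2 := by rw [hf]; ring
      rw [h]; ring
    rw [this, h0, h1]; ring

theorem poly_one_add_pow {R : Type*} [CommRing R] [Algebra ℤ R] (t f : R) (hf : f ^ 2 = 1 - t ^ 2) (u : ℕ) :
    (1 + f) ^ u = aeval t (pa u) + f * aeval t (pb u) := by
  have := poly_one_sub_pow t (-f) (by rw [← hf]; ring) u
  simpa using this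

theorem poly_pa_eval {R : Type*} [CommRing R] [Algebra ℤ R] (t a b : R) (hs : a + b = 2) (hp : a * b = t ^ 2)
    (u : ℕ) : 2 * aeval t (pa u) = a ^ u + b ^ u := by
  induction u using Nat.twoStepInduction with
  | zero => simp [poly_pa_zero]; norm_num
  | one => simp [poly_pa_one, hs]
  | more u h0 h1 =>
    rw [poly_pa_succ_succ]
    simp only [map_sub, map_mul, map_pow, aeval_X, poly_aeval_two]
    have : a ^ (u + 2) + b ^ (u + 2) =
        (a + b) * (a ^ (u + 1) + b ^ (u + 1)) - (a * b) * (a ^ u + b ^ u) := by ring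
    rw [this, hs, hp, ← h0, ← h1]; ring

theorem poly_pb_eval {R : Type*} [CommRing R] [Algebra ℤ R] (t a b : R) (hs : a + b = 2) (hp : a * b = t ^ 2)
    (u : ℕ) : (b - a) * aeval t (pb u) = b ^ u - a ^ u := by
  induction u using Nat.twoStepInduction with
  | zero => simp [poly_pb_zero]
  | one => simp [poly_pb_one]
  | more u h0 h1 =>
    rw [poly_pb_succ_succ]
    simp only [map_sub, map_mul, map_pow, aeval_X, poly_aeval_two]
    have : b ^ (u + 2) - a ^ (u + 2) =
        (a + b) * (b ^ (u + 1) - a ^ (u + 1)) - (a * b) * (b ^ u - a ^ u) := by ring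
    rw [this, hs, hp, ← h0, ← h1]; ring

theorem alphaP_eval {K : Type*} [Field K] (c : ℕ) (u : ℤ) (hu : u.natAbs ≤ c) (w : K) (hw : w ≠ 0)
    (h1 : 1 + w ^ 2 ≠ 0) :
    2 * aeval (2 * w / (1 + w ^ 2)) (alphaP c u) = (2 * w / (1 + w ^ 2)) ^ c * (w ^ u + w ^ (-u)) := by
  set t := 2 * w / (1 + w ^ 2) with ht
  have hs : t * w + t * w⁻¹ = 2 := by rw [ht]; field_simp; ring
  have hp : t * w * (t * w⁻¹) = t ^ 2 := by field_simp
  have key := poly_pa_eval t _ _ hs hp u.natAbs
  have hc : t ^ c = t ^ (c - u.natAbs) * t ^ u.natAbs := by rw [← pow_add]; congr 1; omega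
  have hz : w ^ u + w ^ (-u) = w ^ u.natAbs + w⁻¹ ^ u.natAbs := by
    rcases Int.natAbs_eq u with h | h
    · conv_lhs => rw [h]
      rw [zpow_neg, zpow_natCast, inv_pow]
    · conv_lhs => rw [h]
      rw [neg_neg, zpow_neg, zpow_natCast, inv_pow, add_comm]
  unfold alphaP
  rw [map_mul, map_pow, aeval_X, hc, hz, mul_left_comm, key]
  ring

theorem deltaP_eval {K : Type*} [Field K] (c : ℕ) (u : ℤ) (hu : u.natAbs ≤ c) (w : K) (hw : w ≠ 0)
    (h1 : 1 + w ^ 2 ≠ 0) :
    2 * ((1 - w ^ 2) / (1 + w ^ 2)) * aeval (2 * w / (1 + w ^ 2)) (deltaP c u) =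
      (2 * w / (1 + w ^ 2)) ^ c * (w ^ (-u) - w ^ u) := by
  set t := 2 * w / (1 + w ^ 2) with ht
  have hs : t * w + t * w⁻¹ = 2 := by rw [ht]; field_simp; ring
  have hp : t * w * (t * w⁻¹) = t ^ 2 := by field_simp
  have hd : t * w⁻¹ - t * w = 2 * ((1 - w ^ 2) / (1 + w ^ 2)) := by rw [ht]; field_simp
  have key := poly_pb_eval t _ _ hs hp u.natAbs
  have hc : t ^ c = t ^ (c - u.natAbs) * t ^ u.natAbs := by rw [← pow_add]; congr 1; omega
  have hz : w ^ (-u) - w ^ u = (u.sign : K) * (w⁻¹ ^ u.natAbs - w ^ u.natAbs) := by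
    rcases lt_trichotomy u 0 with h | h | h
    · rw [Int.sign_eq_neg_one_of_neg h]
      have h' : u = -(u.natAbs : ℤ) := by omega
      conv_lhs => rw [h']
      rw [neg_neg, zpow_neg, zpow_natCast, inv_pow]; push_cast; ring
    · subst h; simp
    · rw [Int.sign_eq_one_of_pos h]
      have h' : u = (u.natAbs : ℤ) := by omega
      conv_lhs => rw [h']
      rw [zpow_neg, zpow_natCast, inv_pow]; push_cast; ring
  unfold deltaP
  rw [map_mul, map_mul, map_pow, aeval_X, aeval_C, hc, hz, ← hd]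
  simp only [eq_intCast, algebraMap_int_eq]
  have : (t * w⁻¹ - t * w) * ((u.sign : K) * t ^ (c - u.natAbs) * aeval t (pb u.natAbs)) =
      (u.sign : K) * t ^ (c - u.natAbs) * ((t * w⁻¹ - t * w) * aeval t (pb u.natAbs)) := by ring
  rw [this, key]
  ring

theorem poly_coeff_two_mul (P : ℤ[X]) (i : ℕ) : (2 * P).coeff i = 2 * P.coeff i := by
  rw [two_mul, coeff_add, two_mul]

theorem poly_pa_coeff (u i : ℕ) (hi : u < i) : (pa u).coeff i = 0 := by
  induction u using Nat.twoStepInduction generalizing i with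
  | zero => rw [poly_pa_zero, coeff_one, if_neg (by omega)]
  | one => rw [poly_pa_one, coeff_one, if_neg (by omega)]
  | more u h0 h1 =>
    rw [poly_pa_succ_succ, coeff_sub, poly_coeff_two_mul, coeff_X_pow_mul', if_pos (by omega),
      h1 i (by omega), h0 _ (by omega)]
    simp

theorem poly_pb_coeff (u i : ℕ) (hi : u ≤ i) : (pb u).coeff i = 0 := by
  induction u using Nat.twoStepInduction generalizing i with
  | zero => rw [poly_pb_zero, coeff_zero]
  | one => rw [poly_pb_one, coeff_one, if_neg (by omega)]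
  | more u h0 h1 =>
    rw [poly_pb_succ_succ, coeff_sub, poly_coeff_two_mul, coeff_X_pow_mul', if_pos (by omega),
      h1 i (by omega), h0 _ (by omega)]
    simp

theorem poly_pa_dvd (u i : ℕ) : (2 : ℤ) ^ (u - i) ∣ 2 * (pa u).coeff i := by
  induction u using Nat.twoStepInduction generalizing i with
  | zero => simp
  | one =>
    rcases i with _ | i
    · simp
    · simp
  | more u h0 h1 =>
    rw [poly_pa_succ_succ, coeff_sub, poly_coeff_two_mul, coeff_X_pow_mul', mul_sub]
    apply dvd_sub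
    · have h := h1 i
      have : (2 : ℤ) ^ (u + 2 - i) ∣ 2 * 2 ^ (u + 1 - i) := by
        rw [← pow_succ']; exact pow_dvd_pow _ (by omega)
      exact this.trans (mul_dvd_mul_left _ h)
    · split_ifs with h
      · have := h0 (i - 2)
        rwa [show u - (i - 2) = u + 2 - i by omega] at this
      · simp

theorem poly_pb_dvd (u i : ℕ) : (2 : ℤ) ^ (u - 1 - i) ∣ (pb u).coeff i := by
  induction u using Nat.twoStepInduction generalizing i with
  | zero => simp
  | one => simp
  | more u h0 h1 =>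
    rw [poly_pb_succ_succ, coeff_sub, poly_coeff_two_mul, coeff_X_pow_mul']
    apply dvd_sub
    · have h := h1 i
      have : (2 : ℤ) ^ (u + 2 - 1 - i) ∣ 2 * 2 ^ (u + 1 - 1 - i) := by
        rw [← pow_succ']; exact pow_dvd_pow _ (by omega)
      exact this.trans (mul_dvd_mul_left _ h)
    · split_ifs with h
      · by_cases hu : u = 0
        · subst hu; simp [poly_pb_zero]
        have := h0 (i - 2)
        rwa [show u - 1 - (i - 2) = u + 2 - 1 - i by omega] at this
      · simp

theorem poly_alphaP_coeff (c : ℕ) (u : ℤ) (i : ℕ) : (alphaP c u).coeff i =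
    if c - u.natAbs ≤ i then (pa u.natAbs).coeff (i - (c - u.natAbs)) else 0 := by
  unfold alphaP; rw [coeff_X_pow_mul']

theorem poly_deltaP_coeff (c : ℕ) (u : ℤ) (i : ℕ) : (deltaP c u).coeff i =
    if c - u.natAbs ≤ i then u.sign * (pb u.natAbs).coeff (i - (c - u.natAbs)) else 0 := by
  unfold deltaP; rw [mul_assoc, coeff_C_mul, coeff_X_pow_mul']
  split_ifs <;> simp

theorem alphaP_coeff_eq_zero (c : ℕ) (u : ℤ) (hu : u.natAbs ≤ c) (i : ℕ)
    (hi : i < c - u.natAbs ∨ c < i) : (alphaP c u).coeff i = 0 := by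
  rw [poly_alphaP_coeff]
  split_ifs with h
  · exact poly_pa_coeff _ _ (by omega)
  · rfl

theorem deltaP_coeff_eq_zero (c : ℕ) (u : ℤ) (hu : u.natAbs ≤ c) (i : ℕ)
    (hi : i < c - u.natAbs ∨ c ≤ i) : (deltaP c u).coeff i = 0 := by
  rw [poly_deltaP_coeff]
  split_ifs with h
  · rw [poly_pb_coeff _ _ (by omega), mul_zero]
  · rfl

theorem two_pow_dvd_alphaP (c : ℕ) (u : ℤ) (hu : u.natAbs ≤ c) (i : ℕ) :
    (2 : ℤ) ^ (c - i) ∣ 2 * (alphaP c u).coeff i := by
  rw [poly_alphaP_coeff]
  split_ifs with h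
  · have := poly_pa_dvd u.natAbs (i - (c - u.natAbs))
    rwa [show u.natAbs - (i - (c - u.natAbs)) = c - i by omega] at this
  · simp

theorem two_pow_dvd_deltaP (c : ℕ) (u : ℤ) (hu : u.natAbs ≤ c) (i : ℕ) :
    (2 : ℤ) ^ (c - 1 - i) ∣ (deltaP c u).coeff i := by
  rw [poly_deltaP_coeff]
  split_ifs with h
  · by_cases h0 : u.natAbs = 0
    · rw [h0, poly_pb_zero]; simp
    have := poly_pb_dvd u.natAbs (i - (c - u.natAbs))
    rw [show u.natAbs - 1 - (i - (c - u.natAbs)) = c - 1 - i by omega] at this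
    exact this.mul_left _
  · simp

theorem poly_one_sub_X_pow_coeff (m i : ℕ) (hi : m < i) : ((1 - X : ℤ[X]) ^ m).coeff i = 0 := by
  apply coeff_eq_zero_of_natDegree_lt
  refine lt_of_le_of_lt (natDegree_pow_le.trans ?_) hi
  have : (1 - X : ℤ[X]).natDegree ≤ 1 := by compute_degree
  calc m * (1 - X : ℤ[X]).natDegree ≤ m * 1 := Nat.mul_le_mul_left _ this
    _ = m := mul_one m

theorem poly_mul_coeff_high (m d i : ℕ) (P : ℤ[X]) (hP : ∀ j, d ≤ j → P.coeff j = 0)
    (hi : m + d ≤ i) : ((1 - X : ℤ[X]) ^ m * P).coeff i = 0 := by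
  rw [coeff_mul]
  refine sum_eq_zero fun x hx => ?_
  have hx' := mem_antidiagonal.1 hx
  by_cases h : m < x.1
  · rw [poly_one_sub_X_pow_coeff _ _ h, zero_mul]
  · rw [hP _ (by omega), mul_zero]

theorem poly_mul_coeff_low (d i : ℕ) (Q P : ℤ[X]) (hP : ∀ j, j < d → P.coeff j = 0)
    (hi : i < d) : (Q * P).coeff i = 0 := by
  rw [coeff_mul]
  refine sum_eq_zero fun x hx => ?_
  have hx' := mem_antidiagonal.1 hx
  rw [hP _ (by omega), mul_zero]

theorem rowP_coeff_of_gt (N r i : ℕ) (hr : r ≤ 36 * N) (hi : 49 * N < i) :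
    (rowP N r).coeff i = 0 :=
  poly_mul_coeff_high _ (47 * N + 1) _ _
    (fun j hj => alphaP_coeff_eq_zero _ _ (by omega) _ (by omega)) (by omega)

theorem rowD_coeff_of_ge (N r i : ℕ) (hr : r ≤ 36 * N) (hi : 49 * N ≤ i) :
    (rowD N r).coeff i = 0 :=
  poly_mul_coeff_high _ (47 * N) _ _
    (fun j hj => deltaP_coeff_eq_zero _ _ (by omega) _ (by omega)) (by omega)

theorem rowP_coeff_of_le (N r i : ℕ) (hr : r < 36 * N) (hi : i ≤ 14 * N) :
    (rowP N r).coeff i = 0 :=
  poly_mul_coeff_low (14 * N + 1) _ _ _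
    (fun j hj => alphaP_coeff_eq_zero _ _ (by omega) _ (by omega)) (by omega)

theorem rowD_coeff_of_le (N r i : ℕ) (hr : r < 36 * N) (hi : i ≤ 14 * N) :
    (rowD N r).coeff i = 0 :=
  poly_mul_coeff_low (14 * N + 1) _ _ _
    (fun j hj => deltaP_coeff_eq_zero _ _ (by omega) _ (by omega)) (by omega)

theorem colQ_coeff_eq_zero (N k j : ℕ) (hk : k < 36 * N) (hj : j < 6 * N ∨ 44 * N ≤ j) :
    (colQ N k).coeff j = 0 := by
  unfold colQ
  rw [coeff_X_pow_mul']
  split_ifs with h
  · exact poly_one_sub_X_pow_coeff _ _ (by omega)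
  · rfl

theorem poly_cc_rec (k : ℕ) : ((k : ℚ) + 2) * cc (k + 2) = ((k : ℚ) + 1) * cc k := by
  have : (k : ℚ) + 2 ≠ 0 := by positivity
  rw [cc]; field_simp

/-- The differential equation of `1/√(1-X²)`. -/
theorem poly_cc_ode :
    (1 - PowerSeries.X ^ 2) * PowerSeries.derivative ℚ (PowerSeries.mk cc) =
      PowerSeries.X * PowerSeries.mk cc := by
  ext n
  rw [sub_mul, one_mul, map_sub, PowerSeries.coeff_X_pow_mul', PowerSeries.coeff_derivative]
  rcases n with _ | _ | n
  · simp [cc]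
  · simp [cc, PowerSeries.coeff_succ_X_mul]; norm_num
  · rw [if_pos (by omega), PowerSeries.coeff_derivative, PowerSeries.coeff_succ_X_mul]
    simp only [PowerSeries.coeff_mk, show n + 1 + 1 - 2 = n by omega]
    have := poly_cc_rec (n + 1)
    push_cast at this ⊢
    rw [show n + 1 + 1 + 1 = n + 1 + 2 by omega]
    linear_combination this

theorem poly_cc_sq :
    (1 - PowerSeries.X ^ 2) * (PowerSeries.mk cc) ^ 2 = (1 : PowerSeries ℚ) := by
  apply PowerSeries.derivative.ext
  · have h := poly_cc_ode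
    simp only [Derivation.leibniz, Derivation.leibniz_pow, map_sub, Derivation.map_one_eq_zero,
      PowerSeries.derivative_X, smul_eq_mul, nsmul_eq_mul]
    push_cast
    linear_combination (2 * PowerSeries.mk cc) * h
  · simp [cc, PowerSeries.constantCoeff_mk]

theorem poly_coeff_aeval_X (P : ℤ[X]) (n : ℕ) :
    PowerSeries.coeff n (aeval (PowerSeries.X : PowerSeries ℚ) P) = (P.coeff n : ℚ) := by
  induction P using Polynomial.induction_on' with
  | add p q hp hq => simp [hp, hq]
  | monomial k a =>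
    rw [aeval_monomial, coeff_monomial, eq_intCast,
      show ((a : ℤ) : PowerSeries ℚ) = PowerSeries.C (a : ℚ) by simp,
      PowerSeries.coeff_C_mul, PowerSeries.coeff_X_pow]
    by_cases h : k = n
    · simp [h]
    · simp [h, Ne.symm h]

theorem poly_contact_dvd (c : ℕ) (u : ℤ) (hu : u.natAbs ≤ c) (m : ℕ) (hm : (m : ℤ) ≤ c + u) :
    (PowerSeries.X : PowerSeries ℚ) ^ m ∣
      aeval PowerSeries.X (alphaP c u) * PowerSeries.mk cc - aeval PowerSeries.X (deltaP c u) := by
  unfold alphaP deltaP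
  simp only [map_mul, map_pow, aeval_X, eq_intCast, map_intCast]
  rcases lt_or_ge u 0 with h | h
  · have : (PowerSeries.X : PowerSeries ℚ) ^ m ∣ PowerSeries.X ^ (c - u.natAbs) :=
      pow_dvd_pow _ (by omega)
    exact dvd_sub ((this.mul_right _).mul_right _) ((this.mul_left _).mul_right _)
  · set f : PowerSeries ℚ := (1 - PowerSeries.X ^ 2) * PowerSeries.mk cc with hf
    have hcf : f * PowerSeries.mk cc = 1 := by rw [hf]; linear_combination poly_cc_sq
    have hf2 : f ^ 2 = 1 - PowerSeries.X ^ 2 := by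
      rw [hf]; linear_combination (1 - PowerSeries.X ^ 2) * poly_cc_sq
    have key := poly_one_sub_pow PowerSeries.X f hf2 u.natAbs
    have hs : ((u.sign : ℤ) : PowerSeries ℚ) * aeval PowerSeries.X (pb u.natAbs) =
        aeval PowerSeries.X (pb u.natAbs) := by
      rcases h.eq_or_lt with h0 | h0
      · subst h0; simp [poly_pb_zero]
      · rw [Int.sign_eq_one_of_pos h0]; simp
    have hX2 : (PowerSeries.X : PowerSeries ℚ) ^ 2 ∣ 1 - f := by
      rw [PowerSeries.X_pow_dvd_iff]
      intro k hk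
      rw [hf, sub_mul, one_mul, map_sub, map_sub, PowerSeries.coeff_X_pow_mul', if_neg (by omega)]
      interval_cases k
      · simp [cc]
      · simp [cc, PowerSeries.coeff_one]
    have heq : PowerSeries.X ^ (c - u.natAbs) * aeval PowerSeries.X (pa u.natAbs) *
          PowerSeries.mk cc - ((u.sign : ℤ) : PowerSeries ℚ) * PowerSeries.X ^ (c - u.natAbs) *
          aeval PowerSeries.X (pb u.natAbs) =
        PowerSeries.X ^ (c - u.natAbs) * (1 - f) ^ u.natAbs * PowerSeries.mk cc := by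
      rw [key]
      linear_combination (-PowerSeries.X ^ (c - u.natAbs)) * hs +
        (PowerSeries.X ^ (c - u.natAbs) * aeval PowerSeries.X (pb u.natAbs)) * hcf
    rw [heq]
    refine Dvd.dvd.mul_right ?_ _
    have h1 : (PowerSeries.X : PowerSeries ℚ) ^ m ∣
        PowerSeries.X ^ (c - u.natAbs) * (PowerSeries.X ^ 2) ^ u.natAbs := by
      rw [← pow_mul, ← pow_add]; exact pow_dvd_pow _ (by omega)
    exact h1.trans (mul_dvd_mul_left _ (pow_dvd_pow_of_dvd hX2 _))

/-- Contact: `rowP / √(1-t²) - rowD = O(t^(44 N))`. -/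
theorem contact (N r j : ℕ) (hr : r ≤ 36 * N) (hj : j < 44 * N) :
    ∑ i ∈ range (49 * N + 1), ((rowP N r).coeff i : ℚ) * ccz ((j : ℤ) - i) =
      ((rowD N r).coeff j : ℚ) := by
  have h := poly_contact_dvd (47 * N) ((r : ℤ) - 3 * N) (by omega) (44 * N) (by push_cast; omega)
  have h2 : (PowerSeries.X : PowerSeries ℚ) ^ (44 * N) ∣
      aeval PowerSeries.X (rowP N r) * PowerSeries.mk cc - aeval PowerSeries.X (rowD N r) := by
    unfold rowP rowD
    rw [map_mul, map_mul, mul_assoc, ← mul_sub]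
    exact h.mul_left _
  have h3 := PowerSeries.X_pow_dvd_iff.1 h2 j hj
  rw [map_sub, sub_eq_zero, poly_coeff_aeval_X, PowerSeries.coeff_mul,
    Nat.sum_antidiagonal_eq_sum_range_succ
      (fun a b => PowerSeries.coeff a (aeval (PowerSeries.X : PowerSeries ℚ) (rowP N r)) *
        PowerSeries.coeff b (PowerSeries.mk cc))] at h3
  rw [← h3]
  symm
  apply sum_subset_zero_on_sdiff
  · intro i hi; simp only [mem_range] at hi ⊢; omega
  · intro i hi
    rw [Finset.mem_sdiff, Finset.mem_range, Finset.mem_range] at hi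
    rw [ccz, if_neg (by omega), mul_zero]
  · intro i hi
    simp only [mem_range] at hi
    rw [poly_coeff_aeval_X, PowerSeries.coeff_mk, ccz, if_pos (by omega)]
    congr 2
    omega

end Crest.Agent.R006
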