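import Crest.Agent.R006.OddPLat
import Crest.Agent.R006.Poly
import Crest.Agent.R006.PadicBasic

/-!
Congruences modulo `p` and `p²` for the monomial columns.
-/

set_option autoImplicit false

namespace Crest.Agent.R006.OddP

open Finset

variable {p : ℕ} [hp : Fact p.Prime]

/-- Integrality data shared by the two kernels `Mh` and `Z0`. -/
structure Data (p : ℕ) [Fact p.Prime] (δ H : ℕ) (S : ℤ → ℚ) (c : ℕ → ℚ) : Prop where
  c0 : c 0 = 0
  c1 : ∀ k, k + δ ≤ p → c k ∈ Zp p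
  c2 : ∀ k, k ≤ H → (p : ℚ) * c k ∈ Zp p
  S1 : ∀ e : ℕ, e < p → S e ∈ Zp p
  S2 : ∀ E : ℕ, 1 ≤ E → E + δ ≤ p → S (-E) ∈ Zp p
  S3 : ∀ E : ℕ, 1 ≤ E → E + δ ≤ 2 * p → (p : ℚ) * S (-E) - c E ∈ Zp p

/-- The common shape of the two kernels. -/
def TT (H : ℕ) (S : ℤ → ℚ) (c : ℕ → ℚ) (i j : ℕ) : ℚ :=
  S ((j : ℤ) - i) - ∑ a ∈ range H, c (i - a) / ((j : ℚ) - a)

section
variable {δ H : ℕ} {S : ℤ → ℚ} {c : ℕ → ℚ}

theorem Data.c1' (D : Data p δ H S c) (i a : ℕ) (h : i + δ ≤ a + p) : c (i - a) ∈ Zp p := by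
  by_cases hia : i ≤ a
  · rw [Nat.sub_eq_zero_of_le hia, D.c0]; exact zero_mem _
  · exact D.c1 _ (by omega)

theorem Data.S_mem (D : Data p δ H S c) (i j : ℕ) (h1 : j < i + p) (h2 : i + δ ≤ j + p) :
    S ((j : ℤ) - i) ∈ Zp p := by
  by_cases hij : i ≤ j
  · have : (j : ℤ) - i = ((j - i : ℕ) : ℤ) := by omega
    rw [this]; exact D.S1 _ (by omega)
  · have : (j : ℤ) - i = -((i - j : ℕ) : ℤ) := by omega
    rw [this]; exact D.S2 _ (by omega) (by omega)

theorem inv_sub_mem (j a : ℕ) (h1 : j < a + p) (h2 : a < j + p) : ((j : ℚ) - a)⁻¹ ∈ Zp p := by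
  have := inv_int_mem_of_lt (p := p) ((j : ℤ) - a) (by rw [abs_lt]; constructor <;> omega)
  simpa using this

theorem Data.beta (D : Data p δ H S c) (hH : H ≤ p ^ 2) (i a : ℕ) (ha : a < p)
    (haH : H ≤ a + 2 * p) (hi : i + δ ≤ H) : (p : ℚ) * TT H S c i a - c (i - a) ∈ Zp p := by
  have e : (p : ℚ) * TT H S c i a - c (i - a) = ((p : ℚ) * S ((a : ℤ) - i) - c (i - a)) -
      ∑ b ∈ range H, (p : ℚ) * (c (i - b) / ((a : ℚ) - b)) := by
    rw [TT, mul_sub, mul_sum]; ring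
  rw [e]
  refine sub_mem ?_ (sum_mem fun b hb => ?_)
  · by_cases hia : i ≤ a
    · rw [Nat.sub_eq_zero_of_le hia, D.c0, sub_zero]
      have : (a : ℤ) - i = ((a - i : ℕ) : ℤ) := by omega
      rw [this]
      exact mul_mem (natCast_mem _ p) (D.S1 _ (by omega))
    · have : (a : ℤ) - i = -((i - a : ℕ) : ℤ) := by omega
      rw [this]
      exact D.S3 _ (by omega) (by omega)
  · rw [mem_range] at hb
    by_cases hb' : a + p ≤ b
    · have h1 := D.c1' i b (by omega)
      have hH' : (H : ℤ) ≤ (p : ℤ) ^ 2 := by exact_mod_cast hH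
      have h2 := p_mul_inv_int_mem (p := p) ((a : ℤ) - b) (by rw [abs_lt]; constructor <;> omega)
      have := mul_mem h1 h2
      convert this using 1
      push_cast
      rw [div_eq_mul_inv]; ring
    · have := mul_mem (D.c2 (i - b) (by omega)) (inv_sub_mem (p := p) a b (by omega) (by omega))
      convert this using 1
      rw [div_eq_mul_inv]; ring

theorem Data.gamma (D : Data p δ H S c) (i a : ℕ) (ha : a < p)
    (haH : H ≤ a + 2 * p) (hai : a < i) (hi : i + δ ≤ H) :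
    (p : ℚ) * TT H S c i (a + p) + c (i - a) ∈ Zp p := by
  have haH' : a ∈ range H := mem_range.2 (by omega)
  have e : (p : ℚ) * TT H S c i (a + p) + c (i - a) = (p : ℚ) * S (((a + p : ℕ) : ℤ) - i) -
      ∑ b ∈ (range H).erase a, (p : ℚ) * (c (i - b) / (((a + p : ℕ) : ℚ) - b)) := by
    rw [TT, mul_sub, mul_sum, ← Finset.add_sum_erase _ _ haH']
    have := p_ne (p := p)
    have e2 : (p : ℚ) * (c (i - a) / (((a + p : ℕ) : ℚ) - a)) = c (i - a) := by
      push_cast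
      rw [add_sub_cancel_left]; field_simp
    rw [e2]; ring
  rw [e]
  refine sub_mem (mul_mem (natCast_mem _ p) (D.S_mem i (a + p) (by omega) (by omega)))
    (sum_mem fun b hb => ?_)
  rw [mem_erase, mem_range] at hb
  have h2 : (((a + p : ℕ) : ℚ) - b)⁻¹ ∈ Zp p := by
    by_cases hb' : a < b
    · exact inv_sub_mem (a + p) b (by omega) (by omega)
    · have := inv_int_mem (p := p) (((a + p : ℕ) : ℤ) - b) (by
        intro hd
        have h3 : (p : ℤ) ∣ (a : ℤ) - b := by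
          have : (a : ℤ) - b = ((a + p : ℕ) : ℤ) - b - p := by push_cast; ring
          rw [this]; exact dvd_sub hd dvd_rfl
        have := Int.le_of_dvd (by omega) h3
        omega)
      simpa using this
  have := mul_mem (D.c2 (i - b) (by omega)) h2
  convert this using 1
  rw [div_eq_mul_inv]; ring

theorem Data.gen (D : Data p δ H S c) (i j : ℕ) (hj : j < p) (hjH : H ≤ j + p) (hi : i + δ ≤ H) :
    TT H S c i j + ∑ a ∈ range (H - p), c (i - a) / ((j : ℚ) - a) ∈ Zp p := by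
  have e : TT H S c i j + ∑ a ∈ range (H - p), c (i - a) / ((j : ℚ) - a) =
      S ((j : ℤ) - i) - ∑ a ∈ Ico (H - p) H, c (i - a) / ((j : ℚ) - a) := by
    rw [TT, ← Finset.sum_range_add_sum_Ico _ (Nat.sub_le H p)]; ring
  rw [e]
  refine sub_mem (D.S_mem i j (by omega) (by omega)) (sum_mem fun a ha => ?_)
  rw [mem_Ico] at ha
  rw [div_eq_mul_inv]
  exact mul_mem (D.c1' i a (by omega)) (inv_sub_mem j a (by omega) (by omega))

end

omit hp in
theorem log_le_one {k : ℕ} (h : k < p ^ 2) : Nat.log p k ≤ 1 := by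
  by_cases hk : k = 0
  · simp [hk]
  · have := Nat.log_lt_of_lt_pow hk h
    omega

theorem inv_nat_mem {k : ℕ} (h : k < p) : (k : ℚ)⁻¹ ∈ Zp p := by
  have := inv_int_mem_of_lt (p := p) k (by rw [abs_lt]; constructor <;> omega)
  simpa using this

theorem p_mul_inv_nat_mem {k : ℕ} (h : k < p ^ 2) : (p : ℚ) * (k : ℚ)⁻¹ ∈ Zp p := by
  have h' : (k : ℤ) < (p : ℤ) ^ 2 := by exact_mod_cast h
  have := p_mul_inv_int_mem (p := p) k (by rw [abs_lt]; constructor <;> omega)
  simpa using this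

theorem inv_nat_mem' {k : ℕ} (h : k < 2 * p) (hk : k ≠ p) : (k : ℚ)⁻¹ ∈ Zp p := by
  by_cases hkp : k < p
  · exact inv_nat_mem hkp
  · have := inv_int_mem (p := p) k (by
      intro hd
      have h3 : (p : ℤ) ∣ (k : ℤ) - p := dvd_sub hd dvd_rfl
      have := Int.le_of_dvd (by omega) h3
      omega)
    simpa using this

theorem two_p_le : 2 * p ≤ p ^ 2 := by
  have := hp.out.two_le
  nlinarith

theorem cc_mem (h2 : p ≠ 2) (l : ℕ) : cc l ∈ Zp p := cc_norm_le h2 l

theorem ccz_mem (h2 : p ≠ 2) (e : ℤ) : ccz e ∈ Zp p := by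
  unfold ccz
  split_ifs
  · exact cc_mem h2 _
  · exact zero_mem _

theorem two_mem : (2 : ℚ) ∈ Zp p := by exact_mod_cast natCast_mem (Zp p) 2

theorem sg_aa_mem (h2 : p ≠ 2) (k : ℕ) (hk : k < 2 * p) : (p : ℚ) * sg k - aa k ∈ Zp p := by
  rw [sg_eq, aa_eq, mul_sum, ← sum_sub_distrib]
  refine sum_mem fun b hb => ?_
  rw [mem_Icc] at hb
  have e : (p : ℚ) * (cc (k - b) * XX b) - cc (k - b) * (2 * cc (b - 1) / (b : ℚ)) =
      cc (k - b) * ((p : ℚ) * XX b - 2 * cc (b - 1) / (b : ℚ)) := by ring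
  rw [e]
  refine mul_mem (cc_mem h2 _) ?_
  have hp0 := p_ne (p := p)
  by_cases hbp : b = p
  · subst hbp
    have e2 : (b : ℚ) * XX b - 2 * cc (b - 1) / (b : ℚ) =
        -(2 * ∑ l ∈ Ico 1 b, cc (b - 1 - l) / (l : ℚ)) := by
      rw [XX]; field_simp; ring
    rw [e2]
    refine neg_mem (mul_mem two_mem (sum_mem fun l hl => ?_))
    rw [mem_Ico] at hl
    rw [div_eq_mul_inv]
    exact mul_mem (cc_mem h2 _) (inv_nat_mem hl.2)
  · have hb' : (b : ℚ)⁻¹ ∈ Zp p := inv_nat_mem' (by omega) hbp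
    have e2 : (p : ℚ) * XX b - 2 * cc (b - 1) / (b : ℚ) =
        (p : ℚ) * (2 * cc (b - 1) * ((b : ℚ)⁻¹ * (b : ℚ)⁻¹)) -
          2 * (b : ℚ)⁻¹ * ∑ l ∈ Ico 1 b, cc (b - 1 - l) * ((p : ℚ) * (l : ℚ)⁻¹) -
          2 * cc (b - 1) * (b : ℚ)⁻¹ := by
      have : ∑ l ∈ Ico 1 b, cc (b - 1 - l) * ((p : ℚ) * (l : ℚ)⁻¹) =
          (p : ℚ) * ∑ l ∈ Ico 1 b, cc (b - 1 - l) / (l : ℚ) := by
        rw [mul_sum]
        exact sum_congr rfl fun l _ => by rw [div_eq_mul_inv]; ring
      rw [this, XX]; ring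
    rw [e2]
    refine sub_mem (sub_mem (mul_mem (natCast_mem _ p) (mul_mem (mul_mem two_mem (cc_mem h2 _))
      (mul_mem hb' hb'))) (mul_mem (mul_mem two_mem hb') (sum_mem fun l hl => ?_)))
      (mul_mem (mul_mem two_mem (cc_mem h2 _)) hb')
    rw [mem_Ico] at hl
    have := two_p_le (p := p)
    exact mul_mem (cc_mem h2 _) (p_mul_inv_nat_mem (by omega))

theorem data_Mh (h2 : p ≠ 2) (H : ℕ) (hH : H ≤ p ^ 2) :
    Data p 0 H (fun e => Sh (e + 1)) (fun k => aa (k - 1)) where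
  c0 := by simp [aa]
  c1 k hk := by
    have := aa_norm_le h2 (k - 1)
    have hp1 := hp.out.one_lt
    rw [Nat.log_of_lt (by omega)] at this
    simpa [mem_Zp] using this
  c2 k hk := by
    have hp1 := hp.out.one_lt
    have hp2 : 0 < p ^ 2 := by positivity
    have := (aa_norm_le h2 (k - 1)).trans (pow_le_pow_right₀ (by exact_mod_cast hp1.le)
      (log_le_one (p := p) (k := k - 1) (by omega)))
    simpa using pow_mul_mem this
  S1 e he := by
    have : Sh ((e : ℤ) + 1) = yy e := by simp [Sh]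
    rw [this]
    have := yy_norm_le h2 e
    rw [Nat.log_of_lt he] at this
    simpa [mem_Zp] using this
  S2 E h1 hE := by
    have : Sh (-(E : ℤ) + 1) = sg (E - 1) := by
      rw [Sh, if_neg (by omega)]
      congr 1; omega
    rw [this]
    have := sg_norm_le h2 (E - 1)
    rw [Nat.log_of_lt (by omega)] at this
    simpa [mem_Zp] using this
  S3 E h1 hE := by
    have : Sh (-(E : ℤ) + 1) = sg (E - 1) := by
      rw [Sh, if_neg (by omega)]
      congr 1; omega
    rw [this]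
    exact sg_aa_mem h2 _ (by omega)

theorem Mh_eq (H i j : ℕ) (hi : i ≤ H) :
    Mh i j = TT H (fun e => Sh (e + 1)) (fun k => aa (k - 1)) i j := by
  rw [Mh, TT, ← Finset.sum_range_add_sum_Ico _ hi]
  have h0 : ∑ a ∈ Ico i H, aa (i - a - 1) / ((j : ℚ) - a) = 0 := by
    refine sum_eq_zero fun a ha => ?_
    rw [mem_Ico] at ha
    have : i - a - 1 = 0 := by omega
    simp [this, aa]
  rw [h0, add_zero, ← Finset.sum_range_reflect]
  congr 1
  refine sum_congr rfl fun a ha => ?_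
  rw [mem_range] at ha
  have e1 : i - 1 - a = i - a - 1 := by omega
  have e2 : ((i - a - 1 : ℕ) : ℚ) + j + 1 - i = (j : ℚ) - a := by
    obtain ⟨d, rfl⟩ := Nat.exists_eq_add_of_lt ha
    have : a + d + 1 - a - 1 = d := by omega
    rw [this]; push_cast; ring
  rw [e1, e2]

/-- The finite part of the kernel `Z0`. -/
def FF (i j : ℕ) : ℚ := ∑ a ∈ range i, ((i - a : ℕ) : ℚ)⁻¹ / ((j : ℚ) - a)

/-- The translation-invariant part of the kernel `Z0`. -/
def SZ (e : ℤ) : ℚ := if 0 ≤ e then Z0 0 e.toNat else Z0 (-e).toNat 0 + FF (-e).toNat 0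

theorem Z0_FF_succ (i j : ℕ) : Z0 (i + 1) (j + 1) + FF (i + 1) (j + 1) = Z0 i j + FF i j := by
  have e1 : FF (i + 1) (j + 1) = FF i j + ((i : ℚ) + 1)⁻¹ / ((j : ℚ) + 1) := by
    rw [FF, FF, sum_range_succ']
    congr 1
    · refine sum_congr rfl fun a _ => ?_
      rw [Nat.add_sub_add_right]; push_cast; ring_nf
    · simp
  have hi : (i : ℚ) + 1 ≠ 0 := by positivity
  have hj : (j : ℚ) + 1 ≠ 0 := by positivity
  rw [e1]
  by_cases hij : i = j
  · subst hij
    simp only [Z0, if_true, H2, sum_range_succ]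
    field_simp; ring
  · have hij' : (i : ℚ) - j ≠ 0 := sub_ne_zero.2 (by exact_mod_cast hij)
    rw [Z0, Z0, if_neg hij, if_neg (by omega)]
    simp only [H1, sum_range_succ]
    push_cast
    rw [add_sub_add_right_eq_sub]
    field_simp; ring

theorem Z0_FF (i j : ℕ) : Z0 i j + FF i j = SZ ((j : ℤ) - i) := by
  induction i generalizing j with
  | zero => simp [SZ, FF]
  | succ i ih =>
    cases j with
    | zero =>
      rw [SZ, if_neg (by omega)]
      have : (-(((0 : ℕ) : ℤ) - ((i + 1 : ℕ) : ℤ))).toNat = i + 1 := by omega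
      rw [this]
    | succ j =>
      rw [Z0_FF_succ, ih]
      congr 1; push_cast; ring

theorem Z0_eq (H i j : ℕ) (hi : i ≤ H) : Z0 i j = TT H SZ (fun k => (k : ℚ)⁻¹) i j := by
  rw [TT, ← Finset.sum_range_add_sum_Ico _ hi, ← Z0_FF, FF]
  have h0 : ∑ a ∈ Ico i H, ((i - a : ℕ) : ℚ)⁻¹ / ((j : ℚ) - a) = 0 := by
    refine sum_eq_zero fun a ha => ?_
    rw [mem_Ico] at ha
    simp [Nat.sub_eq_zero_of_le ha.1]
  rw [h0]; ring

theorem H1_mem {k : ℕ} (h : k < p) : H1 k ∈ Zp p := by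
  refine sum_mem fun l hl => ?_
  rw [mem_range] at hl
  have := inv_nat_mem (p := p) (k := l + 1) (by omega)
  simpa using this

theorem p_H1_mem {k : ℕ} (h : k < p ^ 2) : (p : ℚ) * H1 k ∈ Zp p := by
  rw [H1, mul_sum]
  refine sum_mem fun l hl => ?_
  rw [mem_range] at hl
  have := p_mul_inv_nat_mem (p := p) (k := l + 1) (by omega)
  simpa using this

theorem SZ_neg (E : ℕ) (h1 : 1 ≤ E) : SZ (-E) = H1 E * (E : ℚ)⁻¹ -
    ∑ a ∈ range E, ((E - a : ℕ) : ℚ)⁻¹ * (a : ℚ)⁻¹ := by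
  rw [SZ, if_neg (by omega)]
  simp only [neg_neg, Int.toNat_natCast]
  rw [Z0, if_neg (by omega), FF, sub_eq_add_neg (H1 E * _), ← sum_neg_distrib]
  congr 1
  · simp [H1, div_eq_mul_inv]
  · refine sum_congr rfl fun a _ => ?_
    simp [div_eq_mul_inv, inv_neg]

theorem data_Z0 (H : ℕ) (hH : H < p ^ 2) : Data p 1 H SZ (fun k => (k : ℚ)⁻¹) where
  c0 := by simp
  c1 k hk := inv_nat_mem (by omega)
  c2 k hk := p_mul_inv_nat_mem (by omega)
  S1 e he := by
    rw [SZ, if_pos (by omega), Int.toNat_natCast, Z0]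
    split_ifs with h
    · simp [H2]
    · have : (H1 0 - H1 e) / (((0 : ℕ) : ℚ) - e) = H1 e * (e : ℚ)⁻¹ := by
        simp [H1, div_eq_mul_inv, inv_neg]
      rw [this]
      exact mul_mem (H1_mem he) (inv_nat_mem he)
  S2 E h1 hE := by
    rw [SZ_neg E h1]
    refine sub_mem (mul_mem (H1_mem (by omega)) (inv_nat_mem (by omega))) (sum_mem fun a ha => ?_)
    rw [mem_range] at ha
    exact mul_mem (inv_nat_mem (by omega)) (inv_nat_mem (by omega))
  S3 E h1 hE := by
    have h2p := two_p_le (p := p)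
    rw [SZ_neg E h1, mul_sub, mul_sum, sub_right_comm]
    refine sub_mem ?_ (sum_mem fun a ha => ?_)
    · by_cases hEp : E = p
      · subst hEp
        have hp0 := p_ne (p := E)
        obtain ⟨d, hd⟩ : ∃ d, E = d + 1 := ⟨E - 1, by omega⟩
        have e1 : H1 E = H1 d + (E : ℚ)⁻¹ := by
          rw [hd, H1, sum_range_succ, H1]; simp
        have : (E : ℚ) * (H1 E * (E : ℚ)⁻¹) - (E : ℚ)⁻¹ = H1 d := by
          rw [e1]; field_simp; ring
        rw [this]
        exact H1_mem (by omega)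
      · have hE' : (E : ℚ)⁻¹ ∈ Zp p := inv_nat_mem' (by omega) hEp
        rw [← mul_assoc]
        exact sub_mem (mul_mem (p_H1_mem (by omega)) hE') hE'
    · rw [mem_range] at ha
      by_cases hap : a < p
      · rw [← mul_assoc]
        exact mul_mem (p_mul_inv_nat_mem (by omega)) (inv_nat_mem hap)
      · rw [mul_left_comm]
        exact mul_mem (inv_nat_mem (by omega)) (p_mul_inv_nat_mem (by omega))

end Crest.Agent.R006.OddP
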