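import Crest.Agent.R006.Poly
import Crest.Agent.R006.PadicBasic
import Crest.Agent.R006.OddPCong

set_option autoImplicit false

namespace Crest.Agent.R006

open Polynomial Finset Filter Topology

namespace OddP

variable {p : ℕ} [hp : Fact p.Prime]

theorem norm_mul_le {a b s t : ℚ} (ha : padicNorm p a ≤ s) (hb : padicNorm p b ≤ t) :
    padicNorm p (a * b) ≤ s * t := by
  rw [padicNorm.mul]
  exact mul_le_mul ha hb (padicNorm.nonneg _) ((padicNorm.nonneg _).trans ha)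

theorem norm_int_mul_le {a b t : ℚ} (ha : a ∈ Zp p) (hb : padicNorm p b ≤ t) :
    padicNorm p (a * b) ≤ t := by
  simpa using norm_mul_le (mem_Zp.1 ha) hb

theorem norm_prod_le {ι : Type*} (s : Finset ι) (f : ι → ℚ) {B : ℚ}
    (h : ∀ i ∈ s, padicNorm p (f i) ≤ B) : padicNorm p (∏ i ∈ s, f i) ≤ B ^ #s := by
  classical
  induction s using Finset.induction_on with
  | empty => simp
  | insert a s ha ih =>
    rw [prod_insert ha, card_insert_of_notMem ha, pow_succ']
    exact norm_mul_le (h a (mem_insert_self _ _)) (ih fun i hi => h i (mem_insert_of_mem hi))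

theorem norm_det_le {n : ℕ} (M : Matrix (Fin n) (Fin n) ℚ) {B : ℚ} (hB : 0 ≤ B)
    (h : ∀ i j, padicNorm p (M i j) ≤ B) : padicNorm p M.det ≤ B ^ n := by
  rw [Matrix.det_apply']
  refine padicNorm.sum_le' (fun σ _ => norm_int_mul_le (intCast_mem _ _) ?_) (pow_nonneg hB n)
  simpa using norm_prod_le (p := p) univ (fun i => M (σ i) i) (fun i _ => h _ _)

theorem three_half_mem (h2 : p ≠ 2) : (3 / 2 : ℚ) ∈ Zp p := by
  rw [div_eq_mul_inv]
  exact mul_mem (by exact_mod_cast natCast_mem (Zp p) 3) (half_mem h2)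

theorem EBm_mem (h2 : p ≠ 2) (N r j : ℕ) : EBm N r j ∈ Zp p :=
  sum_mem fun _ _ => mul_mem (intCast_mem _ _) (ccz_mem h2 _)

theorem E0m_norm_le (h2 : p ≠ 2) (N r j : ℕ) (hj : j ≤ 49 * N) :
    padicNorm p (E0m N r j) ≤ (p : ℚ) ^ (2 * Nat.log p (49 * N)) := by
  refine padicNorm.sum_le' (fun i hi => ?_) (pow_nonneg p_pos.le _)
  rw [mem_range] at hi
  refine padicNorm.sub.trans (max_le ?_ ?_)
  · exact norm_int_mul_le (intCast_mem _ _) (Mh_norm_le h2 _ i j (by omega) hj)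
  · exact norm_int_mul_le (mul_mem (three_half_mem h2) (intCast_mem _ _))
      (Z0_norm_le _ i j (by omega) hj)

theorem Emat_apply (G : ℚ) (N : ℕ) (r k : Fin (36 * N)) : Emat G N r k =
    ∑ j ∈ range (44 * N), ((colQ N k).coeff j : ℚ) * (E0m N r j + 4 * G * EBm N r j) := by
  simp only [Emat, Matrix.of_apply, Rat.cast_id, E0, EB, mul_sum, ← sum_add_distrib]
  exact sum_congr rfl fun j _ => by ring

/-- The linear functional attached to a row. -/
noncomputable def LL (N r : ℕ) (f g : ℕ → ℚ) : ℚ :=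
  ∑ i ∈ range (49 * N + 1),
    (((rowP N r).coeff i : ℚ) * f i - 3 / 2 * ((rowD N r).coeff i : ℚ) * g i)

theorem LL_mem (h2 : p ≠ 2) {N r : ℕ} (hr : r < 36 * N) {f g : ℕ → ℚ}
    (hf : ∀ i, 14 * N < i → i + 0 ≤ 49 * N → f i ∈ Zp p)
    (hg : ∀ i, 14 * N < i → i + 1 ≤ 49 * N → g i ∈ Zp p) : LL N r f g ∈ Zp p := by
  refine sum_mem fun i hi => ?_
  rw [mem_range] at hi
  by_cases h1 : i ≤ 14 * N
  · rw [rowP_coeff_of_le N r i hr h1, rowD_coeff_of_le N r i hr h1]
    simp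
  · refine sub_mem (mul_mem (intCast_mem _ _) (hf i (by omega) (by omega))) ?_
    by_cases h3 : 49 * N ≤ i
    · rw [rowD_coeff_of_ge N r i hr.le h3]
      simp
    · exact mul_mem (mul_mem (three_half_mem h2) (intCast_mem _ _)) (hg i (by omega) (by omega))

theorem LL_lin (N r : ℕ) (x y : ℚ) (f g f' g' : ℕ → ℚ) :
    x * LL N r f g + y * LL N r f' g' =
      LL N r (fun i => x * f i + y * f' i) (fun i => x * g i + y * g' i) := by
  simp only [LL, mul_sum, ← sum_add_distrib]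
  exact sum_congr rfl fun i _ => by ring

theorem LL_sum (N r : ℕ) (s : Finset ℕ) (f g : ℕ → ℕ → ℚ) (y : ℕ → ℚ) :
    ∑ a ∈ s, LL N r (f a) (g a) / y a =
      LL N r (fun i => ∑ a ∈ s, f a i / y a) (fun i => ∑ a ∈ s, g a i / y a) := by
  simp only [LL, sum_div, mul_sum, ← sum_sub_distrib]
  rw [sum_comm]
  exact sum_congr rfl fun i _ => sum_congr rfl fun a _ => by ring

/-- Monomial column, times `p²`. -/
noncomputable def Mc (p : ℕ) (G : ℚ) (N j : ℕ) : Fin (36 * N) → ℚ :=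
  fun r => (p : ℚ) ^ 2 * (E0m N r j + 4 * G * EBm N r j)

/-- Residue vector. -/
noncomputable def ps (N a r : ℕ) : ℚ :=
  LL N r (fun i => aa (i - a - 1)) (fun i => ((i - a : ℕ) : ℚ)⁻¹)

/-- Residue vector, times `p`. -/
noncomputable def Vv (p : ℕ) (N a : ℕ) : Fin (36 * N) → ℚ := fun r => (p : ℚ) * ps N a r

section
variable (h2 : p ≠ 2) {G : ℚ} (hG : G ∈ Zp p) {N : ℕ} (hN : 49 * N < p ^ 2)
include h2 hG hN

omit hN in
theorem GB_mem (r j : ℕ) : 4 * G * EBm N r j ∈ Zp p :=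
  mul_mem (mul_mem (by exact_mod_cast natCast_mem (Zp p) 4) hG) (EBm_mem h2 _ _ _)

theorem Mc_mem (j : ℕ) (hj : j ≤ 49 * N) (r : Fin (36 * N)) : Mc p G N j r ∈ Zp p := by
  rw [Mc, mul_add]
  refine add_mem (pow_mul_mem ((E0m_norm_le h2 N r j hj).trans ?_))
    (mul_mem (pow_mem (natCast_mem _ p) 2) (GB_mem h2 hG _ _))
  have := log_le_one hN
  exact pow_le_pow_right₀ (by exact_mod_cast hp.out.one_lt.le) (by omega)

omit hG in
theorem Vv_mem (a : ℕ) (r : Fin (36 * N)) : Vv p N a r ∈ Zp p := by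
  have := LL_lin N r p 0 (fun i => aa (i - a - 1)) (fun i => ((i - a : ℕ) : ℚ)⁻¹) 0 0
  rw [zero_mul, add_zero] at this
  rw [Vv, ps, this]
  refine LL_mem h2 r.2 (fun i _ hi => ?_) (fun i _ hi => ?_)
  · simpa using (data_Mh h2 _ hN.le).c2 (i - a) (by omega)
  · simpa using (data_Z0 _ hN).c2 (i - a) (by omega)

theorem beta_mem (a : ℕ) (ha : a < p) (haH : 49 * N ≤ a + 2 * p) (r : Fin (36 * N)) :
    (Mc p G N a r - Vv p N a r) / p ∈ Zp p := by
  have hp0 := p_ne (p := p)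
  have e : (Mc p G N a r - Vv p N a r) / p =
      ((p : ℚ) * E0m N r a + (-1) * ps N a r) + (p : ℚ) * (4 * G * EBm N r a) := by
    rw [Mc, Vv]; field_simp; ring
  rw [e]
  refine add_mem ?_ (mul_mem (natCast_mem _ p) (GB_mem h2 hG _ _))
  change (p : ℚ) * LL N r (fun i => Mh i a) (fun i => Z0 i a) + (-1) * ps N a r ∈ _
  rw [ps, LL_lin]
  refine LL_mem h2 r.2 (fun i _ hi => ?_) (fun i _ hi => ?_)
  · have := (data_Mh h2 _ hN.le).beta hN.le i a ha haH hi
    rw [← Mh_eq _ _ _ (by omega)] at this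
    simpa [sub_eq_add_neg] using this
  · have := (data_Z0 _ hN).beta hN.le i a ha haH hi
    rw [← Z0_eq _ _ _ (by omega)] at this
    simpa [sub_eq_add_neg] using this

theorem gamma_mem (a : ℕ) (ha : a < p) (haH : 49 * N ≤ a + 2 * p) (haA : a ≤ 14 * N)
    (r : Fin (36 * N)) : (Mc p G N (a + p) r + Vv p N a r) / p ∈ Zp p := by
  have hp0 := p_ne (p := p)
  have e : (Mc p G N (a + p) r + Vv p N a r) / p =
      ((p : ℚ) * E0m N r (a + p) + 1 * ps N a r) + (p : ℚ) * (4 * G * EBm N r (a + p)) := by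
    rw [Mc, Vv]; field_simp; ring
  rw [e]
  refine add_mem ?_ (mul_mem (natCast_mem _ p) (GB_mem h2 hG _ _))
  change (p : ℚ) * LL N r (fun i => Mh i (a + p)) (fun i => Z0 i (a + p)) + 1 * ps N a r ∈ _
  rw [ps, LL_lin]
  refine LL_mem h2 r.2 (fun i hi' hi => ?_) (fun i hi' hi => ?_)
  · have := (data_Mh h2 _ hN.le).gamma i a ha haH (by omega) hi
    rw [← Mh_eq _ _ _ (by omega)] at this
    simpa using this
  · have := (data_Z0 _ hN).gamma i a ha haH (by omega) hi
    rw [← Z0_eq _ _ _ (by omega)] at this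
    simpa using this

theorem gen_mem (j : ℕ) (hj : j < p) (hjH : 49 * N ≤ j + p) (r : Fin (36 * N)) :
    (Mc p G N j r + ∑ a ∈ range (49 * N - p), ((j : ℚ) - a)⁻¹ * ((p : ℚ) * Vv p N a r)) /
      (p : ℚ) ^ 2 ∈ Zp p := by
  have hp0 := p_ne (p := p)
  have e : (Mc p G N j r + ∑ a ∈ range (49 * N - p), ((j : ℚ) - a)⁻¹ * ((p : ℚ) * Vv p N a r)) /
      (p : ℚ) ^ 2 = (1 * E0m N r j + 1 * ∑ a ∈ range (49 * N - p), ps N a r / ((j : ℚ) - a)) +
        4 * G * EBm N r j := by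
    have : ∑ a ∈ range (49 * N - p), ((j : ℚ) - a)⁻¹ * ((p : ℚ) * Vv p N a r) =
        (p : ℚ) ^ 2 * ∑ a ∈ range (49 * N - p), ps N a r / ((j : ℚ) - a) := by
      rw [mul_sum]
      exact sum_congr rfl fun a _ => by rw [Vv, div_eq_mul_inv]; ring
    rw [this, Mc]; field_simp; ring
  rw [e]
  refine add_mem ?_ (GB_mem h2 hG _ _)
  change 1 * LL N r (fun i => Mh i j) (fun i => Z0 i j) + _ ∈ _
  simp only [ps]
  rw [LL_sum, LL_lin]
  refine LL_mem h2 r.2 (fun i hi' hi => ?_) (fun i hi' hi => ?_)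
  · have := (data_Mh h2 _ hN.le).gen i j hj hjH hi
    rw [← Mh_eq _ _ _ (by omega)] at this
    simpa using this
  · have := (data_Z0 _ hN).gen i j hj hjH hi
    rw [← Z0_eq _ _ _ (by omega)] at this
    simpa using this

theorem pair_mem (a : ℕ) (ha : a < p) (haH : 49 * N ≤ a + 2 * p) (haA : a ≤ 14 * N)
    (r : Fin (36 * N)) : ((p : ℚ)⁻¹ • (Mc p G N a + Mc p G N (a + p))) r ∈ Zp p := by
  have := add_mem (beta_mem h2 hG hN a ha haH r) (gamma_mem h2 hG hN a ha haH haA r)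
  convert this using 1
  simp only [Pi.smul_apply, Pi.add_apply, smul_eq_mul]
  ring

omit h2 hG hN in
theorem norm_le_of_Lat (S0 S1 : Finset (Fin (36 * N) → ℚ)) (h0 : ∀ u ∈ S0, ∀ r, u r ∈ Zp p)
    (h1 : ∀ u ∈ S1, ∀ r, u r ∈ Zp p) (r0 r01 : ℕ) (c0 : #S0 ≤ r0) (c1 : #S0 + #S1 ≤ r01)
    (hM : ∀ j, 6 * N ≤ j → j < 44 * N → Mc p G N j ∈ Lat p S0 S1) :
    padicNorm p (Emat G N).det ≤
      (p : ℚ) ^ ((72 * N : ℤ) - ((36 * N - r0) + (36 * N - r01) : ℕ)) := by
  obtain ⟨z, hz, e⟩ := det_dvd_of_Lat S0 S1 h0 h1 r0 r01 c0 c1 (((p : ℚ) ^ 2) • Emat G N) (by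
    intro k
    have : (fun r => (((p : ℚ) ^ 2) • Emat G N) r k) =
        ∑ j ∈ range (44 * N), ((colQ N k).coeff j : ℚ) • Mc p G N j := by
      ext r
      simp only [Matrix.smul_apply, smul_eq_mul, Emat_apply, Finset.sum_apply, Pi.smul_apply, Mc,
        mul_sum]
      exact sum_congr rfl fun j _ => by ring
    rw [this]
    refine Submodule.sum_mem _ fun j hj => ?_
    rw [mem_range] at hj
    by_cases h6 : j < 6 * N
    · rw [colQ_coeff_eq_zero N k j k.2 (Or.inl h6)]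
      simp
    · exact smul_mem_Lat (intCast_mem _ _) (hM j (by omega) hj))
  rw [Matrix.det_smul, Fintype.card_fin] at e
  set t := (36 * N - r0) + (36 * N - r01)
  have hp0 := p_ne (p := p)
  have hp1 := p_pos (p := p)
  have e2 : (Emat G N).det = (p : ℚ) ^ t * z / (p : ℚ) ^ (72 * N) := by
    rw [← e, ← pow_mul, show 2 * (36 * N) = 72 * N by ring]; field_simp
  rw [e2, padicNorm.div, padicNorm.mul, norm_pow, norm_pow, padicNorm.padicNorm_p_of_prime,
    zpow_sub₀ hp0, inv_pow, inv_pow]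
  have e3 : (p : ℚ) ^ (72 * N : ℤ) = (p : ℚ) ^ (72 * N) := by
    rw [← zpow_natCast]; push_cast; rfl
  rw [e3, zpow_natCast, div_inv_eq_mul, div_eq_mul_inv, mul_comm ((p : ℚ) ^ (72 * N))]
  refine mul_le_mul_of_nonneg_right ?_ (by positivity)
  exact mul_le_of_le_one_right (by positivity) hz

omit h2 hG hN in
theorem pair_Lat {S0 S1 : Finset (Fin (36 * N) → ℚ)} (a : ℕ) (h0 : Mc p G N a ∈ S0)
    (h1 : (p : ℚ)⁻¹ • (Mc p G N a + Mc p G N (a + p)) ∈ S1) :
    Mc p G N (a + p) ∈ Lat p S0 S1 := by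
  have := sub_mem (mem_Lat1 (p := p) (S0 := S0) h1) (mem_Lat0 (p := p) (S1 := S1) h0)
  rwa [smul_smul, mul_inv_cancel₀ p_ne, one_smul, add_sub_cancel_left] at this

theorem case_small (h : 2 * p ≤ 49 * N) : padicNorm p (Emat G N).det ≤
    (p : ℚ) ^ ((72 * N : ℤ) - ((36 * N - (max (6 * N) (49 * N - 2 * p) + 24 * N)) : ℕ)) := by
  classical
  set lo := max (6 * N) (49 * N - 2 * p) with hlo
  have hp2 := hp.out.two_le
  let S0 := (Ico (6 * N) (lo + p) ∪ Ico (14 * N + p + 1) (44 * N)).image (Mc p G N)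
  let S1 := (Icc lo (14 * N)).image fun a => (p : ℚ)⁻¹ • (Mc p G N a + Mc p G N (a + p))
  have c0 : #S0 ≤ lo + 24 * N := by
    refine card_image_le.trans ((card_union_le _ _).trans ?_)
    rw [Nat.card_Ico, Nat.card_Ico]; omega
  have := norm_le_of_Lat (p := p) (G := G) S0 S1 ?_ ?_ (lo + 24 * N) (#S0 + #S1 + 36 * N) c0
    (by omega) ?_
  · rwa [show 36 * N - (#S0 + #S1 + 36 * N) = 0 by omega, add_zero] at this
  · intro u hu r
    obtain ⟨j, hj, rfl⟩ := mem_image.1 hu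
    rw [mem_union, mem_Ico, mem_Ico] at hj
    exact Mc_mem h2 hG hN j (by omega) r
  · intro u hu r
    obtain ⟨a, ha, rfl⟩ := mem_image.1 hu
    rw [mem_Icc] at ha
    exact pair_mem h2 hG hN a (by omega) (by omega) ha.2 r
  · intro j h6 h44
    by_cases hj : j < lo + p ∨ 14 * N + p + 1 ≤ j
    · exact mem_Lat0 (mem_image_of_mem _ (by rw [mem_union, mem_Ico, mem_Ico]; omega))
    · obtain ⟨a, rfl⟩ : ∃ a, j = a + p := ⟨j - p, by omega⟩
      exact pair_Lat a (mem_image_of_mem _ (by rw [mem_union, mem_Ico, mem_Ico]; omega))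
        (mem_image_of_mem _ (by rw [mem_Icc]; omega))

theorem case_large (h : 49 * N < 2 * p) : padicNorm p (Emat G N).det ≤
    (p : ℚ) ^ ((72 * N : ℤ) -
      ((36 * N - ((43 * N - p) + min (6 * N) (44 * N - p) + (30 * N - p))) +
        (36 * N - ((49 * N - p) + (38 * N - p))) : ℕ)) := by
  classical
  have hp2 := hp.out.two_le
  have hp0 := p_ne (p := p)
  let S0 := (Ico (6 * N) (49 * N - p) ∪ Ico p (min (6 * N + p) (44 * N)) ∪
    Ico (14 * N + p) (44 * N)).image (Mc p G N)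
  let S1 := (Ico (44 * N - p) (min (6 * N) (49 * N - p))).image (Vv p N) ∪
    (Ico (6 * N) (min (14 * N) (44 * N - p))).image
      fun a => (p : ℚ)⁻¹ • (Mc p G N a + Mc p G N (a + p))
  have c0 : #S0 ≤ (43 * N - p) + min (6 * N) (44 * N - p) + (30 * N - p) := by
    refine card_image_le.trans ((card_union_le _ _).trans
      ((Nat.add_le_add_right (card_union_le _ _) _).trans ?_))
    rw [Nat.card_Ico, Nat.card_Ico, Nat.card_Ico]; omega
  have c1 : #S1 ≤ (min (6 * N) (49 * N - p) - (44 * N - p)) +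
      (min (14 * N) (44 * N - p) - 6 * N) := by
    refine (card_union_le _ _).trans (Nat.add_le_add (card_image_le.trans ?_)
      (card_image_le.trans ?_)) <;> rw [Nat.card_Ico]
  refine norm_le_of_Lat (p := p) (G := G) S0 S1 ?_ ?_ _ _ c0 (by omega) ?_
  · intro u hu r
    obtain ⟨j, hj, rfl⟩ := mem_image.1 hu
    rw [mem_union, mem_union, mem_Ico, mem_Ico, mem_Ico] at hj
    exact Mc_mem h2 hG hN j (by omega) r
  · intro u hu r
    rcases mem_union.1 hu with hu | hu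
    · obtain ⟨a, ha, rfl⟩ := mem_image.1 hu
      exact Vv_mem h2 hN a r
    · obtain ⟨a, ha, rfl⟩ := mem_image.1 hu
      rw [mem_Ico] at ha
      exact pair_mem h2 hG hN a (by omega) (by omega) (by omega) r
  · have hS0 : ∀ j, (6 * N ≤ j ∧ j < 49 * N - p) ∨ (p ≤ j ∧ j < min (6 * N + p) (44 * N)) ∨
        (14 * N + p ≤ j ∧ j < 44 * N) → Mc p G N j ∈ S0 := fun j hj =>
      mem_image_of_mem _ (by rw [mem_union, mem_union, mem_Ico, mem_Ico, mem_Ico]; tauto)
    have hV : ∀ a, a < 49 * N - p → (p : ℚ) • Vv p N a ∈ Lat p S0 S1 := by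
      intro a ha
      by_cases h6 : 6 * N ≤ a
      · have e : (p : ℚ) • Vv p N a =
            (p : ℚ) • Mc p G N a - (p : ℚ) • (Mc p G N a - Vv p N a) := by
          rw [← smul_sub, sub_sub_cancel]
        rw [e]
        refine sub_mem (smul_mem_Lat (natCast_mem _ p) (mem_Lat0 (hS0 a (by omega))))
          (mem_Lat2 fun r => ?_)
        convert beta_mem h2 hG hN a (by omega) (by omega) r using 1
        simp only [Pi.smul_apply, Pi.sub_apply, smul_eq_mul]
        field_simp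
      · by_cases h44 : a + p < 44 * N
        · have e : (p : ℚ) • Vv p N a =
              (p : ℚ) • (Mc p G N (a + p) + Vv p N a) - (p : ℚ) • Mc p G N (a + p) := by
            rw [← smul_sub, add_sub_cancel_left]
          rw [e]
          refine sub_mem (mem_Lat2 fun r => ?_)
            (smul_mem_Lat (natCast_mem _ p) (mem_Lat0 (hS0 (a + p) (by omega))))
          convert gamma_mem h2 hG hN a (by omega) (by omega) (by omega) r using 1
          simp only [Pi.smul_apply, Pi.add_apply, smul_eq_mul]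
          field_simp
        · exact mem_Lat1 (mem_union_left _ (mem_image_of_mem _ (by rw [mem_Ico]; omega)))
    intro j h6 h44
    by_cases hj : (6 * N ≤ j ∧ j < 49 * N - p) ∨ (p ≤ j ∧ j < min (6 * N + p) (44 * N)) ∨
        (14 * N + p ≤ j ∧ j < 44 * N)
    · exact mem_Lat0 (hS0 j hj)
    · by_cases hjp : j < p
      · have e : Mc p G N j =
            (Mc p G N j + ∑ a ∈ range (49 * N - p), ((j : ℚ) - a)⁻¹ • ((p : ℚ) • Vv p N a)) -
              ∑ a ∈ range (49 * N - p), ((j : ℚ) - a)⁻¹ • ((p : ℚ) • Vv p N a) := by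
          rw [add_sub_cancel_right]
        rw [e]
        refine sub_mem (mem_Lat2 fun r => ?_) (Submodule.sum_mem _ fun a ha => ?_)
        · convert gen_mem h2 hG hN j hjp (by omega) r using 2
          simp only [Pi.smul_apply, Pi.add_apply, smul_eq_mul, Finset.sum_apply]
        · rw [mem_range] at ha
          exact smul_mem_Lat (inv_sub_mem j a (by omega) (by omega)) (hV a ha)
      · obtain ⟨a, rfl⟩ : ∃ a, j = a + p := ⟨j - p, by omega⟩
        exact pair_Lat a (hS0 a (by omega))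
          (mem_union_right _ (mem_image_of_mem _ (by rw [mem_Ico]; omega)))

end

/-- Integer form of `phiN`. -/
def phiZ (N p : ℤ) : ℤ :=
  max (49 * N - p) 0 + max (44 * N - p) 0 + max (43 * N - p) 0 + max (30 * N - p) 0
    - max (51 * N - 2 * p) 0 - max (49 * N - 2 * p) 0 + max (43 * N - 2 * p) 0
    - max (37 * N - 2 * p) 0

theorem phiN_eq (N p : ℕ) : phiN N p = ((phiZ N p : ℤ) : ℝ) := by
  have h : ∀ c : ℝ, 2 * hinge (c / 2 * N) p = max (c * N - 2 * p) 0 := by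
    intro c
    rw [hinge, mul_max_of_nonneg _ _ (by norm_num : (0 : ℝ) ≤ 2)]
    congr 1 <;> ring
  rw [phiN, h, h, h, h, phiZ]
  push_cast
  simp only [hinge]

theorem le_rpow_of_le {x : ℚ} {z : ℤ} {N : ℕ} (h : x ≤ (p : ℚ) ^ z) (hz : z ≤ phiZ N p) :
    (x : ℝ) ≤ (p : ℝ) ^ phiN N p := by
  have h1 : (1 : ℝ) ≤ p := by exact_mod_cast hp.out.one_lt.le
  rw [phiN_eq, Real.rpow_intCast]
  calc (x : ℝ) ≤ (((p : ℚ) ^ z : ℚ) : ℝ) := by exact_mod_cast h
    _ = (p : ℝ) ^ z := by push_cast; rfl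
    _ ≤ _ := zpow_le_zpow_right₀ h1 hz

end OddP

open OddP

theorem det_norm_small {p : ℕ} [Fact p.Prime] (hp : p ≠ 2) (G : ℚ) (N : ℕ) :
    padicNorm p (Emat G N).det ≤
      (max 1 (padicNorm p G) * (p : ℚ) ^ (2 * Nat.log p (49 * N))) ^ (36 * N) := by
  have hp1 : (1 : ℚ) ≤ (p : ℚ) ^ (2 * Nat.log p (49 * N)) :=
    one_le_pow₀ (by exact_mod_cast (Fact.out : p.Prime).one_lt.le)
  have h1 : (1 : ℚ) ≤ max 1 (padicNorm p G) := le_max_left _ _
  have h0 : 0 ≤ max 1 (padicNorm p G) * (p : ℚ) ^ (2 * Nat.log p (49 * N)) := by positivity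
  refine norm_det_le _ h0 fun r k => ?_
  rw [Emat_apply]
  refine padicNorm.sum_le' (fun j hj => norm_int_mul_le (intCast_mem _ _) ?_) h0
  rw [mem_range] at hj
  refine padicNorm.nonarchimedean.trans (max_le ?_ ?_)
  · exact (E0m_norm_le hp N r j (by omega)).trans (le_mul_of_one_le_left (by positivity) h1)
  · refine norm_mul_le (norm_int_mul_le (by exact_mod_cast natCast_mem (Zp p) 4)
      (le_max_right _ _)) ((mem_Zp.1 (EBm_mem hp N r j)).trans hp1)

theorem det_norm_big {p : ℕ} [Fact p.Prime] (hp : p ≠ 2) (G : ℚ) (hG : padicNorm p G ≤ 1) (N : ℕ)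
    (hN : 100 * N ≤ p ^ 2) :
    ((padicNorm p (Emat G N).det : ℚ) : ℝ) ≤ (p : ℝ) ^ phiN N p := by
  have hp2 : 0 < p ^ 2 := pow_pos (Fact.out : p.Prime).pos 2
  have hN' : 49 * N < p ^ 2 := by omega
  by_cases h : 2 * p ≤ 49 * N
  · refine le_rpow_of_le (case_small hp hG hN' h) ?_
    unfold phiZ
    omega
  · refine le_rpow_of_le (case_large hp hG hN' (by omega)) ?_
    unfold phiZ
    omega

end Crest.Agent.R006
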