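import Mathlib

/-!
`p`-integral rationals and a lattice bound for the `p`-adic valuation of a determinant.
-/

set_option autoImplicit false

namespace Crest.Agent.R006.OddP

open Finset

/-- The ring of `p`-integral rationals. -/
def Zp (p : ℕ) [Fact p.Prime] : Subring ℚ where
  carrier := {q | padicNorm p q ≤ 1}
  mul_mem' := by
    intro a b ha hb
    simp only [Set.mem_ofPred_eq] at *
    rw [padicNorm.mul]
    exact mul_le_one₀ ha (padicNorm.nonneg _) hb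
  one_mem' := by simp
  add_mem' := by
    intro a b ha hb
    simp only [Set.mem_ofPred_eq] at *
    exact padicNorm.nonarchimedean.trans (max_le ha hb)
  zero_mem' := by simp
  neg_mem' := by
    intro a ha
    simpa using ha

variable {p : ℕ} [hp : Fact p.Prime]

theorem mem_Zp {q : ℚ} : q ∈ Zp p ↔ padicNorm p q ≤ 1 := Iff.rfl

theorem p_pos : (0 : ℚ) < p := by exact_mod_cast hp.out.pos

theorem p_ne : (p : ℚ) ≠ 0 := p_pos.ne'

theorem norm_pow (q : ℚ) (k : ℕ) : padicNorm p (q ^ k) = padicNorm p q ^ k := by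
  induction k with
  | zero => simp
  | succ k ih => rw [pow_succ, padicNorm.mul, ih, pow_succ]

theorem pow_mul_mem {q : ℚ} {k : ℕ} (h : padicNorm p q ≤ (p : ℚ) ^ k) : (p : ℚ) ^ k * q ∈ Zp p := by
  rw [mem_Zp, padicNorm.mul, norm_pow, padicNorm.padicNorm_p_of_prime, inv_pow]
  have : (0 : ℚ) < (p : ℚ) ^ k := pow_pos p_pos k
  rw [inv_mul_le_iff₀ this]
  simpa using h

theorem inv_int_mem (m : ℤ) (h : ¬ (p : ℤ) ∣ m) : (m : ℚ)⁻¹ ∈ Zp p := by
  rw [mem_Zp, ← one_div, padicNorm.div, (padicNorm.int_eq_one_iff m).2 h]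
  simp

theorem inv_int_mem_of_lt (m : ℤ) (h : |m| < p) : (m : ℚ)⁻¹ ∈ Zp p := by
  by_cases h0 : m = 0
  · subst h0; simp
  · apply inv_int_mem
    intro hd
    have := Int.le_of_dvd (abs_pos.2 h0) ((dvd_abs _ _).2 hd)
    omega

theorem p_mul_inv_int_mem (m : ℤ) (h : |m| < (p : ℤ) ^ 2) : (p : ℚ) * (m : ℚ)⁻¹ ∈ Zp p := by
  by_cases hd : (p : ℤ) ∣ m
  · obtain ⟨c, rfl⟩ := hd
    have hp0 : (0 : ℤ) < p := by exact_mod_cast hp.out.pos
    have hc : |c| < p := by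
      rw [abs_mul, abs_of_pos hp0, sq] at h
      exact lt_of_mul_lt_mul_left h hp0.le
    have : (p : ℚ) * (((p : ℤ) * c : ℤ) : ℚ)⁻¹ = (c : ℚ)⁻¹ := by
      push_cast
      have := p_ne (p := p)
      rw [mul_inv, ← mul_assoc, mul_inv_cancel₀ this, one_mul]
    rw [this]
    exact inv_int_mem_of_lt c hc
  · exact mul_mem (natCast_mem _ p) (inv_int_mem m hd)

theorem half_mem (h2 : p ≠ 2) : (2 : ℚ)⁻¹ ∈ Zp p := by
  have := inv_int_mem (p := p) 2 (by
    intro hd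
    have : p ∣ 2 := by exact_mod_cast hd
    exact h2 ((Nat.prime_dvd_prime_iff_eq hp.out Nat.prime_two).1 this))
  simpa using this

theorem det_mem {n : ℕ} (M : Matrix (Fin n) (Fin n) ℚ) (h : ∀ i j, M i j ∈ Zp p) :
    M.det ∈ Zp p := by
  rw [Matrix.det_apply']
  exact sum_mem fun σ _ => mul_mem (intCast_mem _ _) (prod_mem fun i _ => h _ _)

theorem det_mul_eq_sum {ι : Type*} [Fintype ι] [DecidableEq ι] {n : ℕ}
    (X : Matrix (Fin n) ι ℚ) (Y : Matrix ι (Fin n) ℚ) :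
    (X * Y).det = ∑ φ : Fin n → ι, (X.submatrix id φ).det * ∏ k, Y (φ k) k := by
  simp only [Matrix.det_apply', Matrix.mul_apply, prod_univ_sum, mul_sum, Fintype.piFinset_univ,
    Matrix.submatrix_apply, id, sum_mul]
  rw [Finset.sum_comm]
  refine sum_congr rfl fun φ _ => sum_congr rfl fun σ _ => ?_
  rw [prod_mul_distrib, mul_assoc]

theorem sum_exp_ge {ι : Type*} [Fintype ι] [DecidableEq ι] {n : ℕ} (e : ι → ℕ) (φ : Fin n → ι)
    (hφ : Function.Injective φ) (r0 r01 : ℕ) (h0 : #{i | e i = 0} ≤ r0) (h1 : #{i | e i ≤ 1} ≤ r01) :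
    (n - r0) + (n - r01) ≤ ∑ k, e (φ k) := by
  have a0 : #{k | e (φ k) = 0} ≤ r0 := by
    refine le_trans (Finset.card_le_card_of_injOn φ ?_ hφ.injOn) h0
    intro k hk
    simpa using hk
  have a1 : #{k | e (φ k) ≤ 1} ≤ r01 := by
    refine le_trans (Finset.card_le_card_of_injOn φ ?_ hφ.injOn) h1
    intro k hk
    simpa using hk
  have b : 2 * n ≤ ∑ k, e (φ k) + #{k | e (φ k) = 0} + #{k | e (φ k) ≤ 1} := by
    rw [Finset.card_filter, Finset.card_filter, ← sum_add_distrib, ← sum_add_distrib]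
    calc 2 * n = ∑ _k : Fin n, 2 := by simp [mul_comm]
      _ ≤ _ := sum_le_sum fun k _ => by split_ifs <;> omega
  have c0 : n ≤ ∑ k, e (φ k) + #{k | e (φ k) = 0} := by
    rw [Finset.card_filter, ← sum_add_distrib]
    calc n = ∑ _k : Fin n, 1 := by simp
      _ ≤ _ := sum_le_sum fun k _ => by split_ifs <;> omega
  have c1 : n ≤ ∑ k, e (φ k) + #{k | e (φ k) ≤ 1} := by
    rw [Finset.card_filter, ← sum_add_distrib]
    calc n = ∑ _k : Fin n, 1 := by simp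
      _ ≤ _ := sum_le_sum fun k _ => by split_ifs <;> omega
  omega

theorem det_dvd_of_span {ι : Type*} [Fintype ι] [DecidableEq ι] {n : ℕ} (g : ι → Fin n → ℚ)
    (hg : ∀ i r, g i r ∈ Zp p) (e : ι → ℕ) (r0 r01 : ℕ) (h0 : #{i | e i = 0} ≤ r0)
    (h1 : #{i | e i ≤ 1} ≤ r01) (M : Matrix (Fin n) (Fin n) ℚ)
    (hM : ∀ k, (fun r => M r k) ∈
      Submodule.span (Zp p) (Set.range fun i => ((p : ℚ) ^ e i) • g i)) :
    ∃ z ∈ Zp p, M.det = (p : ℚ) ^ ((n - r0) + (n - r01)) * z := by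
  have hY : ∀ k, ∃ c : ι → Zp p, ∑ i, c i • ((p : ℚ) ^ e i) • g i = fun r => M r k := fun k =>
    (Submodule.mem_span_range_iff_exists_fun (Zp p)).1 (hM k)
  choose c hc using hY
  have hXY : M = (Matrix.of fun r i => g i r) * (Matrix.of fun i k => (p : ℚ) ^ e i * c k i) := by
    ext r k
    have := congrFun (hc k) r
    simp only [Finset.sum_apply, Pi.smul_apply, smul_eq_mul] at this
    rw [← this, Matrix.mul_apply]
    refine sum_congr rfl fun i _ => ?_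
    simp only [Matrix.of_apply, Subring.smul_def, smul_eq_mul]
    ring
  set t := (n - r0) + (n - r01) with ht
  refine ⟨M.det / (p : ℚ) ^ t, ?_, by have := p_ne (p := p); field_simp⟩
  rw [hXY, det_mul_eq_sum, sum_div]
  refine sum_mem fun φ _ => ?_
  by_cases hφ : Function.Injective φ
  · have hs := sum_exp_ge e φ hφ r0 r01 h0 h1
    obtain ⟨d, hd⟩ := Nat.exists_eq_add_of_le hs
    simp only [Matrix.of_apply]
    rw [prod_mul_distrib, prod_pow_eq_pow_sum, hd, ← ht, pow_add]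
    have hp0 := p_ne (p := p)
    have : ∀ a b : ℚ, a * ((p : ℚ) ^ t * (p : ℚ) ^ d * b) / (p : ℚ) ^ t = a * ((p : ℚ) ^ d * b) := by
      intro a b; field_simp
    rw [this]
    refine mul_mem (det_mem _ fun i j => hg _ _) (mul_mem (pow_mem (natCast_mem _ p) _)
      (prod_mem fun k _ => (c k (φ k)).2))
  · rw [Function.Injective] at hφ
    push Not at hφ
    obtain ⟨a, b, hab, hne⟩ := hφ
    rw [Matrix.det_zero_of_column_eq hne (by intro k; simp [hab])]
    simp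

/-- The lattice spanned by `S0`, `p S1` and `p²` times the integral vectors. -/
def Lat (p : ℕ) [Fact p.Prime] {n : ℕ} (S0 S1 : Finset (Fin n → ℚ)) :
    Submodule (Zp p) (Fin n → ℚ) :=
  Submodule.span (Zp p) ((S0 : Set (Fin n → ℚ)) ∪ {x | ∃ v ∈ S1, x = (p : ℚ) • v} ∪
    {x | ∀ r, x r / (p : ℚ) ^ 2 ∈ Zp p})

theorem mem_Lat0 {n : ℕ} {S0 S1 : Finset (Fin n → ℚ)} {x : Fin n → ℚ} (h : x ∈ S0) :
    x ∈ Lat p S0 S1 :=
  Submodule.subset_span (Or.inl (Or.inl h))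

theorem mem_Lat1 {n : ℕ} {S0 S1 : Finset (Fin n → ℚ)} {x : Fin n → ℚ} (h : x ∈ S1) :
    (p : ℚ) • x ∈ Lat p S0 S1 :=
  Submodule.subset_span (Or.inl (Or.inr ⟨x, h, rfl⟩))

theorem mem_Lat2 {n : ℕ} {S0 S1 : Finset (Fin n → ℚ)} {x : Fin n → ℚ}
    (h : ∀ r, x r / (p : ℚ) ^ 2 ∈ Zp p) : x ∈ Lat p S0 S1 :=
  Submodule.subset_span (Or.inr h)

theorem smul_mem_Lat {n : ℕ} {S0 S1 : Finset (Fin n → ℚ)} {x : Fin n → ℚ} {c : ℚ} (hc : c ∈ Zp p)
    (h : x ∈ Lat p S0 S1) : c • x ∈ Lat p S0 S1 :=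
  (Lat p S0 S1).smul_mem (⟨c, hc⟩ : Zp p) h

theorem det_dvd_of_Lat {n : ℕ} (S0 S1 : Finset (Fin n → ℚ)) (h0 : ∀ u ∈ S0, ∀ r, u r ∈ Zp p)
    (h1 : ∀ u ∈ S1, ∀ r, u r ∈ Zp p) (r0 r01 : ℕ) (c0 : #S0 ≤ r0) (c1 : #S0 + #S1 ≤ r01)
    (M : Matrix (Fin n) (Fin n) ℚ) (hM : ∀ k, (fun r => M r k) ∈ Lat p S0 S1) :
    ∃ z ∈ Zp p, M.det = (p : ℚ) ^ ((n - r0) + (n - r01)) * z := by
  classical
  let g : S0 ⊕ S1 ⊕ Fin n → Fin n → ℚ :=
    Sum.elim (fun u => u.1) (Sum.elim (fun u => u.1) fun k => Pi.single k 1)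
  let e : S0 ⊕ S1 ⊕ Fin n → ℕ := Sum.elim (fun _ => 0) (Sum.elim (fun _ => 1) fun _ => 2)
  refine det_dvd_of_span g ?_ e r0 r01 ?_ ?_ M fun k => ?_
  · rintro (u | u | k) r
    · exact h0 _ u.2 r
    · exact h1 _ u.2 r
    · simp only [g, Sum.elim_inr, Pi.single_apply]
      split_ifs
      · exact one_mem _
      · exact zero_mem _
  · rw [Finset.card_filter, Fintype.sum_sum_type, Fintype.sum_sum_type]
    simpa [e] using c0
  · rw [Finset.card_filter, Fintype.sum_sum_type, Fintype.sum_sum_type]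
    simpa [e] using c1
  · refine Submodule.span_le.2 ?_ (hM k)
    rintro x ((hx | ⟨v, hv, rfl⟩) | hx)
    · exact Submodule.subset_span ⟨Sum.inl ⟨x, hx⟩, by simp [g, e]⟩
    · exact Submodule.subset_span ⟨Sum.inr (Sum.inl ⟨v, hv⟩), by simp [g, e]⟩
    · have : x = ∑ k, (⟨x k / (p : ℚ) ^ 2, hx k⟩ : Zp p) •
          (((p : ℚ) ^ e (Sum.inr (Sum.inr k))) • g (Sum.inr (Sum.inr k))) := by
        ext r
        have := p_ne (p := p)
        simp only [Finset.sum_apply, Pi.smul_apply, Subring.smul_def, smul_eq_mul, g, e,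
          Sum.elim_inr, Pi.single_apply, mul_ite, mul_one, mul_zero, sum_ite_eq, mem_univ, if_true]
        field_simp
      rw [SetLike.mem_coe, this]
      exact Submodule.sum_mem _ fun k _ => Submodule.smul_mem _ _
        (Submodule.subset_span ⟨Sum.inr (Sum.inr k), rfl⟩)

end Crest.Agent.R006.OddP
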