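import Crest.Agent.R006.RealIntA

/-! The two constants `∑ aa k / k = 4 G` and `∑ aa k / (k+1) = π²/4`. -/

set_option autoImplicit false

namespace Crest.Agent.R006

open Finset Filter Topology MeasureTheory

theorem ri_aa_even (m : ℕ) : (aa (2 * m) : ℝ) = 0 := by
  rw [ri_aa_eq, pow_mul]; simp

theorem ri_aa_odd (m : ℕ) : (aa (2 * m + 1) : ℝ) = 2 * riMom (2 * m + 1) := by
  rw [ri_aa_eq, pow_succ, pow_mul]; simp; ring

/-- Summing `g k * aa k` by integrating the odd power series. -/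
theorem ri_tsum_aa (g : ℕ → ℝ) (hg : ∀ k, 0 ≤ g k) (hs : Summable fun k => (aa k : ℝ) * g k)
    (Φ : ℝ → ℝ) (hΦ : ∀ x ∈ Set.Ioo (0 : ℝ) 1,
      HasSum (fun m : ℕ => 2 * g (2 * m + 1) * tt x ^ (2 * m + 1)) (Φ x)) :
    ∑' k, (aa k : ℝ) * g k = ∫ x in (0 : ℝ)..1, Φ x * (2 / (1 + x ^ 2)) := by
  have hodd : Summable fun m : ℕ => (aa (2 * m + 1) : ℝ) * g (2 * m + 1) :=
    hs.comp_injective (i := fun m : ℕ => 2 * m + 1) (fun a b h => by simpa using h)
  have e : ∀ m : ℕ, ∫ x in (0 : ℝ)..1, 2 * g (2 * m + 1) * (tt x ^ (2 * m + 1) * (2 / (1 + x ^ 2)))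
      = (aa (2 * m + 1) : ℝ) * g (2 * m + 1) := by
    intro m
    rw [intervalIntegral.integral_const_mul, ri_aa_odd]
    change _ * riMom _ = _
    ring
  have h := ri_hasSum_int
    (fun m x => 2 * g (2 * m + 1) * (tt x ^ (2 * m + 1) * (2 / (1 + x ^ 2))))
    (fun x => Φ x * (2 / (1 + x ^ 2))) zero_le_one
    (fun m => (continuous_const.mul (ri_cont_mom (2 * m + 1))).intervalIntegrable _ _)
    (fun m => (aa (2 * m + 1) : ℝ) * g (2 * m + 1)) (fun m => ?_) hodd (fun x hx => ?_)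
  · have h2 : HasSum (fun m : ℕ => (aa (2 * m + 1) : ℝ) * g (2 * m + 1))
        (∫ x in (0 : ℝ)..1, Φ x * (2 / (1 + x ^ 2))) := ri_hs_congr h (fun m => (e m).symm) rfl
    have h3 : HasSum (fun m : ℕ => (aa (2 * m) : ℝ) * g (2 * m)) 0 := by
      simp only [ri_aa_even, zero_mul]
      exact hasSum_zero
    have h4 := HasSum.even_add_odd (f := fun k => (aa k : ℝ) * g k) h3 h2
    rw [h4.tsum_eq, zero_add]
  · rw [← e m]
    apply le_of_eq
    refine intervalIntegral.integral_congr fun x hx => ?_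
    rw [Set.uIcc_of_le zero_le_one] at hx
    have := ri_tt_nonneg hx.1
    have := hg (2 * m + 1)
    exact abs_of_nonneg (by positivity)
  · refine ri_hs_congr ((hΦ x hx).mul_right (2 / (1 + x ^ 2))) (fun m => ?_) rfl
    ring

theorem ri_int_pow_log (n : ℕ) :
    ∫ u in (0 : ℝ)..1, u ^ n * (-Real.log u) = 1 / ((n : ℝ) + 1) ^ 2 := by
  have h0 : ((n : ℝ) + 1) ≠ 0 := by positivity
  have hc : Continuous fun u : ℝ =>
      u ^ (n + 1) / ((n : ℝ) + 1) ^ 2 - u ^ n * (u * Real.log u) / ((n : ℝ) + 1) := by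
    have := Real.continuous_mul_log
    fun_prop
  have hd : ∀ u ∈ Set.Ioo (0 : ℝ) 1, HasDerivAt (fun u : ℝ =>
      u ^ (n + 1) / ((n : ℝ) + 1) ^ 2 - u ^ n * (u * Real.log u) / ((n : ℝ) + 1))
      (u ^ n * (-Real.log u)) u := by
    intro u hu
    have hu0 := hu.1.ne'
    have h1 := ((hasDerivAt_pow (n + 1) u).div_const (((n : ℝ) + 1) ^ 2)).sub
      (((hasDerivAt_pow (n + 1) u).mul (Real.hasDerivAt_log hu0)).div_const ((n : ℝ) + 1))
    have e : (fun u : ℝ =>
      u ^ (n + 1) / ((n : ℝ) + 1) ^ 2 - u ^ n * (u * Real.log u) / ((n : ℝ) + 1)) =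
        fun u : ℝ => u ^ (n + 1) / ((n : ℝ) + 1) ^ 2 - u ^ (n + 1) * Real.log u / ((n : ℝ) + 1) := by
      funext u; ring
    rw [e]
    refine HasDerivAt.congr_deriv (f := fun u : ℝ =>
      u ^ (n + 1) / ((n : ℝ) + 1) ^ 2 - u ^ (n + 1) * Real.log u / ((n : ℝ) + 1)) h1 ?_
    simp only [Nat.add_sub_cancel]
    push_cast
    field_simp
    ring
  have hi : IntervalIntegrable (fun u : ℝ => u ^ n * (-Real.log u)) volume 0 1 :=
    (intervalIntegral.intervalIntegrable_log' (a := 0) (b := 1)).neg.continuousOn_mul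
      (continuous_pow n).continuousOn
  rw [intervalIntegral.integral_eq_sub_of_hasDerivAt_of_le zero_le_one hc.continuousOn hd hi]
  simp

theorem ri_catG : ∫ u in (0 : ℝ)..1, (-Real.log u) / (1 + u ^ 2) = catG := by
  have hi : ∀ n : ℕ, IntervalIntegrable (fun u : ℝ => u ^ n * (-Real.log u)) volume 0 1 := fun n =>
    (intervalIntegral.intervalIntegrable_log' (a := 0) (b := 1)).neg.continuousOn_mul
      (continuous_pow n).continuousOn
  have hs : Summable fun j : ℕ => 1 / (((2 * j : ℕ) : ℝ) + 1) ^ 2 := by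
    have h1 := (summable_nat_add_iff 1).2 hasSum_zeta_two.summable
    have h2 := h1.comp_injective (i := fun m : ℕ => 2 * m) (fun a b h => by simpa using h)
    refine h2.congr fun j => ?_
    simp
  have h := ri_hasSum_int (fun j u => (-1 : ℝ) ^ j * (u ^ (2 * j) * (-Real.log u)))
    (fun u => (-Real.log u) / (1 + u ^ 2)) zero_le_one
    (fun j => (hi (2 * j)).const_mul _) (fun j => 1 / (((2 * j : ℕ) : ℝ) + 1) ^ 2)
    (fun j => ?_) hs (fun u hu => ?_)
  · unfold catG
    refine (HasSum.tsum_eq (ri_hs_congr h (fun j => ?_) rfl)).symm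
    rw [intervalIntegral.integral_const_mul, ri_int_pow_log]
    push_cast
    ring
  · rw [← ri_int_pow_log]
    apply le_of_eq
    refine intervalIntegral.integral_congr fun u hu => ?_
    rw [Set.uIcc_of_le zero_le_one] at hu
    have h1 : 0 ≤ -Real.log u := by linarith [Real.log_nonpos hu.1 hu.2]
    have h2 := hu.1
    simp only [abs_mul, abs_pow, abs_neg, abs_one, one_pow, one_mul]
    rw [abs_of_nonneg h2, ← abs_neg, abs_of_nonneg h1]
  · have h1 : |(-(u ^ 2))| < 1 := by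
      rw [abs_neg, abs_of_nonneg (by positivity)]
      nlinarith [hu.1, hu.2]
    have h2 := (hasSum_geometric_of_abs_lt_one h1).mul_right (-Real.log u)
    refine ri_hs_congr h2 (fun j => ?_) ?_
    · rw [neg_pow (u ^ 2), ← pow_mul]; ring
    · rw [sub_neg_eq_add]; ring

theorem ri_subst :
    ∫ x in (0 : ℝ)..1, (Real.log (1 + tt x) - Real.log (1 - tt x)) * (2 / (1 + x ^ 2)) =
      4 * ∫ u in (0 : ℝ)..1, (-Real.log u) / (1 + u ^ 2) := by
  have e : ∀ f : ℝ → ℝ, ∫ x in (0 : ℝ)..1, f x = ∫ x in Set.Ioo (0 : ℝ) 1, f x := fun f => by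
    rw [intervalIntegral.integral_of_le zero_le_one, integral_Ioc_eq_integral_Ioo]
  have him : (fun x : ℝ => (1 - x) / (1 + x)) '' Set.Ioo (0 : ℝ) 1 = Set.Ioo (0 : ℝ) 1 := by
    have hm : ∀ x ∈ Set.Ioo (0 : ℝ) 1, (1 - x) / (1 + x) ∈ Set.Ioo (0 : ℝ) 1 := by
      intro x hx
      obtain ⟨h1, h2⟩ := hx
      refine ⟨div_pos (by linarith) (by linarith), ?_⟩
      rw [div_lt_one (by linarith)]
      linarith
    apply Set.Subset.antisymm
    · rintro _ ⟨x, hx, rfl⟩
      exact hm x hx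
    · intro u hu
      refine ⟨(1 - u) / (1 + u), hm u hu, ?_⟩
      have : 1 + u ≠ 0 := by linarith [hu.1]
      show (1 - (1 - u) / (1 + u)) / (1 + (1 - u) / (1 + u)) = u
      field_simp
      ring
  have hd : ∀ x ∈ Set.Ioo (0 : ℝ) 1, HasDerivWithinAt (fun x : ℝ => (1 - x) / (1 + x))
      (-2 / (1 + x) ^ 2) (Set.Ioo (0 : ℝ) 1) x := by
    intro x hx
    have h0 : 1 + x ≠ 0 := by linarith [hx.1]
    have h1 := ((hasDerivAt_id x).const_sub 1).div ((hasDerivAt_id x).const_add 1) h0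
    refine (HasDerivAt.congr_deriv (f := fun x : ℝ => (1 - x) / (1 + x)) h1 ?_).hasDerivWithinAt
    simp only [id]
    field_simp
    ring
  have hinj : Set.InjOn (fun x : ℝ => (1 - x) / (1 + x)) (Set.Ioo (0 : ℝ) 1) := by
    intro x hx y hy h
    have h0 : 1 + x ≠ 0 := by linarith [hx.1]
    have h1 : 1 + y ≠ 0 := by linarith [hy.1]
    simp only at h
    field_simp at h
    linarith
  have h := integral_image_eq_integral_abs_deriv_smul measurableSet_Ioo hd hinj
    (fun u => (-Real.log u) / (1 + u ^ 2))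
  rw [him] at h
  rw [e, e, h, ← integral_const_mul]
  refine setIntegral_congr_fun measurableSet_Ioo fun x hx => ?_
  obtain ⟨h1, h2⟩ := hx
  have h3 : 0 < 1 + x := by linarith
  have h4 : 0 < 1 - x := by linarith
  have h5 := ri_pos x
  have e1 : 1 + tt x = (1 + x) ^ 2 / (1 + x ^ 2) := by unfold tt; field_simp; ring
  have e2 : 1 - tt x = (1 - x) ^ 2 / (1 + x ^ 2) := by unfold tt; field_simp; ring
  simp only [smul_eq_mul]
  rw [e1, e2, Real.log_div (by positivity) h5.ne', Real.log_div (by positivity) h5.ne',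
    Real.log_pow, Real.log_pow, Real.log_div h4.ne' h3.ne', abs_of_neg (by
      apply div_neg_of_neg_of_pos <;> [norm_num; positivity])]
  have e3 : 1 + ((1 - x) / (1 + x)) ^ 2 = 2 * (1 + x ^ 2) / (1 + x) ^ 2 := by
    field_simp; ring
  rw [e3]
  push_cast
  field_simp
  ring

theorem ri_s0 : ∑' k : ℕ, ((aa k / (k : ℚ) : ℚ) : ℝ) = 4 * catG := by
  have hs : Summable fun k : ℕ => (aa k : ℝ) * (1 / (k : ℝ)) := by
    refine (ri_summable_aa 0).congr fun k => ?_
    push_cast
    ring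
  have h := ri_tsum_aa (fun k => 1 / (k : ℝ)) (fun k => by positivity) hs
    (fun x => Real.log (1 + tt x) - Real.log (1 - tt x)) (fun x hx => by
      refine ri_hs_congr (Real.hasSum_log_sub_log_of_abs_lt_one
        (ri_abs_tt_lt ⟨by linarith [hx.1], hx.2⟩)) (fun m => ?_) rfl
      push_cast
      ring)
  rw [ri_subst, ri_catG] at h
  rw [← h]
  congr 1
  funext k
  push_cast
  ring

theorem ri_hasSum_odd : HasSum (fun m : ℕ => 1 / (2 * (m : ℝ) + 1) ^ 2) (Real.pi ^ 2 / 8) := by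
  have h1 := hasSum_zeta_two
  have he : HasSum (fun m : ℕ => (1 : ℝ) / ((2 * m : ℕ) : ℝ) ^ 2) (Real.pi ^ 2 / 24) := by
    refine ri_hs_congr (h1.div_const 4) (fun m => ?_) (by ring)
    push_cast
    ring
  have ho : Summable fun m : ℕ => (1 : ℝ) / ((2 * m + 1 : ℕ) : ℝ) ^ 2 :=
    h1.summable.comp_injective (i := fun m : ℕ => 2 * m + 1) (fun a b h => by simpa using h)
  have h2 := HasSum.even_add_odd (f := fun n : ℕ => (1 : ℝ) / (n : ℝ) ^ 2) he ho.hasSum
  have h3 := h1.unique h2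
  refine ri_hs_congr ho.hasSum (fun m => ?_) (by linarith)
  push_cast
  ring

theorem ri_int_s1 : ∫ x in (0 : ℝ)..1, (-Real.log (1 - tt x ^ 2) / tt x) * (2 / (1 + x ^ 2)) =
    Real.pi ^ 2 / 4 := by
  have hi : ∀ m : ℕ, ∫ x in (0 : ℝ)..1, 4 / (2 * (m : ℝ) + 1) * x ^ (4 * m + 1) =
      2 * (1 / (2 * (m : ℝ) + 1) ^ 2) := by
    intro m
    rw [intervalIntegral.integral_const_mul, integral_pow]
    push_cast
    have : (2 * (m : ℝ) + 1) ≠ 0 := by positivity
    have h2 : (4 * (m : ℝ) + 1 + 1) = 2 * (2 * (m : ℝ) + 1) := by ring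
    rw [h2]
    simp
    field_simp
    ring
  have h := ri_hasSum_int (fun m x => 4 / (2 * (m : ℝ) + 1) * x ^ (4 * m + 1))
    (fun x => (-Real.log (1 - tt x ^ 2) / tt x) * (2 / (1 + x ^ 2))) zero_le_one
    (fun m => (continuous_const.mul (continuous_pow _)).intervalIntegrable _ _)
    (fun m => 2 * (1 / (2 * (m : ℝ) + 1) ^ 2)) (fun m => ?_)
    (ri_hasSum_odd.summable.mul_left 2) (fun x hx => ?_)
  · have h2 := ri_hs_congr h (fun m => (hi m).symm) rfl
    rw [h2.unique (ri_hasSum_odd.mul_left 2)]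
    ring
  · rw [← hi m]
    apply le_of_eq
    refine intervalIntegral.integral_congr fun x hx => ?_
    rw [Set.uIcc_of_le zero_le_one] at hx
    have := hx.1
    exact abs_of_nonneg (by positivity)
  · obtain ⟨h1, h2⟩ := hx
    have h3 : |x ^ 2| < 1 := by
      rw [abs_of_nonneg (by positivity)]
      nlinarith
    have h4 := (Real.hasSum_log_sub_log_of_abs_lt_one h3).mul_right (2 / x)
    have h5 := ri_pos x
    have h6 : 0 < 1 - x ^ 2 := by nlinarith
    refine ri_hs_congr h4 (fun m => ?_) ?_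
    · rw [← pow_mul]
      have : 2 * (2 * m + 1) = (4 * m + 1) + 1 := by ring
      rw [this, pow_succ x (4 * m + 1)]
      field_simp
      ring
    · rw [← ri_ff_sq, Real.log_pow]
      unfold ff tt
      rw [Real.log_div h6.ne' h5.ne']
      push_cast
      field_simp
      ring

theorem ri_s1 : ∑' k : ℕ, ((aa k / ((k : ℚ) + 1) : ℚ) : ℝ) = Real.pi ^ 2 / 4 := by
  have hs : Summable fun k : ℕ => (aa k : ℝ) * (1 / ((k : ℝ) + 1)) := by
    refine (ri_summable_aa 1).congr fun k => ?_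
    push_cast
    ring
  have h := ri_tsum_aa (fun k => 1 / ((k : ℝ) + 1)) (fun k => by positivity) hs
    (fun x => -Real.log (1 - tt x ^ 2) / tt x) (fun x hx => by
      have h1 := ri_abs_tt_lt (x := x) ⟨by linarith [hx.1], hx.2⟩
      have h2 : 0 < tt x := by
        unfold tt
        have := hx.1
        positivity
      have h3 : |tt x ^ 2| < 1 := by
        rw [abs_pow]
        nlinarith [abs_nonneg (tt x)]
      refine ri_hs_congr ((Real.hasSum_pow_div_log_of_abs_lt_one h3).div_const (tt x))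
        (fun m => ?_) rfl
      rw [← pow_mul]
      have : 2 * (m + 1) = (2 * m + 1) + 1 := by ring
      rw [this, pow_succ (tt x) (2 * m + 1)]
      push_cast
      field_simp
      ring)
  rw [ri_int_s1] at h
  rw [← h]
  congr 1
  funext k
  push_cast
  ring

end Crest.Agent.R006
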