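import Crest.Agent.R006.Poly
import Crest.Agent.R006.Sums
import Crest.Agent.R006.RealIntB

set_option autoImplicit false

namespace Crest.Agent.R006

open Polynomial Finset Filter Topology

/-- Moments of the column polynomial. -/
noncomputable def riQ (N k m : ℕ) : ℝ := ∫ s in (0 : ℝ)..1, aeval s (colQ N k) * s ^ m

theorem ri_cont_aeval (p : ℤ[X]) : Continuous fun s : ℝ => aeval s p := p.continuous_aeval

theorem ri_colQ_bound (N k m : ℕ) (hN : 0 < N) {s : ℝ} (hs : s ∈ Set.Icc (0 : ℝ) 1) :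
    |aeval s (colQ N k) * s ^ m| ≤ s ^ m - s ^ (m + 1) := by
  obtain ⟨h0, h1⟩ := hs
  have e : aeval s (colQ N k) = s ^ (6 * N + k) * (1 - s) ^ (2 * N) := by
    simp [colQ]
  have h2 : 0 ≤ 1 - s := by linarith
  rw [e, abs_of_nonneg (by positivity)]
  have h3 : s ^ (6 * N + k) ≤ 1 := pow_le_one₀ h0 h1
  have h4 : (1 - s) ^ (2 * N) ≤ 1 - s := pow_le_of_le_one h2 (by linarith) (by omega)
  calc s ^ (6 * N + k) * (1 - s) ^ (2 * N) * s ^ m ≤ 1 * (1 - s) * s ^ m := by gcongr
    _ = s ^ m - s ^ (m + 1) := by ring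

/-- The summable majorant. -/
noncomputable def riB (m : ℕ) : ℝ := 1 / ((m : ℝ) + 1) - 1 / ((m : ℝ) + 2)

theorem riB_summable : Summable riB := by
  refine (ri_hasSum_tel 0).summable.congr fun m => ?_
  simp [riB]

theorem ri_int_colQ_bound (N k m : ℕ) (hN : 0 < N) :
    ∫ s in (0 : ℝ)..1, |aeval s (colQ N k) * s ^ m| ≤ riB m := by
  have h : ∫ s in (0 : ℝ)..1, (s ^ m - s ^ (m + 1)) = riB m := by
    rw [intervalIntegral.integral_sub ((continuous_pow _).intervalIntegrable _ _)
      ((continuous_pow _).intervalIntegrable _ _), integral_pow, integral_pow]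
    simp [riB]
    ring
  rw [← h]
  refine intervalIntegral.integral_mono_on zero_le_one
    (((ri_cont_aeval _).mul (continuous_pow m)).abs.intervalIntegrable _ _)
    (((continuous_pow _).sub (continuous_pow _)).intervalIntegrable _ _)
    fun s hs => ri_colQ_bound N k m hN hs

theorem riQ_bound (N k m : ℕ) (hN : 0 < N) : |riQ N k m| ≤ riB m :=
  (intervalIntegral.abs_integral_le_integral_abs zero_le_one).trans (ri_int_colQ_bound N k m hN)

theorem ri_hasSum_Gam (N k : ℕ) (hN : 0 < N) (x : ℝ) :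
    HasSum (fun m => riQ N k m * tt x ^ m) (Gam N k x) := by
  have ht := ri_abs_tt_le x
  have h := ri_hasSum_int (fun m s => aeval s (colQ N k) * s ^ m * tt x ^ m)
    (fun s => aeval s (colQ N k) / (1 - tt x * s)) zero_le_one
    (fun m => (((ri_cont_aeval _).mul (continuous_pow m)).mul continuous_const).intervalIntegrable
      _ _) riB (fun m => ?_) riB_summable (fun s hs => ?_)
  · refine ri_hs_congr h (fun m => ?_) rfl
    rw [intervalIntegral.integral_mul_const]
    rfl
  · refine le_trans ?_ (ri_int_colQ_bound N k m hN)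
    refine intervalIntegral.integral_mono_on zero_le_one
      ((((ri_cont_aeval _).mul (continuous_pow m)).mul continuous_const).abs.intervalIntegrable _ _)
      (((ri_cont_aeval _).mul (continuous_pow m)).abs.intervalIntegrable _ _) fun s _ => ?_
    rw [abs_mul _ (tt x ^ m), abs_pow]
    exact mul_le_of_le_one_right (abs_nonneg _) (pow_le_one₀ (abs_nonneg _) ht)
  · have h1 : |tt x * s| < 1 := by
      rw [abs_mul, abs_of_pos hs.1]
      nlinarith [hs.1, hs.2, abs_nonneg (tt x)]
    refine ri_hs_congr ((hasSum_geometric_of_abs_lt_one h1).mul_left (aeval s (colQ N k)))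
      (fun m => ?_) ?_
    · rw [mul_pow]; ring
    · rw [div_eq_mul_inv]

theorem ri_term_bound (N k m : ℕ) (hN : 0 < N) (x : ℝ) : |riQ N k m * tt x ^ m| ≤ riB m := by
  rw [abs_mul, abs_pow]
  exact (mul_le_of_le_one_right (abs_nonneg _)
    (pow_le_one₀ (abs_nonneg _) (ri_abs_tt_le x))).trans (riQ_bound N k m hN)

theorem ri_cont_Gam (N k : ℕ) (hN : 0 < N) : Continuous (Gam N k) := by
  have : Gam N k = fun x => ∑' m, riQ N k m * tt x ^ m :=
    funext fun x => (ri_hasSum_Gam N k hN x).tsum_eq.symm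
  rw [this]
  exact continuous_tsum (fun m => continuous_const.mul (ri_cont_tt.pow m)) riB_summable
    fun m x => ri_term_bound N k m hN x

theorem ri_hasSum_mul_Gam (N k : ℕ) (hN : 0 < N) (Φ : ℝ → ℝ) (hΦ : Continuous Φ) {a b : ℝ}
    (hab : a ≤ b) :
    HasSum (fun m => riQ N k m * ∫ x in a..b, Φ x * tt x ^ m) (∫ x in a..b, Φ x * Gam N k x) := by
  have hc : ∀ m, Continuous fun x => Φ x * (riQ N k m * tt x ^ m) := fun m =>
    hΦ.mul (continuous_const.mul (ri_cont_tt.pow m))
  have h := ri_hasSum_int (fun m x => Φ x * (riQ N k m * tt x ^ m))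
    (fun x => Φ x * Gam N k x) hab (fun m => (hc m).intervalIntegrable _ _)
    (fun m => (∫ x in a..b, |Φ x|) * riB m) (fun m => ?_) (riB_summable.mul_left _)
    (fun x _ => (ri_hasSum_Gam N k hN x).mul_left (Φ x))
  · refine ri_hs_congr h (fun m => ?_) rfl
    rw [← intervalIntegral.integral_const_mul]
    congr 1
    funext x
    ring
  · rw [← intervalIntegral.integral_mul_const]
    refine intervalIntegral.integral_mono_on hab ((hc m).abs.intervalIntegrable _ _)
      ((hΦ.abs.mul continuous_const).intervalIntegrable _ _) fun x _ => ?_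
    rw [abs_mul]
    exact mul_le_mul_of_nonneg_left (ri_term_bound N k m hN x) (abs_nonneg _)

/-- Row function on the positive side. -/
noncomputable def riA (N r : ℕ) (x : ℝ) : ℝ :=
  (aeval (tt x) (rowP N r) - 3 / 2 * ff x * aeval (tt x) (rowD N r)) * (2 / (1 + x ^ 2))

/-- Row function on the negative side. -/
noncomputable def riC (N r : ℕ) (x : ℝ) : ℝ := -aeval (tt x) (rowP N r) * (2 / (1 + x ^ 2))

theorem riA_cont (N r : ℕ) : Continuous (riA N r) :=
  (((ri_cont_aeval _).comp ri_cont_tt).sub ((continuous_const.mul ri_cont_ff).mul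
    ((ri_cont_aeval _).comp ri_cont_tt))).mul ri_cont_w

theorem riC_cont (N r : ℕ) : Continuous (riC N r) :=
  ((ri_cont_aeval _).comp ri_cont_tt).neg.mul ri_cont_w

theorem ri_Frow_pos (N r : ℕ) {x : ℝ} (hx : 0 < x) : Frow N r x = riA N r x := by
  simp [Frow, riA, hx]

theorem ri_Frow_nonpos (N r : ℕ) {x : ℝ} (hx : x ≤ 0) : Frow N r x = riC N r x := by
  simp [Frow, riC, not_lt.2 hx]

theorem ri_ii_neg (N r k : ℕ) (hN : 0 < N) :
    IntervalIntegrable (fun x => Frow N r x * Gam N k x) MeasureTheory.volume (-1) 0 := by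
  rw [intervalIntegrable_iff_integrableOn_Ioc_of_le (by norm_num)]
  refine MeasureTheory.IntegrableOn.congr_fun
    (f := fun x => riC N r x * Gam N k x) ?_ (fun x hx => ?_) measurableSet_Ioc
  · exact ((riC_cont N r).mul (ri_cont_Gam N k hN)).integrableOn_Icc.mono_set
      Set.Ioc_subset_Icc_self
  · simp only [ri_Frow_nonpos N r hx.2]

theorem ri_ii_pos (N r k : ℕ) (hN : 0 < N) :
    IntervalIntegrable (fun x => Frow N r x * Gam N k x) MeasureTheory.volume 0 1 := by
  rw [intervalIntegrable_iff_integrableOn_Ioc_of_le (by norm_num)]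
  refine MeasureTheory.IntegrableOn.congr_fun
    (f := fun x => riA N r x * Gam N k x) ?_ (fun x hx => ?_) measurableSet_Ioc
  · exact ((riA_cont N r).mul (ri_cont_Gam N k hN)).integrableOn_Icc.mono_set
      Set.Ioc_subset_Icc_self
  · simp only [ri_Frow_pos N r hx.1]

theorem ri_split (N r k : ℕ) (hN : 0 < N) :
    ∫ x in (-1 : ℝ)..1, Frow N r x * Gam N k x =
      (∫ x in (-1 : ℝ)..0, riC N r x * Gam N k x) + ∫ x in (0 : ℝ)..1, riA N r x * Gam N k x := by
  rw [← intervalIntegral.integral_add_adjacent_intervals (ri_ii_neg N r k hN) (ri_ii_pos N r k hN)]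
  congr 1
  · refine intervalIntegral.integral_congr fun x hx => ?_
    rw [Set.uIcc_of_le (by norm_num)] at hx
    simp only [ri_Frow_nonpos N r hx.2]
  · rw [intervalIntegral.integral_of_le zero_le_one, intervalIntegral.integral_of_le zero_le_one]
    refine MeasureTheory.setIntegral_congr_fun measurableSet_Ioc fun x hx => ?_
    simp only [ri_Frow_pos N r hx.1]

theorem ri_aeval_sum (p : ℤ[X]) (n : ℕ) (h : ∀ i, n ≤ i → p.coeff i = 0) (t : ℝ) :
    aeval t p = ∑ i ∈ range n, (p.coeff i : ℝ) * t ^ i := by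
  by_cases hp : p = 0
  · simp [hp]
  have : p.natDegree < n := by
    by_contra hc
    exact hp (leadingCoeff_eq_zero.1 (h _ (not_lt.1 hc)))
  rw [aeval_eq_sum_range' this]
  simp [zsmul_eq_mul]

theorem ri_row_moment (N r m : ℕ) (hr : r < 36 * N) :
    (∫ x in (-1 : ℝ)..0, riC N r x * tt x ^ m) + (∫ x in (0 : ℝ)..1, riA N r x * tt x ^ m) =
      ∑ i ∈ range (49 * N + 1), (((rowP N r).coeff i : ℝ) * (aa (i + m) : ℝ) -
        3 / 2 * ((rowD N r).coeff i : ℝ) * (1 / ((i : ℝ) + m + 1))) := by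
  have hP := ri_aeval_sum (rowP N r) (49 * N + 1)
    (fun i hi => rowP_coeff_of_gt N r i hr.le (by omega))
  have hD := ri_aeval_sum (rowD N r) (49 * N + 1)
    (fun i hi => rowD_coeff_of_ge N r i hr.le (by omega))
  have e1 : (fun x => riC N r x * tt x ^ m) = fun x => ∑ i ∈ range (49 * N + 1),
      -((rowP N r).coeff i : ℝ) * (tt x ^ (i + m) * (2 / (1 + x ^ 2))) := by
    funext x
    unfold riC
    rw [hP, ← sum_neg_distrib, sum_mul, sum_mul]
    refine sum_congr rfl fun i _ => ?_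
    ring
  have e2 : (fun x => riA N r x * tt x ^ m) = fun x => ∑ i ∈ range (49 * N + 1),
      (((rowP N r).coeff i : ℝ) * (tt x ^ (i + m) * (2 / (1 + x ^ 2))) -
        3 / 2 * ((rowD N r).coeff i : ℝ) * (ff x * tt x ^ (i + m) * (2 / (1 + x ^ 2)))) := by
    funext x
    unfold riA
    rw [hP, hD, mul_sum, ← sum_sub_distrib, sum_mul, sum_mul]
    refine sum_congr rfl fun i _ => ?_
    ring
  have c1 : ∀ (c : ℝ) (n : ℕ), Continuous fun x : ℝ => c * (tt x ^ n * (2 / (1 + x ^ 2))) :=
    fun c n => continuous_const.mul (ri_cont_mom n)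
  have c2 : ∀ (c : ℝ) (n : ℕ), Continuous fun x : ℝ => c * (ff x * tt x ^ n * (2 / (1 + x ^ 2))) :=
    fun c n => continuous_const.mul ((ri_cont_ff.mul (ri_cont_tt.pow n)).mul ri_cont_w)
  have c3 : ∀ (c d : ℝ) (n : ℕ), Continuous fun x : ℝ => c * (tt x ^ n * (2 / (1 + x ^ 2))) -
      d * (ff x * tt x ^ n * (2 / (1 + x ^ 2))) := fun c d n => (c1 c n).sub (c2 d n)
  rw [e1, e2, intervalIntegral.integral_finsetSum (fun i _ => (c1 _ _).intervalIntegrable _ _),
    intervalIntegral.integral_finsetSum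
      (fun i _ => (c3 _ _ _).intervalIntegrable _ _), ← sum_add_distrib]
  refine sum_congr rfl fun i _ => ?_
  rw [intervalIntegral.integral_sub ((c1 _ _).intervalIntegrable _ _)
    ((c2 _ _).intervalIntegrable _ _), intervalIntegral.integral_const_mul,
    intervalIntegral.integral_const_mul, intervalIntegral.integral_const_mul, ri_int_neg, ri_int_ff,
    ri_aa_eq]
  change _ + (_ * riMom _ - _) = _
  push_cast
  ring

theorem riQ_eq (N k m : ℕ) (hk : k < 36 * N) :
    riQ N k m = ∑ j ∈ range (44 * N), ((colQ N k).coeff j : ℝ) * (1 / ((j : ℝ) + m + 1)) := by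
  have hQ := ri_aeval_sum (colQ N k) (44 * N)
    (fun j hj => colQ_coeff_eq_zero N k j hk (Or.inr hj))
  have e : (fun s : ℝ => aeval s (colQ N k) * s ^ m) = fun s => ∑ j ∈ range (44 * N),
      ((colQ N k).coeff j : ℝ) * s ^ (j + m) := by
    funext s
    rw [hQ, sum_mul]
    refine sum_congr rfl fun j _ => ?_
    ring
  have c : ∀ (c : ℝ) (n : ℕ), Continuous fun s : ℝ => c * s ^ n :=
    fun c n => continuous_const.mul (continuous_pow n)
  unfold riQ
  rw [e, intervalIntegral.integral_finsetSum (fun j _ => (c _ _).intervalIntegrable _ _)]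
  refine sum_congr rfl fun j _ => ?_
  rw [intervalIntegral.integral_const_mul, integral_pow]
  push_cast
  simp

theorem ri_hasSum_M (i j : ℕ) :
    HasSum (fun m : ℕ => (aa (i + m) : ℝ) * (1 / ((j : ℝ) + m + 1)))
      ((Mh i j : ℝ) + (ccz ((i : ℤ) - j - 1) : ℝ) * (4 * catG) +
        (ccz ((j : ℤ) - i) : ℝ) * (Real.pi ^ 2 / 4)) := by
  have h := tsum_aa (K := ℝ) ri_summable_aa ri_aa_tendsto i j
  rw [ri_s0, ri_s1] at h
  have hs : Summable fun m : ℕ => ((aa (i + m) / ((j : ℚ) + m + 1) : ℚ) : ℝ) := by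
    refine ((summable_nat_add_iff i).2 (ri_summable_aa ((j : ℤ) + 1 - i))).congr fun m => ?_
    rw [add_comm m i]
    push_cast
    congr 1
    ring
  refine ri_hs_congr hs.hasSum (fun m => ?_) h.symm
  push_cast
  ring

theorem Emat_eq_integral (N r k : ℕ) (hr : r < 36 * N) (hk : k < 36 * N) :
    (E0 N r k : ℝ) + 4 * catG * (EB N r k : ℝ) = ∫ x in (-1 : ℝ)..1, Frow N r x * Gam N k x := by
  have hN : 0 < N := by omega
  have h1 := (ri_hasSum_mul_Gam N k hN _ (riC_cont N r) (by norm_num : (-1 : ℝ) ≤ 0)).add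
    (ri_hasSum_mul_Gam N k hN _ (riA_cont N r) (zero_le_one' ℝ))
  rw [← ri_split N r k hN] at h1
  have h2 := hasSum_sum (s := range (44 * N)) fun j _ =>
    (hasSum_sum (s := range (49 * N + 1)) fun i _ =>
      ((ri_hasSum_M i j).mul_left ((rowP N r).coeff i : ℝ)).sub
        ((ri_hasSum_Z i j).mul_left (3 / 2 * ((rowD N r).coeff i : ℝ)))).mul_left
      ((colQ N k).coeff j : ℝ)
  have h3 := ri_hs_congr h1 (g := fun m => ∑ j ∈ range (44 * N), ((colQ N k).coeff j : ℝ) *
      ∑ i ∈ range (49 * N + 1),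
        (((rowP N r).coeff i : ℝ) * ((aa (i + m) : ℝ) * (1 / ((j : ℝ) + m + 1))) -
          3 / 2 * ((rowD N r).coeff i : ℝ) * (1 / (((i : ℝ) + m + 1) * ((j : ℝ) + m + 1)))))
    (fun m => by
      rw [← mul_add, ri_row_moment N r m hr, riQ_eq N k m hk, sum_mul]
      refine sum_congr rfl fun j _ => ?_
      rw [mul_assoc, mul_sum, mul_sum, mul_sum]
      refine sum_congr rfl fun i _ => ?_
      have h4 : ((i : ℝ) + m + 1) ≠ 0 := by positivity
      have h5 : ((j : ℝ) + m + 1) ≠ 0 := by positivity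
      field_simp) rfl
  rw [h3.unique h2]
  unfold E0 EB
  push_cast
  rw [mul_sum, ← sum_add_distrib]
  refine sum_congr rfl fun j hj => ?_
  have hj' : j < 44 * N := mem_range.1 hj
  have hc : ∑ i ∈ range (49 * N + 1), ((rowP N r).coeff i : ℝ) * (ccz ((j : ℤ) - i) : ℝ) =
      ((rowD N r).coeff j : ℝ) := by exact_mod_cast contact N r j hr.le hj'
  have hd : ∑ i ∈ range (49 * N + 1),
      ((rowD N r).coeff i : ℝ) * (if i = j then Real.pi ^ 2 / 6 else 0) =
        ((rowD N r).coeff j : ℝ) * (Real.pi ^ 2 / 6) := by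
    rw [sum_eq_single j]
    · simp
    · intro i _ hi
      simp [hi]
    · intro h
      exact absurd (mem_range.2 (by omega)) h
  have e : ∑ i ∈ range (49 * N + 1),
      (((rowP N r).coeff i : ℝ) * ((Mh i j : ℝ) + (ccz ((i : ℤ) - j - 1) : ℝ) * (4 * catG) +
        (ccz ((j : ℤ) - i) : ℝ) * (Real.pi ^ 2 / 4)) -
        3 / 2 * ((rowD N r).coeff i : ℝ) *
          ((Z0 i j : ℝ) + if i = j then Real.pi ^ 2 / 6 else 0)) =
      (E0m N r j : ℝ) + 4 * catG * (EBm N r j : ℝ) +
        ((∑ i ∈ range (49 * N + 1), ((rowP N r).coeff i : ℝ) * (ccz ((j : ℤ) - i) : ℝ)) *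
          (Real.pi ^ 2 / 4) - 3 / 2 * ∑ i ∈ range (49 * N + 1),
            ((rowD N r).coeff i : ℝ) * (if i = j then Real.pi ^ 2 / 6 else 0)) := by
    unfold E0m EBm
    push_cast
    rw [mul_sum, mul_sum, sum_mul, ← sum_sub_distrib, ← sum_add_distrib, ← sum_add_distrib]
    refine sum_congr rfl fun i _ => ?_
    ring
  rw [e, hc, hd]
  ring

theorem integrableOn_Frow_mul_Gam (N r k : ℕ) (hk : k < 36 * N) :
    MeasureTheory.IntegrableOn (fun x => Frow N r x * Gam N k x) (Set.Ioo (-1 : ℝ) 1) := by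
  have hN : 0 < N := by omega
  exact (intervalIntegrable_iff_integrableOn_Ioo_of_le (by norm_num)).1
    ((ri_ii_neg N r k hN).trans (ri_ii_pos N r k hN))

end Crest.Agent.R006
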