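import Crest.Agent.R006.Defs

/-! Elementary real-analytic facts for the integral representation (moments, series). -/

set_option autoImplicit false

namespace Crest.Agent.R006

open Finset Filter Topology MeasureTheory

theorem ri_aa_zero : aa 0 = 0 := rfl
theorem ri_aa_one : aa 1 = 2 := rfl
theorem ri_aa_add_two (k : ℕ) : aa (k + 2) = ((k : ℚ) + 1) / ((k : ℚ) + 2) * aa k := rfl

theorem ri_hs_congr {f g : ℕ → ℝ} {a b : ℝ} (h : HasSum f a) (h1 : ∀ n, g n = f n) (h2 : b = a) :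
    HasSum g b := by
  have : g = f := funext h1
  rw [this, h2]; exact h

/-- Termwise integration on an interval. -/
theorem ri_hasSum_int (F : ℕ → ℝ → ℝ) (G : ℝ → ℝ) {a b : ℝ} (hab : a ≤ b)
    (hF : ∀ n, IntervalIntegrable (F n) volume a b) (bound : ℕ → ℝ)
    (hb : ∀ n, ∫ x in a..b, |F n x| ≤ bound n) (hs : Summable bound)
    (hG : ∀ x ∈ Set.Ioo a b, HasSum (fun n => F n x) (G x)) :
    HasSum (fun n => ∫ x in a..b, F n x) (∫ x in a..b, G x) := by
  have h1 : ∀ n, Integrable (F n) (volume.restrict (Set.Ioo a b)) := fun n =>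
    (intervalIntegrable_iff_integrableOn_Ioo_of_le hab).1 (hF n)
  have e : ∀ f : ℝ → ℝ, ∫ x in a..b, f x = ∫ x in Set.Ioo a b, f x := fun f => by
    rw [intervalIntegral.integral_of_le hab, integral_Ioc_eq_integral_Ioo]
  have h2 : Summable fun n => ∫ x in Set.Ioo a b, ‖F n x‖ := by
    refine Summable.of_nonneg_of_le (fun n => integral_nonneg fun x => norm_nonneg _) ?_ hs
    intro n
    have := hb n
    rw [e] at this
    simpa [Real.norm_eq_abs] using this
  have h3 := hasSum_integral_of_summable_integral_norm h1 h2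
  simp only [e]
  have h4 : ∫ x in Set.Ioo a b, G x = ∫ x in Set.Ioo a b, ∑' n, F n x :=
    setIntegral_congr_fun measurableSet_Ioo fun x hx => (hG x hx).tsum_eq.symm
  rw [h4]
  exact h3

theorem ri_pos (x : ℝ) : 0 < 1 + x ^ 2 := by positivity

theorem ri_abs_tt_le (x : ℝ) : |tt x| ≤ 1 := by
  unfold tt
  rw [abs_div, abs_of_pos (ri_pos x), div_le_one (ri_pos x), abs_le]
  constructor <;> nlinarith [sq_nonneg (x - 1), sq_nonneg (x + 1)]

theorem ri_abs_tt_lt {x : ℝ} (hx : x ∈ Set.Ioo (-1 : ℝ) 1) : |tt x| < 1 := by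
  unfold tt
  rw [abs_div, abs_of_pos (ri_pos x), div_lt_one (ri_pos x), abs_lt]
  obtain ⟨h1, h2⟩ := hx
  constructor <;> nlinarith [sq_pos_of_pos (sub_pos.2 h2), sq_pos_of_pos (by linarith : 0 < x + 1)]

theorem ri_tt_nonneg {x : ℝ} (hx : 0 ≤ x) : 0 ≤ tt x := by
  unfold tt; positivity

theorem ri_cont_tt : Continuous tt := by
  unfold tt
  exact (continuous_const.mul continuous_id).div (by fun_prop) fun x => (ri_pos x).ne'

theorem ri_cont_ff : Continuous ff := by
  unfold ff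
  exact (by fun_prop : Continuous fun x : ℝ => 1 - x ^ 2).div (by fun_prop) fun x => (ri_pos x).ne'

theorem ri_cont_w : Continuous fun x : ℝ => 2 / (1 + x ^ 2) :=
  continuous_const.div (by fun_prop) fun x => (ri_pos x).ne'

theorem ri_deriv_tt (x : ℝ) : HasDerivAt tt (ff x * (2 / (1 + x ^ 2))) x := by
  have h1 : HasDerivAt (fun x : ℝ => 2 * x) 2 x := by simpa using (hasDerivAt_id x).const_mul 2
  have h2 : HasDerivAt (fun x : ℝ => 1 + x ^ 2) (2 * x) x := by
    simpa using (hasDerivAt_pow 2 x).const_add 1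
  have h3 := h1.div h2 (ri_pos x).ne'
  refine HasDerivAt.congr_deriv (f := tt) h3 ?_
  unfold ff
  have := (ri_pos x).ne'
  field_simp
  ring

theorem ri_deriv_ff (x : ℝ) : HasDerivAt ff (-(tt x * (2 / (1 + x ^ 2)))) x := by
  have h1 : HasDerivAt (fun x : ℝ => 1 - x ^ 2) (-(2 * x)) x := by
    simpa using (hasDerivAt_pow 2 x).const_sub 1
  have h2 : HasDerivAt (fun x : ℝ => 1 + x ^ 2) (2 * x) x := by
    simpa using (hasDerivAt_pow 2 x).const_add 1
  have h3 := h1.div h2 (ri_pos x).ne'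
  refine HasDerivAt.congr_deriv (f := ff) h3 ?_
  unfold tt
  have := (ri_pos x).ne'
  field_simp
  ring

theorem ri_ff_sq (x : ℝ) : ff x ^ 2 = 1 - tt x ^ 2 := by
  unfold ff tt
  have := (ri_pos x).ne'
  field_simp
  ring

theorem ri_tt_zero : tt 0 = 0 := by simp [tt]
theorem ri_tt_one : tt 1 = 1 := by norm_num [tt]
theorem ri_ff_zero : ff 0 = 1 := by simp [ff]
theorem ri_ff_one : ff 1 = 0 := by simp [ff]
theorem ri_tt_neg (x : ℝ) : tt (-x) = -tt x := by
  unfold tt; rw [neg_sq]; ring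

/-- Moments on `[0,1]`. -/
noncomputable def riMom (n : ℕ) : ℝ := ∫ x in (0 : ℝ)..1, tt x ^ n * (2 / (1 + x ^ 2))

theorem ri_cont_mom (n : ℕ) : Continuous fun x : ℝ => tt x ^ n * (2 / (1 + x ^ 2)) :=
  (ri_cont_tt.pow n).mul ri_cont_w

theorem riMom_one : riMom 1 = 1 := by
  unfold riMom
  have h : ∀ x ∈ Set.uIcc (0 : ℝ) 1,
      HasDerivAt (fun x => -ff x) (tt x ^ 1 * (2 / (1 + x ^ 2))) x := by
    intro x _
    refine HasDerivAt.congr_deriv (f := fun x => -ff x) (ri_deriv_ff x).neg ?_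
    simp
  rw [intervalIntegral.integral_eq_sub_of_hasDerivAt h ((ri_cont_mom 1).intervalIntegrable _ _)]
  simp [ri_ff_zero, ri_ff_one]

theorem riMom_add_two (n : ℕ) : riMom (n + 2) = ((n : ℝ) + 1) / ((n : ℝ) + 2) * riMom n := by
  have h : ∀ x ∈ Set.uIcc (0 : ℝ) 1, HasDerivAt (fun x => tt x ^ (n + 1) * ff x)
      (((n : ℝ) + 1) * (tt x ^ n * (2 / (1 + x ^ 2))) -
        ((n : ℝ) + 2) * (tt x ^ (n + 2) * (2 / (1 + x ^ 2)))) x := by
    intro x _
    have h1 := ((ri_deriv_tt x).pow (n + 1)).mul (ri_deriv_ff x)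
    refine HasDerivAt.congr_deriv (f := fun x => tt x ^ (n + 1) * ff x) h1 ?_
    have h2 := ri_ff_sq x
    simp only [Nat.add_sub_cancel, Pi.pow_apply]
    push_cast
    generalize 2 / (1 + x ^ 2) = w at *
    linear_combination (((n : ℝ) + 1) * tt x ^ n * w) * h2
  have c1 : Continuous fun x : ℝ => ((n : ℝ) + 1) * (tt x ^ n * (2 / (1 + x ^ 2))) :=
    continuous_const.mul (ri_cont_mom n)
  have c2 : Continuous fun x : ℝ => ((n : ℝ) + 2) * (tt x ^ (n + 2) * (2 / (1 + x ^ 2))) :=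
    continuous_const.mul (ri_cont_mom (n + 2))
  have h2 := intervalIntegral.integral_eq_sub_of_hasDerivAt h
    ((c1.sub c2).intervalIntegrable _ _)
  rw [intervalIntegral.integral_sub (c1.intervalIntegrable _ _) (c2.intervalIntegrable _ _),
    intervalIntegral.integral_const_mul, intervalIntegral.integral_const_mul] at h2
  simp only [ri_ff_one, ri_tt_zero, mul_zero, ne_eq, Nat.add_eq_zero_iff, one_ne_zero, and_false,
    not_false_eq_true, zero_pow, zero_mul, sub_self] at h2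
  have h3 : ((n : ℝ) + 2) ≠ 0 := by positivity
  change ((n : ℝ) + 1) * riMom n - ((n : ℝ) + 2) * riMom (n + 2) = 0 at h2
  field_simp
  linarith

theorem ri_aa_eq (n : ℕ) : (aa n : ℝ) = riMom n - (-1) ^ n * riMom n := by
  induction n using Nat.twoStepInduction with
  | zero => simp [ri_aa_zero]
  | one => rw [ri_aa_one, riMom_one]; norm_num
  | more n ih _ =>
    rw [ri_aa_add_two, riMom_add_two]
    push_cast
    rw [ih, pow_add]
    ring

theorem ri_int_neg (n : ℕ) :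
    ∫ x in (-1 : ℝ)..0, tt x ^ n * (2 / (1 + x ^ 2)) = (-1) ^ n * riMom n := by
  have h := intervalIntegral.integral_comp_neg (a := (0 : ℝ)) (b := 1)
    (fun x => tt x ^ n * (2 / (1 + x ^ 2)))
  rw [neg_zero] at h
  rw [← h]
  unfold riMom
  rw [← intervalIntegral.integral_const_mul]
  congr 1
  funext x
  rw [ri_tt_neg, neg_sq, neg_pow]
  ring

theorem ri_int_ff (n : ℕ) :
    ∫ x in (0 : ℝ)..1, ff x * tt x ^ n * (2 / (1 + x ^ 2)) = 1 / ((n : ℝ) + 1) := by
  have h0 : ((n : ℝ) + 1) ≠ 0 := by positivity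
  have h : ∀ x ∈ Set.uIcc (0 : ℝ) 1, HasDerivAt (fun x => tt x ^ (n + 1) / ((n : ℝ) + 1))
      (ff x * tt x ^ n * (2 / (1 + x ^ 2))) x := by
    intro x _
    have h1 := ((ri_deriv_tt x).pow (n + 1)).div_const ((n : ℝ) + 1)
    refine HasDerivAt.congr_deriv (f := fun x => tt x ^ (n + 1) / ((n : ℝ) + 1)) h1 ?_
    simp only [Nat.add_sub_cancel]
    push_cast
    field_simp
  rw [intervalIntegral.integral_eq_sub_of_hasDerivAt h
    (((ri_cont_ff.mul (ri_cont_tt.pow n)).mul ri_cont_w).intervalIntegrable _ _)]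
  simp [ri_tt_one, ri_tt_zero]

theorem ri_aa_nonneg (n : ℕ) : 0 ≤ aa n := by
  induction n using Nat.twoStepInduction with
  | zero => simp [ri_aa_zero]
  | one => rw [ri_aa_one]; norm_num
  | more n ih _ => rw [ri_aa_add_two]; positivity

theorem ri_aa_sq (n : ℕ) : aa n ^ 2 * ((n : ℚ) + 1) ≤ 8 := by
  induction n using Nat.twoStepInduction with
  | zero => simp [ri_aa_zero]
  | one => rw [ri_aa_one]; norm_num
  | more n ih _ =>
    rw [ri_aa_add_two]
    push_cast
    have h0 : (0 : ℚ) < (n : ℚ) + 2 := by positivity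
    have h1 : (((n : ℚ) + 1) / ((n : ℚ) + 2)) ^ 2 * ((n : ℚ) + 2 + 1) ≤ (n : ℚ) + 1 := by
      rw [div_pow, div_mul_eq_mul_div, div_le_iff₀ (by positivity)]
      have : (0 : ℚ) ≤ n := by positivity
      nlinarith
    calc (((n : ℚ) + 1) / ((n : ℚ) + 2) * aa n) ^ 2 * ((n : ℚ) + 2 + 1)
        = aa n ^ 2 * ((((n : ℚ) + 1) / ((n : ℚ) + 2)) ^ 2 * ((n : ℚ) + 2 + 1)) := by ring
      _ ≤ aa n ^ 2 * ((n : ℚ) + 1) := by gcongr
      _ ≤ 8 := ih

theorem ri_aa_tendsto : Tendsto (fun k : ℕ => ((aa k : ℚ) : ℝ)) atTop (𝓝 0) := by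
  have h1 : Tendsto (fun k : ℕ => Real.sqrt (8 * (1 / ((k : ℝ) + 1)))) atTop (𝓝 0) := by
    have := (tendsto_one_div_add_atTop_nhds_zero_nat (𝕜 := ℝ)).const_mul 8
    simpa using this.sqrt
  refine squeeze_zero (fun k => by exact_mod_cast ri_aa_nonneg k) (fun k => ?_) h1
  apply Real.le_sqrt_of_sq_le
  have h : ((aa k : ℚ) : ℝ) ^ 2 * ((k : ℝ) + 1) ≤ 8 := by exact_mod_cast ri_aa_sq k
  rw [mul_one_div, le_div_iff₀ (by positivity)]
  exact h

theorem ri_summable_two : Summable fun k : ℕ => ((aa k : ℚ) : ℝ) / ((k : ℝ) + 2) := by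
  have hnn : ∀ k, (0 : ℝ) ≤ ((aa k : ℚ) : ℝ) := fun k => by exact_mod_cast ri_aa_nonneg k
  have key : ∀ n : ℕ, ∑ k ∈ range n, ((aa k : ℚ) : ℝ) / ((k : ℝ) + 2) =
      2 - (aa n : ℝ) - (aa (n + 1) : ℝ) := by
    intro n
    induction n with
    | zero => simp [ri_aa_zero, ri_aa_one]
    | succ n ih =>
      rw [sum_range_succ, ih, ri_aa_add_two]
      push_cast
      have : ((n : ℝ) + 2) ≠ 0 := by positivity
      field_simp
      ring
  refine summable_of_sum_range_le (c := 2) (fun k => by have := hnn k; positivity) fun n => ?_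
  rw [key]
  linarith [hnn n, hnn (n + 1)]

theorem ri_summable_aa (e : ℤ) : Summable fun k : ℕ => ((aa k / ((k : ℚ) + e) : ℚ) : ℝ) := by
  have hnn : ∀ k, (0 : ℝ) ≤ ((aa k : ℚ) : ℝ) := fun k => by exact_mod_cast ri_aa_nonneg k
  rw [← summable_nat_add_iff (e.natAbs + 1)]
  have h2 := ((summable_nat_add_iff (e.natAbs + 1)).2 ri_summable_two).mul_left
    ((e.natAbs : ℝ) + 3)
  have he : -((e.natAbs : ℕ) : ℝ) ≤ (e : ℝ) := by
    have : -((e.natAbs : ℕ) : ℤ) ≤ e := by omega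
    exact_mod_cast this
  have he0 : (0 : ℝ) ≤ ((e.natAbs : ℕ) : ℝ) := by positivity
  refine Summable.of_nonneg_of_le (fun k => ?_) (fun k => ?_) h2
  · push_cast
    have := hnn (k + (e.natAbs + 1))
    have hk : (0 : ℝ) ≤ k := by positivity
    apply div_nonneg this
    linarith
  · push_cast
    have := hnn (k + (e.natAbs + 1))
    have hk : (0 : ℝ) ≤ k := by positivity
    generalize ((aa (k + (e.natAbs + 1)) : ℚ) : ℝ) = A at *
    generalize ((e.natAbs : ℕ) : ℝ) = m at *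
    rw [← mul_div_assoc, div_le_div_iff₀ (by linarith) (by linarith)]
    have : (k : ℝ) + (m + 1) + 2 ≤ (m + 3) * (k + (m + 1) + e) := by nlinarith
    nlinarith

/-- Telescoping sums. -/
theorem ri_hasSum_tel (a : ℕ) :
    HasSum (fun m : ℕ => 1 / ((a : ℝ) + m + 1) - 1 / ((a : ℝ) + m + 2)) (1 / ((a : ℝ) + 1)) := by
  have hnn : ∀ m : ℕ, 0 ≤ 1 / ((a : ℝ) + m + 1) - 1 / ((a : ℝ) + m + 2) := fun m => by
    have : 1 / ((a : ℝ) + m + 2) ≤ 1 / ((a : ℝ) + m + 1) :=
      one_div_le_one_div_of_le (by positivity) (by linarith)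
    linarith
  rw [hasSum_iff_tendsto_nat_of_nonneg hnn]
  have key : ∀ n : ℕ, ∑ m ∈ range n, (1 / ((a : ℝ) + m + 1) - 1 / ((a : ℝ) + m + 2)) =
      1 / ((a : ℝ) + 1) - 1 / (((n + a : ℕ) : ℝ) + 1) := by
    intro n
    induction n with
    | zero => simp
    | succ n ih =>
      rw [sum_range_succ, ih]
      push_cast
      ring_nf
  simp only [key]
  have := ((tendsto_add_atTop_iff_nat a).2
    (tendsto_one_div_add_atTop_nhds_zero_nat (𝕜 := ℝ))).const_sub (1 / ((a : ℝ) + 1))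
  simpa using this

theorem ri_hasSum_H1 (i : ℕ) :
    HasSum (fun m : ℕ => 1 / ((m : ℝ) + 1) - 1 / ((i : ℝ) + m + 1)) (H1 i : ℝ) := by
  induction i with
  | zero => simp [H1]
  | succ i ih =>
    have h := ih.add (ri_hasSum_tel i)
    have e : ((H1 (i + 1) : ℚ) : ℝ) = (H1 i : ℝ) + 1 / ((i : ℝ) + 1) := by
      unfold H1
      rw [sum_range_succ]
      push_cast
      ring
    refine ri_hs_congr h (fun m => ?_) e
    push_cast
    ring_nf

theorem ri_hasSum_Z (i j : ℕ) :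
    HasSum (fun m : ℕ => 1 / (((i : ℝ) + m + 1) * ((j : ℝ) + m + 1)))
      ((Z0 i j : ℝ) + if i = j then Real.pi ^ 2 / 6 else 0) := by
  by_cases h : i = j
  · subst h
    have h1 := (hasSum_nat_add_iff' (i + 1)).2 hasSum_zeta_two
    simp only [Z0, if_true]
    refine ri_hs_congr h1 (fun m => ?_) ?_
    · push_cast
      ring_nf
    · rw [sum_range_succ']
      unfold H2
      push_cast
      simp
      ring
  · have hij : ((i : ℝ) - j) ≠ 0 := by
      rw [sub_ne_zero]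
      exact_mod_cast h
    have h1 := ((ri_hasSum_H1 i).sub (ri_hasSum_H1 j)).div_const ((i : ℝ) - j)
    simp only [Z0, h, if_false, add_zero]
    push_cast
    refine ri_hs_congr h1 (fun m => ?_) rfl
    have h2 : ((i : ℝ) + m + 1) ≠ 0 := by positivity
    have h3 : ((j : ℝ) + m + 1) ≠ 0 := by positivity
    have h4 : ((m : ℝ) + 1) ≠ 0 := by positivity
    field_simp
    ring

end Crest.Agent.R006
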